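import Vale.Agent.P100.OrbitCert.Data

/-!
# P100: decay of the critical orbit

If `q (N - 2) > N` then `V ≤ C U`, and otherwise `r U ^ (-θ)` is bounded for the small exponent `θ`
that the flux needs.
-/

namespace Vale.Agent.P100.OrbitCert

open Filter Set Topology Orbit

noncomputable section

variable {N p q T₁ T₀ : ℝ} {U V : ℝ → ℝ}

theorem antitone_of_deriv {f f' : ℝ → ℝ} {b : ℝ} (hd : ∀ T, b ≤ T → HasDerivAt f (f' T) T)
    (hn : ∀ T, b ≤ T → f' T ≤ 0) {S T : ℝ} (hS : b ≤ S) (hST : S ≤ T) : f T ≤ f S := by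
  have h := slope_le (f := f) (C := 0) hST
    (fun x hx => (hd x (hS.trans hx.1)).continuousAt.continuousWithinAt)
    (fun x hx => hd x (hS.trans hx.1.le)) fun x hx => hn x (hS.trans hx.1.le)
  linarith

/-- A bound for large `T` of a continuous function gives one for all `T`. -/
theorem exists_bound_ray {f : ℝ → ℝ} {a b C : ℝ} (hf : ContinuousOn f (Ici a))
    (hb : ∀ T, b ≤ T → f T ≤ C) : ∃ C', ∀ T, a ≤ T → f T ≤ C' := by
  obtain ⟨M, hM⟩ := isCompact_Icc.exists_bound_of_continuousOn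
    (hf.mono (Icc_subset_Ici_self : Icc a (max a b) ⊆ Ici a))
  refine ⟨max C M, fun T hT => ?_⟩
  rcases le_total T (max a b) with h | h
  · exact ((le_abs_self _).trans (hM T ⟨hT, h⟩)).trans (le_max_right _ _)
  · exact (hb T ((le_max_right a b).trans h)).trans (le_max_left _ _)

namespace Setting

variable (s : Setting N p q T₁ T₀ U V)
include s

theorem qS_gt : 2 < q * (N - 2) := by
  have hα := s.α_pos; have hβ := s.β_pos; have hS := s.sum_eq; have hN := s.N_pos
  have e : q * cα N q = cα N p + 2 := by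
    have : q + 1 ≠ 0 := by linarith [s.q_pos]
    have h : (q + 1) * cα N q = N := by unfold cα; field_simp
    linarith
  rw [← hS]
  nlinarith [mul_pos s.q_pos hβ]

theorem U_lower : ∃ c > 0, ∀ T, 1 ≤ T → c * T ^ (-((N - 2) / 2)) ≤ U T := by
  refine ⟨U 1, s.U_pos (by linarith [s.lt_zero]), fun T hT => ?_⟩
  have hd : ∀ x, 1 ≤ x → HasDerivAt (fun x => -(U x * x ^ ((N - 2) / 2)))
      (-(x ^ ((N - 2) / 2) / x * U x * ((N - 2) - qX N p U V x) / 2)) x := fun x hx => by
    have hx0 : 0 < x := by linarith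
    have hU := (s.U_pos (T := x) (by linarith [s.lt_zero])).ne'
    refine (((s.orbit.deriv_u x (by linarith [s.lt_zero])).mul
      (Real.hasDerivAt_rpow_const (Or.inl hx0.ne'))).neg).congr_deriv ?_
    rw [Real.rpow_sub_one hx0.ne', qX]
    field_simp
    ring
  have h := antitone_of_deriv hd (fun x hx => neg_nonpos.2 (by
    have hx0 : 0 < x := by linarith
    have := s.U_pos (T := x) (by linarith [s.lt_zero])
    have : 0 ≤ (N - 2) - qX N p U V x :=
      (sub_pos.2 (s.ground.qX_lt s.two_lt s.p_pos s.q_pos hx0)).le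
    positivity)) le_rfl hT
  have hT0 : 0 < T := by linarith
  simp only [Real.one_rpow, mul_one] at h
  rw [Real.rpow_neg hT0.le, ← div_eq_mul_inv, div_le_iff₀ (Real.rpow_pos_of_pos hT0 _)]
  linarith

theorem U_upper {ε : ℝ} (hε : 0 < ε) :
    ∃ b ≥ (1 : ℝ), ∃ C > 0, ∀ T, b ≤ T → U T ≤ C * T ^ (-((N - 2 - ε) / 2)) := by
  obtain ⟨b₀, hb₀⟩ := eventually_atTop.1 ((s.ground.tendsto_qX s.two_lt s.p_pos s.q_pos s.lt s.critical).eventually
    (eventually_ge_nhds (show N - 2 - ε < N - 2 by linarith)))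
  set b := max b₀ 1
  have hb1 : (1 : ℝ) ≤ b := le_max_right _ _
  have hb0 : 0 < b := by linarith
  set k := (N - 2 - ε) / 2 with hk
  refine ⟨b, hb1, U b * b ^ k, mul_pos (s.U_pos (by linarith [s.lt_zero]))
    (Real.rpow_pos_of_pos hb0 _), fun T hT => ?_⟩
  have hd : ∀ x, b ≤ x → HasDerivAt (fun x => U x * x ^ k)
      (x ^ k / x * U x * ((N - 2 - ε) - qX N p U V x) / 2) x := fun x hx => by
    have hx0 : 0 < x := by linarith
    have hU := (s.U_pos (T := x) (by linarith [s.lt_zero])).ne'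
    refine ((s.orbit.deriv_u x (by linarith [s.lt_zero])).mul
      (Real.hasDerivAt_rpow_const (Or.inl hx0.ne'))).congr_deriv ?_
    rw [Real.rpow_sub_one hx0.ne', qX, hk]
    field_simp
    ring
  have h := antitone_of_deriv hd (fun x hx => by
    have hx0 : 0 < x := by linarith
    have := s.U_pos (T := x) (by linarith [s.lt_zero])
    refine div_nonpos_of_nonpos_of_nonneg (mul_nonpos_of_nonneg_of_nonpos (by positivity) ?_) two_pos.le
    linarith [hb₀ x ((le_max_left _ _).trans hx)]) le_rfl hT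
  have hT0 : 0 < T := by linarith
  rw [Real.rpow_neg hT0.le, ← div_eq_mul_inv, le_div_iff₀ (Real.rpow_pos_of_pos hT0 _)]
  exact h

theorem hasDerivAt_weighted {T : ℝ} (hT : 0 < T) :
    HasDerivAt (fun x => x ^ (N / 2) * du N q U x) (T ^ (N / 2) / T * (U T ^ q / 2)) T := by
  refine ((Real.hasDerivAt_rpow_const (Or.inl hT.ne')).mul
    (Orbit.hasDerivAt_du s.two_lt s.q_pos s.orbit.cont_u hT.ne')).congr_deriv ?_
  rw [Real.rpow_sub_one hT.ne']
  field_simp
  ring

/-- From the decay of `U ^ q` to that of `-V_T`. -/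
theorem v₁_upper {b A k : ℝ} (hb : 1 ≤ b) (hA : 0 < A) (hk : k ≠ N / 2)
    (hU : ∀ T, b ≤ T → U T ^ q ≤ A * T ^ (-k)) :
    ∃ C > 0, ∀ T, b ≤ T → du N q U T ≤ C * T ^ (-(min k (N / 2))) := by
  have hb0 : 0 < b := by linarith
  set e := N / 2 - k with he
  have he0 : e ≠ 0 := sub_ne_zero.2 (Ne.symm hk)
  have hd : ∀ x, b ≤ x → HasDerivAt (fun x => x ^ (N / 2) * du N q U x - A / (2 * e) * x ^ e)
      (x ^ (N / 2) / x / 2 * (U x ^ q - A * x ^ (-k))) x := fun x hx => by
    have hx0 : 0 < x := by linarith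
    refine ((s.hasDerivAt_weighted hx0).sub
      ((Real.hasDerivAt_rpow_const (Or.inl hx0.ne')).const_mul _)).congr_deriv ?_
    rw [Real.rpow_sub_one hx0.ne', he, sub_eq_add_neg (N / 2) k, Real.rpow_add hx0,
      ← sub_eq_add_neg, ← he]
    field_simp
  have key : ∀ T, b ≤ T → T ^ (N / 2) * du N q U T
      ≤ |b ^ (N / 2) * du N q U b - A / (2 * e) * b ^ e| + A / (2 * e) * T ^ e := fun T hT => by
    have h := antitone_of_deriv hd (fun x hx => mul_nonpos_of_nonneg_of_nonpos (by
      have : 0 < x := by linarith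
      positivity) (sub_nonpos.2 (hU x hx))) le_rfl hT
    linarith [le_abs_self (b ^ (N / 2) * du N q U b - A / (2 * e) * b ^ e)]
  set K := |b ^ (N / 2) * du N q U b - A / (2 * e) * b ^ e|
  have hK : 0 ≤ K := abs_nonneg _
  rcases he0.lt_or_gt with h | h
  · refine ⟨K + 1, by linarith, fun T hT => ?_⟩
    have hT0 : 0 < T := by linarith
    rw [min_eq_right (by linarith), Real.rpow_neg hT0.le, ← div_eq_mul_inv,
      le_div_iff₀ (Real.rpow_pos_of_pos hT0 _)]
    have : A / (2 * e) * T ^ e ≤ 0 :=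
      mul_nonpos_of_nonpos_of_nonneg (div_nonpos_of_nonneg_of_nonpos hA.le (by linarith))
        (Real.rpow_nonneg hT0.le _)
    linarith [key T hT]
  · refine ⟨K + A / (2 * e), by have := div_pos hA (mul_pos two_pos h); linarith, fun T hT => ?_⟩
    have hT0 : 0 < T := by linarith
    have hpow : (1 : ℝ) ≤ T ^ e := Real.one_le_rpow (hb.trans hT) h.le
    rw [min_eq_left (by linarith), show -k = e - N / 2 by rw [he]; ring, Real.rpow_sub hT0,
      ← mul_div_assoc, le_div_iff₀ (Real.rpow_pos_of_pos hT0 _)]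
    nlinarith [key T hT, mul_le_mul_of_nonneg_left hpow hK]

/-- From the decay of `-V_T` to that of `V`. -/
theorem V_upper {b B k : ℝ} (hb : 1 ≤ b) (hB : 0 < B) (hk : 1 < k)
    (hv : ∀ T, b ≤ T → du N q U T ≤ B * T ^ (-k)) :
    ∀ T, b ≤ T → V T ≤ B / (k - 1) * T ^ (1 - k) := by
  intro T hT
  have hd : ∀ x, b ≤ x → HasDerivAt (fun x => B / (k - 1) * x ^ (1 - k) - V x)
      (du N q U x - B * x ^ (-k)) x := fun x hx => by
    have hx0 : 0 < x := by linarith
    refine (((Real.hasDerivAt_rpow_const (Or.inl hx0.ne')).const_mul _).sub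
      (s.orbit.deriv_v x (by linarith [s.lt_zero]))).congr_deriv ?_
    rw [show 1 - k - 1 = -k by ring]
    have : k - 1 ≠ 0 := by linarith
    field_simp
    ring1
  have h0 : Tendsto (fun x : ℝ => B / (k - 1) * x ^ (1 - k) - V x) atTop (𝓝 0) := by
    have h1 := (tendsto_rpow_neg_atTop (show 0 < k - 1 by linarith)).const_mul (B / (k - 1))
    rw [show -(k - 1) = 1 - k by ring, mul_zero] at h1
    simpa using h1.sub s.orbit.v_to_zero
  have h : (0 : ℝ) ≤ B / (k - 1) * T ^ (1 - k) - V T := le_of_tendsto h0 (by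
    filter_upwards [eventually_ge_atTop T] with x hx
    exact antitone_of_deriv hd (fun x hx => sub_nonpos.2 (hv x hx)) hT hx)
  linarith

/-- The two alternatives. -/
theorem exists_weight_bound (R : Rule) (hd0 : 0 < R.d) (hd : R.d * (N - 2) < cα N p * N) :
    (∃ C, ∀ T, T₀ ≤ T → V T ≤ C * U T)
      ∨ ∃ C, ∀ T, T₀ ≤ T → ratio p q U V T * U T ^ (-(2 * R.d / (cα N q * N))) ≤ C := by
  have hS : 0 < N - 2 := by linarith [s.two_lt]
  have hq := s.q_pos; have hα := s.α_pos; have hβ := s.β_pos; have hN := s.N_pos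
  set θ := 2 * R.d / (cα N q * N) with hθ
  have hθ0 : 0 < θ := by positivity
  obtain ⟨c, hc, hlow⟩ := s.U_lower
  have hsub : Ici T₀ ⊆ Ici T₁ := Ici_subset_Ici.2 s.orbit.T₁_lt.le
  have hUc := s.orbit.cont_u.continuousOn (s := Ici T₀)
  have hU0 : ∀ x ∈ Ici T₀, U x ≠ 0 := fun x hx => (s.U_pos (hsub hx)).ne'
  rcases lt_or_ge (N / 2) (q * (N - 2) / 2) with hI | hII
  · left
    set ε := (q * (N - 2) - N) / (2 * q) with hε
    have hε0 : 0 < ε := div_pos (by linarith) (by linarith)
    obtain ⟨b, hb, A, hA, hup⟩ := s.U_upper hε0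
    set k := q * ((N - 2 - ε) / 2) with hk
    have hkN : N / 2 < k := by
      have : q * ε = (q * (N - 2) - N) / 2 := by rw [hε]; field_simp
      rw [hk]; linarith
    have hUq : ∀ T, b ≤ T → U T ^ q ≤ A ^ q * T ^ (-k) := fun T hT => by
      have hT0 : 0 < T := by linarith
      refine (Real.rpow_le_rpow (s.U_pos (by linarith [s.lt_zero])).le (hup T hT) hq.le).trans_eq ?_
      rw [Real.mul_rpow hA.le (Real.rpow_nonneg hT0.le _), ← Real.rpow_mul hT0.le, hk]
      congr 2; ring
    obtain ⟨B, hB, hv⟩ := s.v₁_upper hb (Real.rpow_pos_of_pos hA q) hkN.ne' hUq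
    simp only [min_eq_right hkN.le] at hv
    have hV := s.V_upper hb hB (by linarith [s.two_lt]) hv
    obtain ⟨C, hC⟩ := exists_bound_ray (f := fun x => V x / U x) (b := b)
      (C := B / (N / 2 - 1) / c) (s.orbit.cont_v.continuousOn.div hUc hU0) (fun T hT => by
        have hT0 : 0 < T := by linarith
        have h2 := hlow T (hb.trans hT)
        rw [show -((N - 2) / 2) = 1 - N / 2 by ring] at h2
        have hB0 : 0 ≤ B / (N / 2 - 1) := div_nonneg hB.le (by linarith [s.two_lt])
        rw [div_le_iff₀ (s.U_pos (by linarith [s.lt_zero]))]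
        refine (hV T hT).trans ?_
        rw [div_mul_eq_mul_div (B / (N / 2 - 1)) c, le_div_iff₀ hc]
        calc B / (N / 2 - 1) * T ^ (1 - N / 2) * c
            = B / (N / 2 - 1) * (c * T ^ (1 - N / 2)) := by ring
          _ ≤ _ := mul_le_mul_of_nonneg_left h2 hB0)
    exact ⟨C, fun T hT => (div_le_iff₀ (s.U_pos (hsub hT))).1 (hC T hT)⟩
  · right
    have hgap := s.qS_gt
    have hσ : Orbit.sig p q * cα N q = cα N p := by
      have : p + 1 ≠ 0 := by linarith [s.p_pos]
      have : q + 1 ≠ 0 := by linarith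
      unfold cα Orbit.sig; field_simp
    set e₀ := Orbit.sig p q + θ with he₀
    have hσ0 := Orbit.sig_pos s.p_pos s.q_pos
    have hkey : e₀ * (N - 2) < q * (N - 2) - 2 := by
      have eq' : q * cα N q = cα N p + 2 := by
        have h : (q + 1) * cα N q = N := by unfold cα; field_simp
        linarith [s.sum_eq]
      have h1 : θ * cα N q * N = 2 * R.d := by rw [hθ]; field_simp
      refine lt_of_mul_lt_mul_right (a := cα N q * N) ?_ (by positivity)
      calc e₀ * (N - 2) * (cα N q * N)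
          = (Orbit.sig p q * cα N q) * ((N - 2) * N) + θ * cα N q * N * (N - 2) := by rw [he₀]; ring
        _ = cα N p * ((N - 2) * N) + 2 * (R.d * (N - 2)) := by rw [hσ, h1]; ring
        _ < cα N p * ((N - 2) * N) + 2 * (cα N p * N) := by linarith
        _ = ((q * cα N q) * (N - 2) - 2 * cα N q) * N := by
            rw [eq']
            linear_combination (2 * N) * s.sum_eq
        _ = _ := by ring
    set ε := (q * (N - 2) - 2 - e₀ * (N - 2)) / q with hε
    have hε0 : 0 < ε := div_pos (by linarith) hq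
    obtain ⟨b, hb, A, hA, hup⟩ := s.U_upper hε0
    set k := q * ((N - 2 - ε) / 2) with hk
    have hk2 : k = 1 + e₀ * ((N - 2) / 2) := by rw [hk, hε]; field_simp; ring
    have he : 0 < e₀ := by positivity
    have hkN : k < N / 2 := by
      have : 0 < q * ε := mul_pos hq hε0
      rw [hk]; linarith
    have hk1 : 1 < k := by
      have : 0 < e₀ * ((N - 2) / 2) := by positivity
      linarith
    have hUq : ∀ T, b ≤ T → U T ^ q ≤ A ^ q * T ^ (-k) := fun T hT => by
      have hT0 : 0 < T := by linarith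
      refine (Real.rpow_le_rpow (s.U_pos (by linarith [s.lt_zero])).le (hup T hT) hq.le).trans_eq ?_
      rw [Real.mul_rpow hA.le (Real.rpow_nonneg hT0.le _), ← Real.rpow_mul hT0.le, hk]
      congr 2; ring
    obtain ⟨B, hB, hv⟩ := s.v₁_upper hb (Real.rpow_pos_of_pos hA q) hkN.ne hUq
    simp only [min_eq_left hkN.le] at hv
    have hV := s.V_upper hb hB hk1 hv
    have hcont : ContinuousOn (fun x => ratio p q U V x * U x ^ (-θ)) (Ici T₀) :=
      (s.orbit.ratio_cont.mono hsub).mul (hUc.rpow_const fun x hx => Or.inl (hU0 x hx))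
    refine exists_bound_ray (b := b) (C := B / (k - 1) / c ^ e₀) hcont fun T hT => ?_
    have hT0 : 0 < T := by linarith
    have hU := s.U_pos (T := T) (by linarith [s.lt_zero])
    have hB0 : 0 ≤ B / (k - 1) := div_nonneg hB.le (by linarith)
    have h2 := Real.rpow_le_rpow (by positivity) (hlow T (hb.trans hT)) he.le
    rw [Real.mul_rpow hc.le (Real.rpow_nonneg hT0.le _), ← Real.rpow_mul hT0.le,
      show -((N - 2) / 2) * e₀ = 1 - k by rw [hk2]; ring] at h2
    rw [ratio, Real.rpow_neg hU.le, ← div_eq_mul_inv, div_div, ← Real.rpow_add hU,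
      div_le_iff₀ (Real.rpow_pos_of_pos hU _)]
    refine (hV T hT).trans ?_
    rw [div_mul_eq_mul_div (B / (k - 1)), le_div_iff₀ (Real.rpow_pos_of_pos hc _)]
    calc B / (k - 1) * T ^ (1 - k) * c ^ e₀ = B / (k - 1) * (c ^ e₀ * T ^ (1 - k)) := by ring
      _ ≤ _ := mul_le_mul_of_nonneg_left h2 hB0

end Setting

end

end Vale.Agent.P100.OrbitCert
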