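import Vale.Agent.P100.OrbitCert.Point

/-!
# P100: the chosen rule in the variables `S = α + β`, `f = α/S`, `x = ξ/S`, `ζ`, `w₁`

With `g = 1 - f`, `d = 4 f g`, `w = f + (f - g)(g + 1 - x)` the three conditions become: a sum of
nonnegative terms, positivity of `nPP`, positivity of `nE`.
-/

namespace Vale.Agent.P100.OrbitCert

noncomputable section

/-- The point with the chosen constants. -/
def regPoint (S f x z w : ℝ) : Point where
  α := f * S
  β := (1 - f) * S
  d := 4 * f * (1 - f)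
  ξ := x * S
  ζ := z
  w₁ := w
  w := f + (2 * f - 1) * (1 - f) + (2 * f - 1) * (1 - x)
  Dw := -((2 * f - 1) / S * (2 + x * S * (1 - (S + 2) * w / (f * S))))

/-- The normalised coupling. -/
def nLam (S f x z w : ℝ) : ℝ :=
  S * ((f - w) * (z + (w - z) * (1 - x))
      + 2 * w * (1 - f + (1 - x)) * (w + z - 1 + (f - w)))
    + 2 * (w * (2 * (w + z - 1) * (1 - f) + (1 - x) * (w + z - 1 - (w - z))) - (f - w) * (w - z))

/-- The normalised diagonal entry. -/
def nPP (S f x z w : ℝ) : ℝ :=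
  4 * S * (S + 2) * (w + z) * (1 - f + (1 - x)) * (f * (w + z - 1) + (f - w))
    + (2 * f - 1) * (w + z) ^ 2 * (4 * (1 - f) * S - (2 * f - 1) ^ 2)
    + 2 * (2 * f - 1) * (w + z) * ((w - z) * (1 + 2 * (1 - f + (1 - x)))) * (S + (2 * f - 1))
    - (2 * f - 1) * (S + 1) ^ 2 * ((w - z) * (1 + 2 * (1 - f + (1 - x)))) ^ 2

/-- The normalised determinant. -/
def nE (S f x z w : ℝ) : ℝ :=
  (w + z - 1) * (f - w + (2 * f - 1) * (1 - f + (1 - x))) * w * nPP S f x z w
    - (2 * f - 1) * (w + z) * nLam S f x z w ^ 2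

/-- The signs at a point, all strict. -/
structure Point.Good (P : Point) : Prop where
  e_pos : 0 < P.e
  v_pos : 0 < P.v
  π_pos : 0 < P.π₀
  iii_pos : 0 < P.iii
  coupling : P.w₁ * P.L ^ 2 < 4 * P.n₀ * P.π₀

variable {S f x z w : ℝ}

theorem regPoint_e : (regPoint S f x z w).e = w + z - 1 := rfl

theorem regPoint_v :
    (regPoint S f x z w).v = f - w + (2 * f - 1) * (1 - f + (1 - x)) := by
  simp only [Point.v, regPoint]; ring

theorem regPoint_dim : (regPoint S f x z w).dim = S + 2 := by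
  simp only [Point.dim, regPoint]; ring

theorem regPoint_π₀ (hS : S + 2 ≠ 0) (ha : w + z ≠ 0) :
    (regPoint S f x z w).π₀ = (2 * f - 1) * nPP S f x z w / (4 * (S + 2) * (w + z)) := by
  have h1 : 1 + (regPoint S f x z w).e = w + z := by rw [regPoint_e]; ring
  simp only [Point.π₀, Point.aux, h1, regPoint_dim]
  simp only [Point.M, regPoint, nPP]
  field_simp
  ring

theorem regPoint_L (hS : S ≠ 0) (hf : f ≠ 0) (hw : w ≠ 0) :
    (regPoint S f x z w).L = -((2 * f - 1) * nLam S f x z w) / w := by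
  simp only [Point.L, Point.l, Point.k, Point.e, Point.v, regPoint, nLam]
  field_simp
  ring

theorem regPoint_iii (hS : S ≠ 0) (hf : f ≠ 0) :
    (regPoint S f x z w).iii = S * (4 * f * (2 * f - 1) * (1 - x) ^ 2
      + 4 * f * (1 - f) * x * (2 * f - 1) * (1 - f + (1 - x))
      + x * (S + 2) * (f - w) * (1 - f + (2 * f - 1) * (1 - f) + 2 * (2 * f - 1) * (1 - x))) := by
  simp only [Point.iii, Point.dim, regPoint]
  field_simp
  ring

theorem regPoint_det (hS : 0 < S) (hf : 0 < f) (hw : w ≠ 0) (ha : w + z ≠ 0) :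
    4 * (regPoint S f x z w).n₀ * (regPoint S f x z w).π₀
        - (regPoint S f x z w).w₁ * (regPoint S f x z w).L ^ 2
      = (2 * f - 1) * nE S f x z w / (w * (w + z)) := by
  rw [Point.n₀, regPoint_dim, regPoint_e, regPoint_v, regPoint_L hS.ne' hf.ne' hw,
    regPoint_π₀ (by linarith) ha]
  simp only [regPoint, nE]
  field_simp

/-- The third condition holds with the margin of its middle term. -/
theorem regPoint_iii_ge (hS : 0 < S) (hf : 1 / 2 ≤ f) (hf1 : f ≤ 1) (hx : 0 ≤ x) (hx1 : x ≤ 1)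
    (hw : w ≤ f) :
    S * (4 * f * (2 * f - 1) * (1 - x) ^ 2 + 4 * f * (1 - f) * x * (2 * f - 1) * (1 - f))
      ≤ (regPoint S f x z w).iii := by
  have he : (0 : ℝ) ≤ 2 * f - 1 := by linarith
  have hg : (0 : ℝ) ≤ 1 - f := by linarith
  have hy : (0 : ℝ) ≤ 1 - x := by linarith
  rw [regPoint_iii hS.ne' (by linarith)]
  refine mul_le_mul_of_nonneg_left ?_ hS.le
  have h1 : 0 ≤ 4 * f * (1 - f) * x * (2 * f - 1) * (1 - x) := by positivity
  have h2 : 0 ≤ x * (S + 2) * (f - w) * (1 - f + (2 * f - 1) * (1 - f) + 2 * (2 * f - 1) * (1 - x)) := by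
    have := sub_nonneg.2 hw
    positivity
  linarith

theorem regPoint_iii_pos (hS : 0 < S) (hf : 1 / 2 < f) (hf1 : f < 1) (hx : 0 ≤ x) (hx1 : x ≤ 1)
    (hw : w ≤ f) : 0 < (regPoint S f x z w).iii := by
  refine lt_of_lt_of_le ?_ (regPoint_iii_ge hS hf.le hf1.le hx hx1 hw)
  have he : (0 : ℝ) < 2 * f - 1 := by linarith
  have hg : (0 : ℝ) < 1 - f := by linarith
  have hy : (0 : ℝ) ≤ 1 - x := by linarith
  refine mul_pos hS ?_
  rcases hx.eq_or_lt with rfl | hx'
  · simp only [sub_zero, one_pow, mul_one, mul_zero, zero_mul, add_zero]; positivity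
  · positivity

/-- The single sign that is left. -/
theorem regPoint_good (hS : 0 < S) (hf : 1 / 2 < f) (hf1 : f < 1) (hx : 0 ≤ x) (hx1 : x ≤ 1)
    (hw0 : 0 < w) (hw : w ≤ f) (he : 1 < w + z) (hE : 0 < nE S f x z w) :
    (regPoint S f x z w).Good := by
  have heps : (0 : ℝ) < 2 * f - 1 := by linarith
  have ha : (0 : ℝ) < w + z := by linarith
  have hh : 0 < 1 - f + (1 - x) := by linarith
  have hv : 0 < f - w + (2 * f - 1) * (1 - f + (1 - x)) :=
    add_pos_of_nonneg_of_pos (sub_nonneg.2 hw) (mul_pos heps hh)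
  have hk : 0 < (w + z - 1) * (f - w + (2 * f - 1) * (1 - f + (1 - x))) * w := by
    have := sub_pos.2 he
    positivity
  have hP : 0 < nPP S f x z w := by
    refine pos_of_mul_pos_right (a := (w + z - 1) * (f - w + (2 * f - 1) * (1 - f + (1 - x))) * w)
      ?_ hk.le
    have h0 : 0 ≤ (2 * f - 1) * (w + z) * nLam S f x z w ^ 2 := by positivity
    simp only [nE] at hE
    linarith
  refine ⟨by rw [regPoint_e]; linarith, by rw [regPoint_v]; exact hv, ?_,
    regPoint_iii_pos hS hf hf1 hx hx1 hw, ?_⟩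
  · rw [regPoint_π₀ (by linarith) ha.ne']; positivity
  · rw [← sub_pos, regPoint_det hS (by linarith) hw0.ne' ha.ne']; positivity

/-- The determinant at the endpoint `x = 1`, `w₁ = f`, `N ζ = α`. -/
theorem nE_end (hS : S + 2 ≠ 0) (hz : z = f * S / (S + 2)) :
    nE S f 1 z f = 32 * (2 * f - 1) * f ^ 2 * (1 - f) ^ 4 * (f + z - 1) * (f + z) := by
  subst hz
  simp only [nE, nPP, nLam]
  field_simp
  ring

/-- The diagonal entry at the endpoint `x = 1`, `w₁ = f`, `ζ = g`. -/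
theorem nPP_end_pos (hS : 3 ≤ S) (hf : 1 / 2 < f) (hf1 : f < 1) (h : (S + 1) * (2 * f - 1) ≤ 1) :
    0 < nPP S f 1 (1 - f) f := by
  set c := (S + 1) * (2 * f - 1) * (1 + 2 * (1 - f)) with hc
  have he : (0 : ℝ) < 2 * f - 1 := by linarith
  have hg : (0 : ℝ) < 1 - f := by linarith
  have hc0 : 0 ≤ c := by positivity
  have hc2 : c ≤ 2 := by
    calc c ≤ 1 * 2 := mul_le_mul h (by linarith) (by linarith) zero_le_one
      _ = 2 := one_mul _
  have hc4 : c ^ 2 ≤ 4 := le_of_le_of_eq (pow_le_pow_left₀ hc0 hc2 2) (by norm_num)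
  have e : nPP S f 1 (1 - f) f = (2 * f - 1) * (2 * S - (2 * f - 1) ^ 2 - c ^ 2
      + 2 * (2 * f - 1) * (2 * (1 - f)) * S + 2 * (2 * f - 1) ^ 2 * (1 + 2 * (1 - f))) := by
    simp only [nPP, hc]; ring
  rw [e]
  refine mul_pos he ?_
  have h1 : (2 * f - 1) ^ 2 ≤ 1 := pow_le_one₀ he.le (by linarith)
  have h2 : 0 ≤ 2 * (2 * f - 1) * (2 * (1 - f)) * S := by positivity
  have h3 : 0 ≤ 2 * (2 * f - 1) ^ 2 * (1 + 2 * (1 - f)) := by positivity
  linarith

end

end Vale.Agent.P100.OrbitCert
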