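import Vale.Agent.P100.OrbitCert.Bounds
import Vale.Agent.P100.OrbitCert.Decay
import Vale.Agent.P100.OrbitCert.Normal
import Vale.Agent.P100.Orbit.Region

/-!
# P100: the signs with a uniform margin near the end of the orbit

`x → 1`, `w₁ → f`, and `ζ` decreases to a root of `(S ζ - β) (N ζ - α)`. At `ζ = α/N > g` the
determinant is `32 (f - g) f² g⁴ e (1 + e) > 0`; at `ζ = g` one has `e → 0`, and `1 - x`, `f - w₁`,
hence the coupling, are `O(e)`.
-/

namespace Vale.Agent.P100.OrbitCert

open Filter Set Topology Orbit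

noncomputable section

variable {N p q T₁ T₀ T : ℝ} {U V : ℝ → ℝ}

/-- `f = α/S`. -/
def fα (N q : ℝ) : ℝ := cα N q / (N - 2)

/-- The chosen rule. -/
def finalRule (N q : ℝ) : Rule where
  d := 4 * fα N q * (1 - fα N q)
  w₀ := fα N q + (2 * fα N q - 1) * (1 - fα N q)
  b₀ := 2 * fα N q - 1

/-- The smallest of the margins. -/
def Point.margin (P : Point) : ℝ :=
  min (min P.v P.π₀) (min P.iii (1 - P.w₁ * P.L ^ 2 / (4 * P.n₀ * P.π₀)))

theorem Point.Good.n₀_pos {P : Point} (h : P.Good) (hN : 0 < P.dim) : 0 < P.n₀ :=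
  mul_pos (mul_pos hN h.e_pos) h.v_pos

theorem Point.Good.margin_pos {P : Point} (h : P.Good) (hN : 0 < P.dim) : 0 < P.margin := by
  have h0 : 0 < 4 * P.n₀ * P.π₀ := mul_pos (mul_pos four_pos (h.n₀_pos hN)) h.π_pos
  refine lt_min (lt_min h.v_pos h.π_pos) (lt_min h.iii_pos (sub_pos.2 ?_))
  rw [div_lt_one h0]
  exact h.coupling

theorem Point.coupling_of_margin {P : Point} {κ : ℝ} (he : 0 < P.e) (hκ : 0 < κ)
    (hm : κ ≤ P.margin) (hN : 0 < P.dim) :
    P.w₁ * P.L ^ 2 ≤ (1 - κ) * (4 * P.n₀ * P.π₀) := by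
  simp only [Point.margin, le_min_iff] at hm
  obtain ⟨⟨hv, hπ⟩, -, hc⟩ := hm
  have h0 : 0 < 4 * P.n₀ * P.π₀ :=
    mul_pos (mul_pos four_pos (mul_pos (mul_pos hN he) (hκ.trans_le hv))) (hκ.trans_le hπ)
  rw [le_sub_comm, div_le_iff₀ h0] at hc
  exact hc

section cont

variable {X Z W : ℝ → ℝ} {S f : ℝ} {l : Filter ℝ} {x₀ z₀ w₀ : ℝ}

theorem tendsto_nPP (hX : Tendsto X l (𝓝 x₀)) (hZ : Tendsto Z l (𝓝 z₀)) (hW : Tendsto W l (𝓝 w₀)) :
    Tendsto (fun T => nPP S f (X T) (Z T) (W T)) l (𝓝 (nPP S f x₀ z₀ w₀)) := by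
  simp only [nPP]
  generalize 4 * S * (S + 2) = a
  exact (((((hW.add hZ).const_mul a).mul ((hX.const_sub 1).const_add _)).mul
      ((((hW.add hZ).sub_const 1).const_mul f).add (hW.const_sub f))).add
        ((((hW.add hZ).pow 2).const_mul _).mul_const _)).add
      ((((hW.add hZ).const_mul _).mul ((hW.sub hZ).mul
        ((((hX.const_sub 1).const_add _).const_mul _).const_add _))).mul_const _) |>.sub
      ((((hW.sub hZ).mul ((((hX.const_sub 1).const_add _).const_mul _).const_add _)).pow 2).const_mul _)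

theorem tendsto_π₀ (hS : S + 2 ≠ 0) (ha : w₀ + z₀ ≠ 0) (hX : Tendsto X l (𝓝 x₀))
    (hZ : Tendsto Z l (𝓝 z₀)) (hW : Tendsto W l (𝓝 w₀)) :
    Tendsto (fun T => (regPoint S f (X T) (Z T) (W T)).π₀) l
      (𝓝 (regPoint S f x₀ z₀ w₀).π₀) := by
  rw [regPoint_π₀ hS ha]
  refine Tendsto.congr' ?_ (((tendsto_nPP hX hZ hW).const_mul _).div ((hW.add hZ).const_mul _)
    (mul_ne_zero (mul_ne_zero four_ne_zero hS) ha))
  filter_upwards [(hW.add hZ).eventually_ne ha] with T hT
  exact (regPoint_π₀ hS hT).symm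

theorem tendsto_iii (hS : S ≠ 0) (hf : f ≠ 0) (hX : Tendsto X l (𝓝 x₀))
    (hW : Tendsto W l (𝓝 w₀)) :
    Tendsto (fun T => (regPoint S f (X T) (Z T) (W T)).iii) l
      (𝓝 (regPoint S f x₀ z₀ w₀).iii) := by
  simp only [regPoint_iii hS hf]
  have hy := hX.const_sub 1
  exact ((((hy.pow 2).const_mul _).add (((hX.const_mul _).mul_const _).mul (hy.const_add _))).add
    (((hX.mul_const _).mul (hW.const_sub f)).mul ((hy.const_mul _).const_add _))).const_mul S

theorem tendsto_margin (hS : 0 < S) (hf : f ≠ 0) (hw : w₀ ≠ 0) (ha : w₀ + z₀ ≠ 0)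
    (hd : 4 * (regPoint S f x₀ z₀ w₀).n₀ * (regPoint S f x₀ z₀ w₀).π₀ ≠ 0)
    (hX : Tendsto X l (𝓝 x₀)) (hZ : Tendsto Z l (𝓝 z₀)) (hW : Tendsto W l (𝓝 w₀)) :
    Tendsto (fun T => (regPoint S f (X T) (Z T) (W T)).margin) l
      (𝓝 (regPoint S f x₀ z₀ w₀).margin) := by
  have hv : Tendsto (fun T => (regPoint S f (X T) (Z T) (W T)).v) l
      (𝓝 (regPoint S f x₀ z₀ w₀).v) := by
    simp only [regPoint_v]
    exact (hW.const_sub _).add (((hX.const_sub 1).const_add _).const_mul _)
  have hπ := tendsto_π₀ (S := S) (f := f) (by linarith) ha hX hZ hW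
  have hn : Tendsto (fun T => (regPoint S f (X T) (Z T) (W T)).n₀) l
      (𝓝 (regPoint S f x₀ z₀ w₀).n₀) := by
    simp only [Point.n₀, regPoint_dim, regPoint_e]
    exact (((hW.add hZ).sub_const 1).const_mul _).mul hv
  have hL : Tendsto (fun T => (regPoint S f (X T) (Z T) (W T)).L) l
      (𝓝 (regPoint S f x₀ z₀ w₀).L) := by
    rw [regPoint_L hS.ne' hf hw]
    have h : Tendsto (fun T => nLam S f (X T) (Z T) (W T)) l (𝓝 (nLam S f x₀ z₀ w₀)) := by
      have hy := hX.const_sub 1
      have he := (hW.add hZ).sub_const 1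
      have hu := hW.sub hZ
      simp only [nLam]
      exact ((((hW.const_sub f).mul (hZ.add (hu.mul hy))).add
          (((hW.const_mul 2).mul (hy.const_add _)).mul (he.add (hW.const_sub f)))).const_mul S).add
        (((hW.mul (((he.const_mul 2).mul_const _).add (hy.mul (he.sub hu)))).sub
          ((hW.const_sub f).mul hu)).const_mul 2)
    refine Tendsto.congr' ?_ ((h.const_mul _).neg.div hW hw)
    filter_upwards [hW.eventually_ne hw] with T hT
    exact (regPoint_L hS.ne' hf hT).symm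
  have hw₁ : Tendsto (fun T => (regPoint S f (X T) (Z T) (W T)).w₁) l
      (𝓝 (regPoint S f x₀ z₀ w₀).w₁) := hW
  exact (hv.min hπ).min ((tendsto_iii hS.ne' hf hX hW).min
    (((hw₁.mul (hL.pow 2)).div ((hn.const_mul 4).mul hπ) hd).const_sub 1))

end cont

namespace Setting

variable (s : Setting N p q T₁ T₀ U V)
include s

theorem fα_mem : 1 / 2 < fα N q ∧ fα N q < 1 := by
  have hS : 0 < N - 2 := by linarith [s.two_lt]
  have h := Ground.half_lt_alpha s.two_lt s.q_pos s.lt s.critical s.p_pos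
  have := s.sum_eq
  have := s.β_pos
  constructor
  · unfold fα cα
    rw [lt_div_iff₀ hS]
    linarith
  · rw [fα, div_lt_one hS]
    linarith

theorem orbitPoint_eq : orbitPoint N p q U V (finalRule N q) T
    = regPoint (N - 2) (fα N q) (qX N p U V T / (N - 2)) (oZ N p q U V T) (oW N p q U V T) := by
  have hS : N - 2 ≠ 0 := by linarith [s.two_lt]
  have hβ : cα N p = N - 2 - cα N q := by linarith [s.sum_eq]
  have hα := s.α_pos.ne'
  simp only [orbitPoint, regPoint, finalRule, fα, oR, hβ, Point.mk.injEq, and_true, true_and]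
  refine ⟨?_, ?_, ?_, ?_⟩ <;> first | ring1 | (field_simp; done) | (field_simp; ring1)

theorem margin_of_le {κ : ℝ} (hκ : 0 < κ)
    (he : ∀ T, T₀ ≤ T → 0 < (orbitPoint N p q U V (finalRule N q) T).e)
    (hm : ∀ T, T₀ ≤ T → κ ≤ (orbitPoint N p q U V (finalRule N q) T).margin) :
    Margin N p q T₀ U V (finalRule N q) κ := by
  have key := fun T hT => le_min_iff.1 (hm T hT)
  exact ⟨hκ, he, fun T hT => (le_min_iff.1 (key T hT).1).1, fun T hT => (le_min_iff.1 (key T hT).1).2,
    fun T hT => (le_min_iff.1 (key T hT).2).1, fun T hT => Point.coupling_of_margin (he T hT) hκ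
      (hm T hT) (by rw [s.dim_eq]; exact s.N_pos)⟩

/-- The limit of `ζ` and the two cases. -/
theorem exists_zeta_limit : ∃ z, Tendsto (oZ N p q U V) atTop (𝓝 z) ∧
    ((z = 1 - fα N q ∧ (N - 2 + 1) * (2 * fα N q - 1) ≤ 1) ∨
      (z = fα N q * (N - 2) / (N - 2 + 2) ∧ 1 - fα N q < z)) := by
  have hN := s.two_lt; have hp := s.p_pos; have hq := s.q_pos; have hqp := s.lt; have hc := s.critical
  have g := s.ground
  have hS : 0 < N - 2 := by linarith
  have hN0 : 0 < N := by linarith
  set α := N / (q + 1) with hαdef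
  have hα : 0 < α := div_pos hN0 (by linarith)
  set F : ℝ → ℝ := fun T => pZeta N p q U V (max T 1)
  have hanti : Antitone F := fun a b hab => (g.strictAntiOn_pZeta hN hp hq hqp hc).antitoneOn
    (mem_Ioi.2 (lt_max_of_lt_right one_pos)) (mem_Ioi.2 (lt_max_of_lt_right one_pos))
    (max_le_max hab le_rfl)
  have hbdd : BddBelow (range F) := ⟨0, fun _ ⟨T, hT⟩ => hT ▸
    (g.pZeta_pos hN hp hq hc (lt_max_of_lt_right one_pos)).le⟩
  set z := ⨅ T, F T
  have hev : ∀ᶠ T in atTop, F T = pZeta N p q U V T := by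
    filter_upwards [eventually_ge_atTop 1] with T hT
    simp only [F, max_eq_left hT]
  have hlim : Tendsto (pZeta N p q U V) atTop (𝓝 z) :=
    (tendsto_atTop_ciInf hanti hbdd).congr' hev
  have hlimZ : Tendsto (oZ N p q U V) atTop (𝓝 z) := by
    refine hlim.congr' ?_
    filter_upwards [eventually_gt_atTop 0] with T hT
    exact (s.oZ_eq_pZeta (s.lt_zero.trans hT) hT.ne').symm
  refine ⟨z, hlimZ, ?_⟩
  have hzg : N / (p + 1) / (N - 2) ≤ z := ge_of_tendsto hlim (by
    filter_upwards [eventually_gt_atTop 0] with T hT using (g.lt_pZeta hN hp hq hqp hc hT).le)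
  have hza : α / N ≤ z := ge_of_tendsto hlim (by
    filter_upwards [eventually_gt_atTop 0] with T hT
    have := (g.alpha_lt_pZeta hN hp hq hqp hc hT).le
    refine le_of_eq_of_le ?_ this
    rw [hαdef]
    field_simp)
  -- the rate tends to zero
  set D : ℝ → ℝ := fun T => (N + 2) * (zeta0 N p - pZeta N p q U V T) - qX N p U V T * (q + 1)
      * (1 - pZeta N p q U V T) * (pW N p q U V T - pZeta N p q U V T)
  have hD : Tendsto D atTop (𝓝 ((N + 2) * (zeta0 N p - z) - (N - 2) * (q + 1) * (1 - z)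
      * (α / (N - 2) - z))) :=
    ((hlim.const_sub _).const_mul _).sub ((((g.tendsto_qX hN hp hq hqp hc).mul_const _).mul
      (hlim.const_sub _)).mul ((g.tendsto_pW hN hp hq hqp hc).sub hlim))
  set L := (N + 2) * (zeta0 N p - z) - (N - 2) * (q + 1) * (1 - z) * (α / (N - 2) - z) with hLdef
  have hDneg : ∀ T, 0 < T → D T < 0 := fun T hT => by
    have := g.zRate_pos hN hp hq hqp hc hT
    simp only [Ground.zRate] at this
    simp only [D]
    linarith
  have hL0 : L ≤ 0 := le_of_tendsto hD (by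
    filter_upwards [eventually_gt_atTop 0] with T hT using (hDneg T hT).le)
  have hL : L = 0 := by
    refine le_antisymm hL0 (le_of_not_gt fun hneg => ?_)
    obtain ⟨b, hb⟩ := eventually_atTop.1 ((hD.eventually
      (eventually_le_nhds (show L < L / 2 by linarith))).and (eventually_ge_atTop 1))
    have hd : ∀ T, b ≤ T → HasDerivAt (fun t => pZeta N p q U V t + -L / 4 * Real.log t)
        (D T / (2 * T) + -L / 4 * T⁻¹) T := fun T hT => by
      have hT0 : 0 < T := lt_of_lt_of_le one_pos (hb T hT).2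
      exact (g.hasDerivAt_pZeta hN hp hq hc hT0).add ((Real.hasDerivAt_log hT0.ne').const_mul _)
    obtain ⟨T, hT1, hT2⟩ := ((Real.tendsto_log_atTop.eventually (eventually_gt_atTop
      ((pZeta N p q U V b + -L / 4 * Real.log b) / (-L / 4)))).and (eventually_ge_atTop b)).exists
    have h1 := antitone_of_deriv hd (fun T hT => by
      have hT0 : 0 < T := lt_of_lt_of_le one_pos (hb T hT).2
      have e : D T / (2 * T) + -L / 4 * T⁻¹ = (D T - L / 2) / (2 * T) := by field_simp; ring
      rw [e]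
      exact div_nonpos_of_nonpos_of_nonneg (by linarith [(hb T hT).1]) (by positivity)) le_rfl hT2
    rw [div_lt_iff₀ (by linarith)] at hT1
    have := g.pZeta_pos hN hp hq hc (lt_of_lt_of_le one_pos (hb T hT2).2)
    linarith
  have hβ : N / (p + 1) = N - 2 - α := by linarith
  have eα : (q + 1) * α = N := by rw [hαdef]; field_simp
  have hprod : ((N - 2) * z - N / (p + 1)) * (N * z - α) = 0 := by
    have h : α * -L = 0 := by rw [hL]; ring
    rw [← h, hLdef, Ground.zeta0_eq hN hp hq hqp hc, ← hαdef, hβ]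
    have : N + 2 ≠ 0 := by linarith
    field_simp
    linear_combination -(1 - z) * (α - (N - 2) * z) * eα
  have hg : 1 - fα N q = N / (p + 1) / (N - 2) := by
    rw [hβ, fα, cα, ← hαdef]
    field_simp
  have ha : fα N q * (N - 2) / (N - 2 + 2) = α / N := by
    rw [fα, cα, ← hαdef, sub_add_cancel, div_mul_cancel₀ _ hS.ne']
  rw [hg, ha]
  rcases hzg.eq_or_lt with h | h
  · refine Or.inl ⟨h.symm, ?_⟩
    have h1 : α / N ≤ (N - 2 - α) / (N - 2) := by rw [← hβ, h]; exact hza
    rw [div_le_div_iff₀ hN0 hS] at h1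
    rw [fα, cα, ← hαdef]
    refine le_of_mul_le_mul_right ?_ hS
    have e : (N - 2 + 1) * (2 * (α / (N - 2)) - 1) * (N - 2) = (N - 1) * (2 * α - (N - 2)) := by
      field_simp
      ring
    rw [e]
    linarith
  · refine Or.inr ⟨?_, h⟩
    have h1 : (N - 2) * z - N / (p + 1) ≠ 0 := by
      rw [div_lt_iff₀ hS] at h
      linarith
    have h2 := (mul_eq_zero.1 hprod).resolve_left h1
    rw [eq_div_iff hN0.ne']
    linarith

theorem tendsto_x : Tendsto (fun T => qX N p U V T / (N - 2)) atTop (𝓝 1) := by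
  have := (s.ground.tendsto_qX s.two_lt s.p_pos s.q_pos s.lt s.critical).div_const (N - 2)
  rwa [div_self (by linarith [s.two_lt])] at this

theorem tendsto_w : Tendsto (oW N p q U V) atTop (𝓝 (fα N q)) := by
  refine (s.ground.tendsto_pW s.two_lt s.p_pos s.q_pos s.lt s.critical).congr' ?_
  filter_upwards [eventually_gt_atTop 0] with T hT
  exact (s.oW_eq_pW (s.lt_zero.trans hT) hT.ne').symm

theorem inRegion' (hT : 0 < T) : InRegion (N - 2) (fα N q) (qX N p U V T / (N - 2))
    (oZ N p q U V T) (oW N p q U V T) := by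
  rw [s.oZ_eq_pZeta (s.lt_zero.trans hT) hT.ne', s.oW_eq_pW (s.lt_zero.trans hT) hT.ne']
  exact s.ground.inRegion s.two_lt s.p_pos s.q_pos s.lt s.critical hT

/-- `1 - x` and `f - w₁` are `O(e)` near the end. -/
theorem eventually_small : ∀ᶠ T in atTop, 1 - qX N p U V T / (N - 2)
      ≤ 2 * (oW N p q U V T + oZ N p q U V T - 1)
    ∧ fα N q - oW N p q U V T ≤ oW N p q U V T + oZ N p q U V T - 1 := by
  have hp1 : 0 < p + 1 := by linarith [s.p_pos]
  have h0 := (s.orbit.ratio_zero.rpow_const (p := p + 1) (Or.inr hp1.le))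
  rw [Real.zero_rpow hp1.ne'] at h0
  filter_upwards [h0.eventually (eventually_le_nhds (show (0 : ℝ) < 1 / 2 by norm_num)),
    eventually_gt_atTop 0] with T hr hT
  have hT₀ : T₀ ≤ T := s.orbit.T₀_neg.le.trans hT.le
  set R := finalRule N q
  have hQ := s.srcQ_pos R (s.lt_zero.trans hT)
  have h1 := (s.srcP_le R hT₀).trans (mul_le_mul_of_nonneg_right hr hQ.le)
  have h2 : (orbitPoint N p q U V R T).srcP
      ≤ (orbitPoint N p q U V R T).srcQ - (orbitPoint N p q U V R T).srcP := by linarith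
  rw [Point.srcQ_sub _ (by exact s.α_pos.ne'), s.orbitPoint_eq, regPoint_e, regPoint_dim] at h2
  obtain ⟨hS, hf, -, hx0, hx1, -, -, -, hzw, he, hw, -⟩ := s.inRegion' hT
  simp only [Point.srcP, regPoint_dim] at h2
  simp only [regPoint] at h2
  set S := N - 2
  set f := fα N q
  set x := qX N p U V T / S
  set w := oW N p q U V T
  set e := w + oZ N p q U V T - 1
  have hf0 : 0 < f := by linarith
  have h3 : (1 - x) * f + x * (f - w) ≤ x * e := by
    have e1 : (S + 2) * (1 - x * S * w / (f * S)) = (S + 2) / f * ((1 - x) * f + x * (f - w)) := by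
      field_simp
      ring
    have e2 : (S + 2) * (x * S) * e / (f * S) = (S + 2) / f * (x * e) := by field_simp
    rw [e1, e2] at h2
    exact le_of_mul_le_mul_left h2 (by positivity)
  have he0 : 0 < e := sub_pos.2 he
  constructor
  · have a1 := mul_nonneg hx0.le (sub_pos.2 hw).le
    have a2 := mul_le_mul_of_nonneg_right hx1.le he0.le
    have a3 := mul_le_mul_of_nonneg_left hf.le (sub_pos.2 hx1).le
    linarith
  · refine le_of_mul_le_mul_left ?_ hx0
    have a2 := mul_nonneg (sub_pos.2 hx1).le hf0.le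
    linarith

/-- A uniform margin near the end when `e → 0`. -/
theorem eventually_margin_zero (h5 : 5 ≤ N)
    (hz : Tendsto (oZ N p q U V) atTop (𝓝 (1 - fα N q)))
    (hk : (N - 2 + 1) * (2 * fα N q - 1) ≤ 1) :
    ∃ κ > 0, ∀ᶠ T in atTop, κ ≤ (orbitPoint N p q U V (finalRule N q) T).margin := by
  obtain ⟨hf, hf1⟩ := s.fα_mem
  have hX := s.tendsto_x
  have hW := s.tendsto_w
  simp only [s.orbitPoint_eq]
  set f := fα N q
  set S := N - 2
  have hS : 3 ≤ S := by linarith
  have hS0 : 0 < S := by linarith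
  have heps : 0 < 2 * f - 1 := by linarith
  have hg : 0 < 1 - f := by linarith
  set Fc : ℝ → ℝ → ℝ → ℝ := fun x z w =>
    |S * (z + (w - z) * (1 - x) + 2 * w * (1 - f + (1 - x))) - 2 * (w - z)|
      + |2 * S * w * (1 - f + (1 - x)) + 4 * w * (1 - f)| + 2 * |2 * w * (w + z - 1 - (w - z))|
  have hpp := nPP_end_pos hS hf hf1 hk
  have hπ0 : 0 < (regPoint S f 1 (1 - f) f).π₀ := by
    rw [regPoint_π₀ (by linarith) (by linarith)]
    have : 0 < f + (1 - f) := by linarith
    positivity
  have hc0 : (2 * f - 1) * (f + (1 - f) - 1) * (Fc 1 (1 - f) f) ^ 2 * (f + (1 - f))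
      < (2 * f - 1) * (1 - f) * f * nPP S f 1 (1 - f) f / 2 := by
    have : (2 * f - 1) * (f + (1 - f) - 1) * (Fc 1 (1 - f) f) ^ 2 * (f + (1 - f)) = 0 := by ring
    rw [this]
    positivity
  have hlhs : Tendsto (fun T => (2 * f - 1) * (oW N p q U V T + oZ N p q U V T - 1)
      * (Fc (qX N p U V T / S) (oZ N p q U V T) (oW N p q U V T)) ^ 2
      * (oW N p q U V T + oZ N p q U V T))
      atTop (𝓝 ((2 * f - 1) * (f + (1 - f) - 1) * (Fc 1 (1 - f) f) ^ 2 * (f + (1 - f)))) := by
    have hy := hX.const_sub 1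
    have ha := hW.add hz
    have he := ha.sub_const 1
    have hu := hW.sub hz
    have hh := hy.const_add (1 - f)
    have hF := (((((hz.add (hu.mul hy)).add ((hW.const_mul 2).mul hh)).const_mul S).sub
        (hu.const_mul 2)).abs.add
          (((hW.const_mul (2 * S)).mul hh).add ((hW.const_mul 4).mul_const (1 - f))).abs).add
      (((hW.const_mul 2).mul (he.sub hu)).abs.const_mul 2)
    exact ((he.const_mul _).mul (hF.pow 2)).mul ha
  have hrhs : Tendsto (fun T => (2 * f - 1) * (1 - f) * oW N p q U V T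
      * nPP S f (qX N p U V T / S) (oZ N p q U V T) (oW N p q U V T) / 2) atTop
      (𝓝 ((2 * f - 1) * (1 - f) * f * nPP S f 1 (1 - f) f / 2)) :=
    ((hW.const_mul _).mul (tendsto_nPP hX hz hW)).div_const 2
  refine ⟨min (min ((2 * f - 1) * (1 - f)) ((regPoint S f 1 (1 - f) f).π₀ / 2))
    (min (2 * S * f * (1 - f) * (2 * f - 1) * (1 - f)) (1 / 2)),
    lt_min (lt_min (by positivity) (by positivity)) (lt_min (by positivity) one_half_pos), ?_⟩
  filter_upwards [eventually_gt_atTop 0, s.eventually_small, hlhs.eventually_lt hrhs hc0,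
    (tendsto_π₀ (S := S) (f := f) (show S + 2 ≠ 0 by linarith)
      (show f + (1 - f) ≠ 0 by linarith) hX hz hW).eventually
      (eventually_ge_nhds (half_lt_self hπ0)),
    hX.eventually (eventually_ge_nhds (show (1 / 2 : ℝ) < 1 by norm_num)),
    (tendsto_nPP (S := S) (f := f) hX hz hW).eventually (eventually_gt_nhds hpp)]
    with T hT hsm hlt hπ hxh hP
  obtain ⟨-, -, -, hx0, hx1, -, -, -, hzw, he, hw, -⟩ := s.inRegion' hT
  have hw0 : 0 < oW N p q U V T := s.w₁_pos (s.orbit.T₀_neg.le.trans hT.le)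
  set x := qX N p U V T / S
  set zz := oZ N p q U V T
  set w := oW N p q U V T
  have ha : 0 < w + zz := by linarith
  have hy : 0 ≤ 1 - x := (sub_pos.2 hx1).le
  have hr : 0 ≤ f - w := (sub_pos.2 hw).le
  have he0 : 0 < w + zz - 1 := sub_pos.2 he
  have hh : 1 - f ≤ 1 - f + (1 - x) := le_add_of_nonneg_right hy
  have hv : (2 * f - 1) * (1 - f) ≤ (regPoint S f x zz w).v := by
    rw [regPoint_v]
    have := mul_le_mul_of_nonneg_left hh heps.le
    linarith
  refine min_le_min (le_min (min_le_of_left_le hv) (min_le_of_right_le hπ))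
    (le_min (min_le_of_left_le ?_) (min_le_of_right_le ?_))
  · refine le_trans ?_ (regPoint_iii_ge hS0 hf.le hf1.le hx0.le hx1.le hw.le)
    have a1 : 0 ≤ 4 * f * (2 * f - 1) * (1 - x) ^ 2 := by positivity
    have a2 := mul_le_mul_of_nonneg_left hxh
      (show 0 ≤ 4 * f * (1 - f) * (2 * f - 1) * (1 - f) by positivity)
    calc 2 * S * f * (1 - f) * (2 * f - 1) * (1 - f)
        = S * (4 * f * (1 - f) * (2 * f - 1) * (1 - f) * (1 / 2)) := by ring
      _ ≤ _ := mul_le_mul_of_nonneg_left (by linarith) hS0.le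
  · -- the coupling
    have hd : 0 < 4 * (regPoint S f x zz w).n₀ * (regPoint S f x zz w).π₀ := by
      have h1 : 0 < (regPoint S f x zz w).π₀ :=
        lt_of_lt_of_le (half_pos hπ0) hπ
      have h2 : 0 < (regPoint S f x zz w).v := lt_of_lt_of_le (by positivity) hv
      rw [Point.n₀, regPoint_dim, regPoint_e]
      positivity
    rw [le_sub_comm, div_le_iff₀ hd]
    have hL : |nLam S f x zz w| ≤ Fc x zz w * (w + zz - 1) := by
      have e : nLam S f x zz w
          = (f - w) * (S * (zz + (w - zz) * (1 - x) + 2 * w * (1 - f + (1 - x))) - 2 * (w - zz))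
            + (w + zz - 1) * (2 * S * w * (1 - f + (1 - x)) + 4 * w * (1 - f))
            + (1 - x) * (2 * w * (w + zz - 1 - (w - zz))) := by
        simp only [nLam]; ring
      rw [e]
      refine (abs_add_three _ _ _).trans ?_
      rw [abs_mul, abs_mul (w + zz - 1), abs_mul (1 - x), abs_of_nonneg hr, abs_of_nonneg he0.le,
        abs_of_nonneg hy]
      simp only [Fc]
      have b1 := mul_le_mul_of_nonneg_right hsm.2
        (abs_nonneg (S * (zz + (w - zz) * (1 - x) + 2 * w * (1 - f + (1 - x))) - 2 * (w - zz)))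
      have b3 := mul_le_mul_of_nonneg_right hsm.1 (abs_nonneg (2 * w * (w + zz - 1 - (w - zz))))
      linarith
    have hL2 : nLam S f x zz w ^ 2 ≤ (Fc x zz w * (w + zz - 1)) ^ 2 :=
      sq_le_sq' (abs_le.1 hL).1 (abs_le.1 hL).2
    have key : (2 * f - 1) * (w + zz) * nLam S f x zz w ^ 2
        ≤ (w + zz - 1) * (f - w + (2 * f - 1) * (1 - f + (1 - x))) * w * nPP S f x zz w / 2 := by
      have hv' : (2 * f - 1) * (1 - f) * w * nPP S f x zz w
          ≤ (f - w + (2 * f - 1) * (1 - f + (1 - x))) * w * nPP S f x zz w := by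
        have := hv
        rw [regPoint_v] at this
        gcongr
      calc (2 * f - 1) * (w + zz) * nLam S f x zz w ^ 2
          ≤ (2 * f - 1) * (w + zz) * (Fc x zz w * (w + zz - 1)) ^ 2 :=
            mul_le_mul_of_nonneg_left hL2 (by positivity)
        _ = (w + zz - 1) * ((2 * f - 1) * (w + zz - 1) * Fc x zz w ^ 2 * (w + zz)) := by ring
        _ ≤ (w + zz - 1) * ((2 * f - 1) * (1 - f) * w * nPP S f x zz w / 2) :=
            mul_le_mul_of_nonneg_left hlt.le he0.le
        _ ≤ (w + zz - 1)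
            * ((f - w + (2 * f - 1) * (1 - f + (1 - x))) * w * nPP S f x zz w / 2) :=
            mul_le_mul_of_nonneg_left (by linarith) he0.le
        _ = _ := by ring
    have e3 := regPoint_det (f := f) (x := x) (z := zz) hS0 (by linarith) hw0.ne' ha.ne'
    have e4 : (2 * f - 1) * ((w + zz - 1) * (f - w + (2 * f - 1) * (1 - f + (1 - x))) * w
          * nPP S f x zz w / 2) / (w * (w + zz))
        ≤ (2 * f - 1) * nE S f x zz w / (w * (w + zz)) := by
      simp only [nE]
      gcongr
      linarith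
    have e5 : 4 * (regPoint S f x zz w).n₀ * (regPoint S f x zz w).π₀
        = 2 * ((2 * f - 1) * ((w + zz - 1) * (f - w + (2 * f - 1) * (1 - f + (1 - x))) * w
          * nPP S f x zz w / 2) / (w * (w + zz))) := by
      rw [Point.n₀, regPoint_dim, regPoint_e, regPoint_v, regPoint_π₀ (by linarith) ha.ne']
      field_simp
    linarith

/-- A uniform margin near the end. -/
theorem eventually_margin (h5 : 5 ≤ N) :
    ∃ κ > 0, ∀ᶠ T in atTop, κ ≤ (orbitPoint N p q U V (finalRule N q) T).margin := by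
  obtain ⟨hf, hf1⟩ := s.fα_mem
  obtain ⟨z, hz, hcase⟩ := s.exists_zeta_limit
  rcases hcase with ⟨rfl, hk⟩ | ⟨hzeq, hzg⟩
  · exact s.eventually_margin_zero h5 hz hk
  have hX := s.tendsto_x
  have hW := s.tendsto_w
  simp only [s.orbitPoint_eq]
  set f := fα N q
  set S := N - 2
  have hS : 3 ≤ S := by linarith
  have hS0 : 0 < S := by linarith
  have heps : 0 < 2 * f - 1 := by linarith
  have hg : 0 < 1 - f := by linarith
  -- `e` stays positive
  have hz' : z = f * S / (S + 2) := hzeq
  have hE : 0 < nE S f 1 z f := by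
    rw [nE_end (by linarith) hz']
    have : 0 < f + z - 1 := by linarith
    have : 0 < f + z := by linarith
    positivity
  have hG := regPoint_good hS0 hf hf1 zero_le_one le_rfl (show 0 < f by linarith) le_rfl
    (by linarith) hE
  have hdim : 0 < (regPoint S f 1 z f).dim := by rw [regPoint_dim]; linarith
  have hpos := hG.margin_pos hdim
  exact ⟨_, half_pos hpos, (tendsto_margin hS0 (by linarith) (by linarith) (by linarith)
    (mul_pos (mul_pos four_pos (hG.n₀_pos hdim)) hG.π_pos).ne' hX hz hW).eventually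
    (eventually_ge_nhds (half_lt_self hpos))⟩

end Setting

end

end Vale.Agent.P100.OrbitCert
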