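import Vale.Agent.P100.OrbitCert.Main
import Vale.Agent.P100.Subcritical

/-!
# P100: the off-diagonal case from the sign conditions on every critical orbit
-/

namespace Vale.Agent.P100.OrbitCert

open Orbit

noncomputable section

variable {n : ℕ} {p q : ℝ}

/-- The off-diagonal statement, once every critical orbit has the three signs. -/
theorem no_solution_of_margins (hn : 5 ≤ n) (hq : 0 < q) (hqp : q < p) (hpq : 1 < p * q)
    (hlt : (n : ℝ) < critDim p q)
    (H : ∀ T₁ T₀ U V, Setting (critDim p q) p q T₁ T₀ U V →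
      ∃ (R : Rule) (κ : ℝ), 0 < R.d ∧ R.d * (critDim p q - 2) < cα (critDim p q) p * critDim p q
        ∧ Margin (critDim p q) p q T₀ U V R κ)
    (u v : (Fin n → ℝ) → ℝ) : ¬ Sol p q u v := by
  intro h
  have hp : 0 < p := hq.trans hqp
  have h2 := two_lt_critDim hq hqp.le hpq
  have hc := critDim_critical hq hqp.le hpq
  obtain ⟨T₁, T₀, U, V, o⟩ := exists_critical_orbit h2 hp hq hqp hc
  have s : Setting (critDim p q) p q T₁ T₀ U V := ⟨h2, hp, hq, hqp, hc, o⟩
  obtain ⟨R, κ, hd0, hd, hm⟩ := H T₁ T₀ U V s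
  exact false_of_margin h hn hlt s R hd0 hd hm

end

end Vale.Agent.P100.OrbitCert
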