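import Vale.Agent.P100.OrbitCert.Endpoint
import Vale.Agent.P100.OrbitCert.Reduce

/-!
# P100: the margins from three pointwise strict signs

What is left: the signs on `[T₀, 0]`, the barrier sign on the region, and `0 < nE` on the region.
-/

namespace Vale.Agent.P100.OrbitCert

open Filter Set Topology Orbit

noncomputable section

variable {N p q T₁ T₀ T : ℝ} {U V : ℝ → ℝ}

namespace Setting

variable (s : Setting N p q T₁ T₀ U V)
include s

/-- Strict signs at every time give a uniform margin. -/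
theorem exists_margin_of_good (h5 : 5 ≤ N)
    (hgood : ∀ T, T₀ ≤ T → (orbitPoint N p q U V (finalRule N q) T).Good) :
    ∃ κ, Margin N p q T₀ U V (finalRule N q) κ := by
  obtain ⟨κ₁, hκ₁, hev⟩ := s.eventually_margin h5
  obtain ⟨b, hb⟩ := eventually_atTop.1 hev
  have hdim : ∀ T, 0 < (orbitPoint N p q U V (finalRule N q) T).dim := fun T => by
    rw [s.dim_eq]; exact s.N_pos
  have hsub : Icc T₀ (max T₀ b) ⊆ Ioi T₁ := fun x hx => s.orbit.T₁_lt.trans_le hx.1
  have hcont : ContinuousOn (fun T => (orbitPoint N p q U V (finalRule N q) T).margin)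
      (Icc T₀ (max T₀ b)) := by
    intro T hT
    have h1 : Ioi T₁ ∈ 𝓝 T := Ioi_mem_nhds (hsub hT)
    obtain ⟨hf, -⟩ := s.fα_mem
    have hG := hgood T hT.1
    rw [s.orbitPoint_eq] at hG
    have hd := (mul_pos (mul_pos four_pos (hG.n₀_pos (by rw [regPoint_dim]; linarith))) hG.π_pos).ne'
    have hw := s.w₁_pos hT.1
    have hz := s.ζ_pos hT.1
    simp only [s.orbitPoint_eq]
    exact ContinuousAt.continuousWithinAt (tendsto_margin (by linarith) (by linarith) hw.ne'
      (by linarith) hd ((s.continuousOn_xi.continuousAt h1).div_const _)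
      (s.continuousOn_oZ.continuousAt h1) (s.continuousOn_oW.continuousAt h1))
  obtain ⟨κ₂, hκ₂, hle⟩ := isCompact_Icc.exists_forall_le' hcont
    fun T hT => (hgood T hT.1).margin_pos (hdim T)
  refine ⟨min κ₁ κ₂, s.margin_of_le (lt_min hκ₁ hκ₂) (fun T hT => (hgood T hT).e_pos) fun T hT => ?_⟩
  rcases le_total T (max T₀ b) with h | h
  · exact (min_le_right _ _).trans (hle T ⟨hT, h⟩)
  · exact (min_le_left _ _).trans (hb T ((le_max_right _ _).trans h))

/-- The upper barrier in the normalised variables, from its sign lemma. -/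
theorem barrier (hf : 3 / 5 ≤ fα N q)
    (hR4 : ∀ x z w : ℝ, InRegion (N - 2) (fα N q) x z w →
      0 < (N - 2 + 2) * z - fα N q * (N - 2) →
      ((N - 2 + 2) * z - fα N q * (N - 2)) ^ 2 = 6 * (1 - x + (1 - fα N q) ^ 3) →
      2 * ((N - 2 + 2) * z - fα N q * (N - 2)) * (N - 2 + 2)
          * (rP (N - 2) (fα N q) z - x * rPm (N - 2) (fα N q) z w)
        + 6 * x * (2 * (1 - x) + x * (N - 2 + 2) * (fα N q - w) / fα N q) < 0)
    (hT : 0 < T) :
    (N - 2 + 2) * oZ N p q U V T - fα N q * (N - 2) ≤ 0 ∨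
      ((N - 2 + 2) * oZ N p q U V T - fα N q * (N - 2)) ^ 2
        ≤ 6 * (1 - qX N p U V T / (N - 2) + (1 - fα N q) ^ 3) := by
  have e1 : N - 2 + 2 = N := by ring
  have e2 : fα N q * (N - 2) = N / (q + 1) := by
    rw [fα, cα, div_mul_cancel₀]; linarith [s.two_lt]
  rw [e1, e2] at hR4 ⊢
  have hg : 0 ≤ 1 - fα N q := by linarith [s.fα_mem.2]
  have h := s.ground.upper_barrier s.two_lt s.p_pos s.q_pos s.lt s.critical
    (h := 6 * (1 - fα N q) ^ 3) (by positivity)
    (fun x z w hr hU he => hR4 x z w hr hU (he.trans (by ring))) hT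
  rw [s.oZ_eq_pZeta (s.lt_zero.trans hT) hT.ne']
  exact h.imp_right fun h' => h'.trans_eq (by ring)

/-- The signs for positive times. -/
theorem good_of_region
    (hR4 : ∀ S f x z w : ℝ, 3 < S → 3 / 5 ≤ f → InRegion S f x z w →
      0 < (S + 2) * z - f * S → ((S + 2) * z - f * S) ^ 2 = 6 * (1 - x + (1 - f) ^ 3) →
      2 * ((S + 2) * z - f * S) * (S + 2) * (rP S f z - x * rPm S f z w)
        + 6 * x * (2 * (1 - x) + x * (S + 2) * (f - w) / f) < 0)
    (hE : ∀ S f x z w : ℝ, 3 < S → InRegion S f x z w →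
      (3 / 5 ≤ f → (S + 2) * z - f * S ≤ 0 ∨
        ((S + 2) * z - f * S) ^ 2 ≤ 6 * (1 - x + (1 - f) ^ 3)) →
      0 < nE S f x z w)
    (h5 : 5 < N) (hT : 0 < T) : (orbitPoint N p q U V (finalRule N q) T).Good := by
  obtain ⟨hf, hf1⟩ := s.fα_mem
  have hr := s.inRegion' hT
  rw [s.orbitPoint_eq]
  exact regPoint_good hr.S_pos hf hf1 hr.x_pos.le hr.x_lt_one.le
    (s.w₁_pos (s.orbit.T₀_neg.le.trans hT.le)) hr.w_lt_f.le hr.one_lt_add
    (hE _ _ _ _ _ (by linarith) hr fun h =>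
      s.barrier h (fun x z w => hR4 _ _ x z w (by linarith) h) hT)

end Setting

/-- No positive solution off the diagonal, from the three signs. -/
theorem no_solution_of_signs {n : ℕ} {p q : ℝ} (hn : 5 ≤ n) (hq : 0 < q) (hqp : q < p)
    (hpq : 1 < p * q) (hlt : (n : ℝ) < critDim p q)
    (hneg : ∀ N p q T₁ T₀ U V, 5 < N → Setting N p q T₁ T₀ U V → ∀ T ∈ Icc T₀ 0,
      (orbitPoint N p q U V (finalRule N q) T).Good)
    (hR4 : ∀ S f x z w : ℝ, 3 < S → 3 / 5 ≤ f → InRegion S f x z w →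
      0 < (S + 2) * z - f * S → ((S + 2) * z - f * S) ^ 2 = 6 * (1 - x + (1 - f) ^ 3) →
      2 * ((S + 2) * z - f * S) * (S + 2) * (rP S f z - x * rPm S f z w)
        + 6 * x * (2 * (1 - x) + x * (S + 2) * (f - w) / f) < 0)
    (hE : ∀ S f x z w : ℝ, 3 < S → InRegion S f x z w →
      (3 / 5 ≤ f → (S + 2) * z - f * S ≤ 0 ∨
        ((S + 2) * z - f * S) ^ 2 ≤ 6 * (1 - x + (1 - f) ^ 3)) →
      0 < nE S f x z w)
    (u v : (Fin n → ℝ) → ℝ) : ¬ Sol p q u v := by
  refine no_solution_of_margins hn hq hqp hpq hlt (fun T₁ T₀ U V s => ?_) u v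
  have hn5 : (5 : ℝ) ≤ n := by exact_mod_cast hn
  have h5 : (5 : ℝ) < critDim p q := by linarith
  set N := critDim p q
  obtain ⟨hf, hf1⟩ := s.fα_mem
  obtain ⟨κ, hm⟩ := s.exists_margin_of_good h5.le fun T hT => by
    rcases le_or_gt T 0 with h | h
    · exact hneg _ _ _ _ _ _ _ h5 s T ⟨hT, h⟩
    · exact s.good_of_region hR4 hE h5 h
  have hg : 0 < 1 - fα N q := by linarith
  have hd : 0 < (finalRule N q).d := by
    have : 0 < fα N q := by linarith
    simp only [finalRule]; positivity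
  refine ⟨_, κ, hd, ?_, hm⟩
  have e : cα N p = (1 - fα N q) * (N - 2) := by
    rw [fα, sub_mul, div_mul_cancel₀ _ (by linarith : N - 2 ≠ 0), one_mul]
    linarith [s.sum_eq]
  rw [e]
  simp only [finalRule]
  calc 4 * fα N q * (1 - fα N q) * (N - 2) = (1 - fα N q) * (N - 2) * (4 * fα N q) := by ring
    _ < _ := mul_lt_mul_of_pos_left (by linarith) (mul_pos hg (by linarith))

end

end Vale.Agent.P100.OrbitCert
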