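import Vale.Agent.P100.OrbitCert.Chart

/-!
# P100: bounds on the orbit that are uniform up to its end
-/

namespace Vale.Agent.P100.OrbitCert

open Filter Set Topology Orbit

noncomputable section

variable {N p q T₁ T₀ T : ℝ} {U V : ℝ → ℝ}

/-- The three sign conditions, with a margin. -/
structure Margin (N p q T₀ : ℝ) (U V : ℝ → ℝ) (R : Rule) (κ : ℝ) : Prop where
  κ_pos : 0 < κ
  e_pos : ∀ T, T₀ ≤ T → 0 < (orbitPoint N p q U V R T).e
  v_ge : ∀ T, T₀ ≤ T → κ ≤ (orbitPoint N p q U V R T).v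
  π_ge : ∀ T, T₀ ≤ T → κ ≤ (orbitPoint N p q U V R T).π₀
  iii_ge : ∀ T, T₀ ≤ T → κ ≤ (orbitPoint N p q U V R T).iii
  coupling : ∀ T, T₀ ≤ T → (orbitPoint N p q U V R T).w₁ * (orbitPoint N p q U V R T).L ^ 2
    ≤ (1 - κ) * (4 * (orbitPoint N p q U V R T).n₀ * (orbitPoint N p q U V R T).π₀)

theorem Point.srcQ_sub (P : Point) (hα : P.α ≠ 0) :
    P.srcQ - P.srcP = P.dim * P.ξ * P.e / P.α := by
  simp only [Point.srcQ, Point.srcP, Point.e]
  field_simp
  ring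

theorem Point.shift_eq (P : Point) (hα : P.α ≠ 0) (hw : P.w₁ ≠ 0) (hN : P.dim ≠ 0) :
    P.α / P.w₁ - P.ξ = P.α / (P.dim * P.w₁) * P.srcP := by
  simp only [Point.srcP]
  field_simp

theorem Point.pot_eq (P : Point) (h : P.Ok) (hN : P.dim ≠ 0) :
    P.pot = (P.α * P.srcQ + P.α * P.ζ / P.w₁ * P.srcP) / P.dim := by
  have := h.w₁_pos.ne'; have := h.α_pos.ne'
  simp only [Point.pot, Point.srcP, Point.srcQ]
  field_simp
  ring

namespace Setting

variable (s : Setting N p q T₁ T₀ U V)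
include s

/-- `U v₁ ≤ V u₁`. -/
theorem uv_le (hT : T₀ ≤ T) : U T * du N q U T ≤ V T * du N p V T := by
  have h1 : T₁ < T := s.orbit.T₁_lt.trans_le hT
  have hU := s.U_pos h1.le; have hV := s.V_pos h1.le
  have hu := s.u₁_pos h1.le; have hv := s.v₁_pos h1.le
  have hp1 : 0 < p + 1 := by linarith [s.p_pos]
  have hq1 : 0 < q + 1 := by linarith [s.q_pos]
  have hw := s.w₁_le hT
  rw [s.oW_eq_eta h1] at hw
  have hz := s.ζ_lower hT
  have h2 : U T * du N q U T / (Orbit.sig p q * (V T * du N p V T)) * (cα N p / (N - 2))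
      ≤ cα N q / (N - 2) := by
    refine le_trans (mul_le_mul_of_nonneg_left hz ?_) hw
    exact div_nonneg (mul_pos hU hv).le
      (mul_pos (Orbit.sig_pos s.p_pos s.q_pos) (mul_pos hV hu)).le
  have e : cα N p = cα N q * Orbit.sig p q := by unfold cα Orbit.sig; field_simp
  rw [e] at h2
  have hS : 0 < N - 2 := by linarith [s.two_lt]
  have hσ := Orbit.sig_pos s.p_pos s.q_pos
  have hα := s.α_pos
  rw [div_mul_div_comm, div_le_div_iff₀ (by positivity) hS] at h2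
  refine le_of_mul_le_mul_left ?_ (mul_pos (mul_pos hσ hα) hS)
  linarith

/-- The sources compare through the ratio. -/
theorem srcP_le (R : Rule) (hT : T₀ ≤ T) :
    (orbitPoint N p q U V R T).srcP
      ≤ ratio p q U V T ^ (p + 1) * (orbitPoint N p q U V R T).srcQ := by
  have h1 : T₁ < T := s.orbit.T₁_lt.trans_le hT
  have hU := s.U_pos h1.le; have hV := s.V_pos h1.le
  have hu := s.u₁_pos h1.le; have hv := s.v₁_pos h1.le
  have hp1 : 0 < p + 1 := by linarith [s.p_pos]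
  have hq1 : 0 < q + 1 := by linarith [s.q_pos]
  have eP : (orbitPoint N p q U V R T).srcP = V T ^ p / du N p V T := by
    rw [s.srcP_eq R h1, mul_div_cancel_left₀ _ hu.ne']
  have eQ : (orbitPoint N p q U V R T).srcQ = U T ^ q / du N q U T := by
    rw [s.srcQ_eq R h1, mul_div_cancel_left₀ _ hv.ne']
  have er : ratio p q U V T ^ (p + 1) = V T ^ p * V T / (U T ^ q * U T) := by
    rw [ratio, Real.div_rpow hV.le (Real.rpow_nonneg hU.le _), ← Real.rpow_mul hU.le,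
      show Orbit.sig p q * (p + 1) = q + 1 by unfold Orbit.sig; field_simp,
      Real.rpow_add_one hV.ne', Real.rpow_add_one hU.ne']
  rw [eP, eQ, er]
  have key := s.uv_le hT
  rw [div_mul_div_comm, div_le_div_iff₀ hu (mul_pos (mul_pos (Real.rpow_pos_of_pos hU q) hU) hv)]
  have := mul_le_mul_of_nonneg_left key
    (mul_nonneg (Real.rpow_nonneg hV.le p) (Real.rpow_nonneg hU.le q))
  linarith

theorem srcP_le_top (R : Rule) (hT : T₀ ≤ T) :
    (orbitPoint N p q U V R T).srcP ≤ rtop p q ^ (p + 1) * (orbitPoint N p q U V R T).srcQ := by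
  refine (s.srcP_le R hT).trans (mul_le_mul_of_nonneg_right ?_ ?_)
  · exact Real.rpow_le_rpow (s.ratio_pos (s.orbit.T₁_lt.le.trans hT)).le (s.ratio_mem hT).2
      (by linarith [s.p_pos])
  · have h1 : T₁ < T := s.orbit.T₁_lt.trans_le hT
    have hu := s.v₁_pos h1.le
    have h2 := s.srcQ_eq R h1
    nlinarith [Real.rpow_pos_of_pos (s.U_pos h1.le) q]

theorem srcQ_pos (R : Rule) (hT : T₁ < T) : 0 < (orbitPoint N p q U V R T).srcQ := by
  refine (pos_iff_pos_of_mul_pos (a := du N q U T) ?_).1 (s.v₁_pos hT.le)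
  rw [← s.srcQ_eq R hT]
  exact Real.rpow_pos_of_pos (s.U_pos hT.le) q

theorem srcP_pos (R : Rule) (hT : T₁ < T) : 0 < (orbitPoint N p q U V R T).srcP := by
  refine (pos_iff_pos_of_mul_pos (a := du N p V T) ?_).1 (s.u₁_pos hT.le)
  rw [← s.srcP_eq R hT]
  exact Real.rpow_pos_of_pos (s.V_pos hT.le) p

theorem continuousOn_srcQ (R : Rule) :
    ContinuousOn (fun x => (orbitPoint N p q U V R x).srcQ) (Ioi T₁) := by
  refine ContinuousOn.congr (f := fun x => U x ^ q / du N q U x) ?_ fun x hx => ?_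
  · exact (s.orbit.cont_u.continuousOn.rpow_const fun x hx => Or.inl (s.U_pos (le_of_lt hx)).ne').div
      s.continuous_v₁.continuousOn fun x hx => (s.v₁_pos (le_of_lt hx)).ne'
  · show (orbitPoint N p q U V R x).srcQ = U x ^ q / du N q U x
    rw [s.srcQ_eq R hx, mul_div_cancel_left₀ _ (s.v₁_pos (le_of_lt hx)).ne']

theorem exists_sep : ∃ c > 0, ∀ T, T₀ ≤ T → c ≤ oW N p q U V T - oZ N p q U V T := by
  obtain ⟨c₀, hc₀, hη⟩ := s.orbit.eta_bound
  have hsub : Icc T₀ 0 ⊆ Ioi T₁ := fun x hx => s.orbit.T₁_lt.trans_le hx.1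
  obtain ⟨x, hx, hmin⟩ := isCompact_Icc.exists_isMinOn (nonempty_Icc.2 s.orbit.T₀_neg.le)
    ((s.continuousOn_oW.sub s.continuousOn_oZ).mono hsub)
  refine ⟨min (oW N p q U V x - oZ N p q U V x) (cα N p / (N - 2) * (c₀ - 1)),
    lt_min (sub_pos.2 (s.ζ_lt hx.1)) (mul_pos (div_pos s.β_pos (by linarith [s.two_lt])) (by linarith)),
    fun T hT => ?_⟩
  rcases le_total T 0 with h | h
  · exact (min_le_left _ _).trans (hmin ⟨hT, h⟩)
  · refine (min_le_right _ _).trans ?_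
    rw [s.oW_eq_eta (s.orbit.T₁_lt.trans_le hT)]
    have h1 := hη T h
    unfold eta at h1
    have := mul_le_mul (s.ζ_lower hT) (show c₀ - 1
      ≤ U T * du N q U T / (Orbit.sig p q * (V T * du N p V T)) - 1 by linarith) (by linarith)
      (s.ζ_pos hT).le
    linarith

theorem exists_xi_bound : ∃ K, ∀ T, T₀ ≤ T → |qX N p U V T| ≤ K := by
  have hsub : Icc T₀ 0 ⊆ Ioi T₁ := fun x hx => s.orbit.T₁_lt.trans_le hx.1
  obtain ⟨K, hK⟩ := isCompact_Icc.exists_bound_of_continuousOn (s.continuousOn_xi.mono hsub)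
  refine ⟨max K (N - 2), fun T hT => ?_⟩
  rcases le_or_gt T 0 with h | h
  · exact ((Real.norm_eq_abs _).symm.trans_le (hK T ⟨hT, h⟩)).trans (le_max_left _ _)
  · rw [abs_of_pos (s.ground.qX_pos s.two_lt s.p_pos s.q_pos h)]
    exact (s.ground.qX_lt s.two_lt s.p_pos s.q_pos h).le.trans (le_max_right _ _)

theorem exists_W_bound (R : Rule) : ∃ K, ∀ T, T₀ ≤ T → (orbitPoint N p q U V R T).srcQ ≤ K := by
  have hsub : Icc T₀ 0 ⊆ Ioi T₁ := fun x hx => s.orbit.T₁_lt.trans_le hx.1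
  obtain ⟨K, hK⟩ := isCompact_Icc.exists_bound_of_continuousOn ((s.continuousOn_srcQ R).mono hsub)
  refine ⟨max K N, fun T hT => ?_⟩
  rcases le_or_gt T 0 with h | h
  · exact ((le_abs_self _).trans (hK T ⟨hT, h⟩)).trans (le_max_left _ _)
  · have h1 : T₁ < T := s.orbit.T₁_lt.trans_le hT
    have h2 := s.ground.qW_lt s.two_lt s.p_pos s.q_pos h
    unfold qZ at h2
    rw [s.srcQ_eq R h1, mul_div_cancel_left₀ _ (s.v₁_pos h1.le).ne'] at h2
    exact h2.le.trans (le_max_right _ _)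

/-- `e` dominates `W`. -/
theorem exists_e_ge (R : Rule) {κ : ℝ} (hm : Margin N p q T₀ U V R κ) :
    ∃ c > 0, ∀ T, T₀ ≤ T → c * (orbitPoint N p q U V R T).W ≤ (orbitPoint N p q U V R T).e := by
  have hS : 0 < N - 2 := by linarith [s.two_lt]
  have hp1 : 0 < p + 1 := by linarith [s.p_pos]
  obtain ⟨δ, hδ, hδb⟩ : ∃ δ > 0, δ ^ (p + 1) ≤ (1 / 2 : ℝ) :=
    ⟨(1 / 2) ^ (1 / (p + 1)), by positivity, le_of_eq (by
      rw [← Real.rpow_mul (by norm_num), one_div_mul_cancel hp1.ne', Real.rpow_one])⟩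
  obtain ⟨b, hb⟩ := eventually_atTop.1 (s.orbit.ratio_zero.eventually (eventually_le_nhds hδ))
  set b' := max b 1
  have hsub : Icc T₀ b' ⊆ Ioi T₁ := fun x hx => s.orbit.T₁_lt.trans_le hx.1
  have hne : (Icc T₀ b').Nonempty := nonempty_Icc.2
    ((s.orbit.T₀_neg.le.trans zero_le_one).trans (le_max_right _ _))
  have hce : ContinuousOn (fun x => (orbitPoint N p q U V R x).e) (Ioi T₁) :=
    (s.continuousOn_oW.add s.continuousOn_oZ).sub continuousOn_const
  obtain ⟨x, hx, hmin⟩ := isCompact_Icc.exists_isMinOn hne (hce.mono hsub)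
  obtain ⟨K, hK⟩ := s.exists_W_bound R
  have hK0 : 0 < K := (s.srcQ_pos R (s.orbit.T₁_lt.trans_le hx.1)).trans_le (hK x hx.1)
  refine ⟨min (N * (orbitPoint N p q U V R x).e / K) (cα N q / (2 * (N - 2))),
    lt_min (div_pos (mul_pos s.N_pos (hm.e_pos x hx.1)) hK0) (div_pos s.α_pos (by linarith)),
    fun T hT => ?_⟩
  have h1 : T₁ < T := s.orbit.T₁_lt.trans_le hT
  have hQ := s.srcQ_pos R h1
  have hWe : (orbitPoint N p q U V R T).W = (orbitPoint N p q U V R T).srcQ / N := by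
    rw [Point.W, s.dim_eq R]
  have hW0 : 0 ≤ (orbitPoint N p q U V R T).W := hWe ▸ (div_pos hQ s.N_pos).le
  rcases le_total T b' with h | h
  · refine (mul_le_mul_of_nonneg_right (min_le_left _ _) hW0).trans ?_
    refine le_trans ?_ (hmin (⟨hT, h⟩ : T ∈ Icc T₀ b'))
    rw [hWe, div_mul_div_comm, div_le_iff₀ (mul_pos hK0 s.N_pos)]
    have := mul_le_mul_of_nonneg_left (hK T hT) (mul_pos s.N_pos (hm.e_pos x hx.1)).le
    linarith
  · refine (mul_le_mul_of_nonneg_right (min_le_right _ _) hW0).trans ?_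
    have hT0 : 0 < T := lt_of_lt_of_le zero_lt_one ((le_max_right _ _).trans h)
    have hr : ratio p q U V T ^ (p + 1) ≤ 1 / 2 :=
      (Real.rpow_le_rpow (s.ratio_pos h1.le).le (hb T ((le_max_left _ _).trans h)) hp1.le).trans hδb
    have h2 := (s.srcP_le R hT).trans (mul_le_mul_of_nonneg_right hr hQ.le)
    have e := Point.srcQ_sub (orbitPoint N p q U V R T) s.α_pos.ne'
    rw [s.dim_eq R] at e
    have hX : (orbitPoint N p q U V R T).ξ ≤ N - 2 :=
      (s.ground.qX_lt s.two_lt s.p_pos s.q_pos hT0).le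
    have he := hm.e_pos T hT
    have hα : 0 < (orbitPoint N p q U V R T).α := s.α_pos
    rw [eq_div_iff hα.ne'] at e
    have h3 := mul_le_mul_of_nonneg_left hX (mul_pos s.N_pos he).le
    rw [hWe, div_mul_div_comm, div_le_iff₀ (mul_pos (mul_pos two_pos hS) s.N_pos)]
    show (orbitPoint N p q U V R T).α * _ ≤ _
    have h4 := mul_le_mul_of_nonneg_left h2 hα.le
    linarith

/-- All uniform bounds. -/
theorem exists_within (R : Rule) {κ : ℝ} (hm : Margin N p q T₀ U V R κ) :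
    ∃ c > 0, ∃ K, 1 ≤ K ∧ c ≤ 1 ∧ c ≤ cα N q ∧ cα N q ≤ K ∧ ∀ T, T₀ ≤ T →
      |qX N p U V T| ≤ K ∧ c ≤ oW N p q U V T - oZ N p q U V T ∧ 0 < oZ N p q U V T ∧
      oW N p q U V T ≤ K ∧ c * (orbitPoint N p q U V R T).W ≤ (orbitPoint N p q U V R T).n₀ ∧
      (orbitPoint N p q U V R T).W ≤ K ∧ c ≤ (orbitPoint N p q U V R T).π₀ ∧
      c ≤ (orbitPoint N p q U V R T).iii ∧
      (orbitPoint N p q U V R T).srcP ≤ K * (orbitPoint N p q U V R T).W ∧
      (orbitPoint N p q U V R T).w₁ * (orbitPoint N p q U V R T).L ^ 2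
        ≤ (1 - c) * (4 * (orbitPoint N p q U V R T).n₀ * (orbitPoint N p q U V R T).π₀) := by
  obtain ⟨c₁, hc₁, h₁⟩ := s.exists_sep
  obtain ⟨K₁, h₂⟩ := s.exists_xi_bound
  obtain ⟨K₂, h₃⟩ := s.exists_W_bound R
  obtain ⟨c₂, hc₂, h₄⟩ := s.exists_e_ge R hm
  have hN := s.N_pos
  have hκ := hm.κ_pos
  have hα := s.α_pos
  set c := min (min c₁ (min κ (N * c₂ * κ))) (min 1 (cα N q))
  set K := max (max K₁ (K₂ / N)) (max (max 1 (cα N q)) (max (cα N q / (N - 2)) (N * rtop p q ^ (p + 1))))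
  have hc0 : 0 < c := lt_min (lt_min hc₁ (lt_min hκ (by positivity))) (lt_min one_pos hα)
  have cl : c ≤ c₁ ∧ c ≤ κ ∧ c ≤ N * c₂ * κ ∧ c ≤ 1 ∧ c ≤ cα N q := by
    simp only [c, min_le_iff, le_refl, true_or, or_true, and_self]
  have Kl : K₁ ≤ K ∧ K₂ / N ≤ K ∧ 1 ≤ K ∧ cα N q ≤ K ∧ cα N q / (N - 2) ≤ K
      ∧ N * rtop p q ^ (p + 1) ≤ K := by
    simp only [K, le_max_iff, le_refl, true_or, or_true, and_self]
  refine ⟨c, hc0, K, Kl.2.2.1, cl.2.2.2.1, cl.2.2.2.2, Kl.2.2.2.1, fun T hT => ?_⟩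
  set P := orbitPoint N p q U V R T
  have h1 : T₁ < T := s.orbit.T₁_lt.trans_le hT
  have hQ := s.srcQ_pos R h1
  have hWe : P.W = P.srcQ / N := by rw [Point.W, s.dim_eq R]
  have hW0 : 0 ≤ P.W := hWe ▸ (div_pos hQ hN).le
  have hn : 0 ≤ P.n₀ := mul_nonneg (mul_nonneg (s.dim_eq R ▸ hN.le) (hm.e_pos T hT).le)
    (hκ.le.trans (hm.v_ge T hT))
  refine ⟨(h₂ T hT).trans Kl.1, cl.1.trans (h₁ T hT), s.ζ_pos hT, (s.w₁_le hT).trans Kl.2.2.2.2.1,
    ?_, ?_, cl.2.1.trans (hm.π_ge T hT), cl.2.1.trans (hm.iii_ge T hT), ?_, ?_⟩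
  · calc c * P.W ≤ N * c₂ * κ * P.W := mul_le_mul_of_nonneg_right cl.2.2.1 hW0
      _ = N * (c₂ * P.W) * κ := by ring
      _ ≤ N * P.e * P.v := mul_le_mul (mul_le_mul_of_nonneg_left (h₄ T hT) hN.le) (hm.v_ge T hT)
          hκ.le (mul_nonneg hN.le (hm.e_pos T hT).le)
      _ = P.n₀ := by rw [Point.n₀, s.dim_eq R]
  · rw [hWe]
    exact (div_le_div_of_nonneg_right (h₃ T hT) hN.le).trans Kl.2.1
  · refine (s.srcP_le_top R hT).trans ?_
    calc rtop p q ^ (p + 1) * P.srcQ = N * rtop p q ^ (p + 1) * (P.srcQ / N) := by field_simp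
      _ ≤ K * (P.srcQ / N) := mul_le_mul_of_nonneg_right Kl.2.2.2.2.2 (hWe ▸ hW0)
      _ = K * P.W := by rw [hWe]
  · refine (hm.coupling T hT).trans (mul_le_mul_of_nonneg_right (by linarith [cl.2.1]) ?_)
    have := hκ.le.trans (hm.π_ge T hT)
    positivity

end Setting

end

end Vale.Agent.P100.OrbitCert
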