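import Vale.Agent.P100.OrbitCert.Field
import Vale.Agent.P100.Assembly

/-!
# P100: from functions of the time on the orbit to functions of `r = v / u ^ σ`

The ratio is strictly decreasing a little beyond the top value, so a function of time pulls back to
a function of `r > 0`, saturated above the top value.
-/

namespace Vale.Agent.P100.OrbitCert

open Filter Set Topology Orbit
open scoped ContDiff

noncomputable section

variable {N p q T₁ T₀ T : ℝ} {U V : ℝ → ℝ}

/-- Differentiable saturation: the identity up to `R`, with values below `R + c`. -/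
def sat (R c r : ℝ) : ℝ := if r ≤ R then r else R + c * (r - R) / (c + (r - R))

/-- Its derivative. -/
def satD (R c r : ℝ) : ℝ := if r ≤ R then 1 else c ^ 2 / (c + (r - R)) ^ 2

theorem sat_of_le {R c r : ℝ} (h : r ≤ R) : sat R c r = r := if_pos h

theorem sat_mem {R c r : ℝ} (hR : 0 < R) (hc : 0 < c) (hr : 0 < r) : sat R c r ∈ Ioo 0 (R + c) := by
  unfold sat
  split_ifs with h
  · exact ⟨hr, by linarith⟩
  · have hd : 0 < r - R := sub_pos.2 (not_le.1 h)
    refine ⟨by positivity, add_lt_add_of_le_of_lt le_rfl ((div_lt_iff₀ (by linarith)).2 ?_)⟩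
    nlinarith

theorem hasDerivAt_sat {R c : ℝ} (hc : 0 < c) (r : ℝ) : HasDerivAt (sat R c) (satD R c r) r := by
  have hg : ∀ x, R ≤ x → HasDerivAt (fun x => R + c * (x - R) / (c + (x - R)))
      (c ^ 2 / (c + (x - R)) ^ 2) x := fun x hx =>
    (((((hasDerivAt_id x).sub_const R).const_mul c).div
      (((hasDerivAt_id x).sub_const R).const_add c) (by show c + (x - R) ≠ 0; linarith)).const_add R).congr_deriv
      (by simp only [id_eq, mul_one]; ring)
  rcases lt_trichotomy r R with h | h | h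
  · refine ((hasDerivAt_id r).congr_of_eventuallyEq ?_).congr_deriv (by simp [satD, h.le])
    filter_upwards [Iio_mem_nhds h] with x hx
    exact sat_of_le (le_of_lt hx)
  · subst h
    have h1 : HasDerivWithinAt (sat r c) (satD r c r) (Iic r) r := by
      have e : satD r c r = 1 := by simp [satD]
      rw [e]
      exact (hasDerivWithinAt_id r _).congr (fun x hx => sat_of_le hx) (sat_of_le le_rfl)
    have h2 : HasDerivWithinAt (sat r c) (satD r c r) (Ici r) r := by
      refine (((hg r le_rfl).hasDerivWithinAt).congr (fun x hx => ?_) ?_).congr_deriv ?_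
      · rcases (show r ≤ x from hx).eq_or_lt with rfl | hx'
        · simp [sat]
        · simp [sat, not_le.2 hx']
      · simp [sat]
      · simp [satD, hc.ne']
    have := h1.union h2
    rwa [Iic_union_Ici, hasDerivWithinAt_univ] at this
  · refine ((hg r h.le).congr_of_eventuallyEq ?_).congr_deriv (by simp [satD, not_le.2 h])
    filter_upwards [Ioi_mem_nhds h] with x hx
    simp [sat, not_le.2 (show R < x from hx)]

theorem continuous_satD {R c : ℝ} (hc : 0 < c) : Continuous (satD R c) := by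
  refine continuous_if_le continuous_id continuous_const continuousOn_const ?_ fun x hx => ?_
  · refine ContinuousOn.div continuousOn_const (by fun_prop) fun x hx => ?_
    have : R ≤ x := hx
    have : 0 < c + (x - R) := by linarith
    positivity
  · have : x = R := hx
    subst this
    simp [hc.ne']

namespace Setting

variable (s : Setting N p q T₁ T₀ U V)
include s

theorem wt_eq : wt p q 0 = cα N q ∧ wt p q 1 = cα N p ∧ 1 < p * q := by
  have hN := s.N_pos
  have hp1 : 0 < p + 1 := by linarith [s.p_pos]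
  have hq1 : 0 < q + 1 := by linarith [s.q_pos]
  have hc := s.critical
  field_simp at hc
  have h : N * (p * q - 1) = 2 * (p + 1) * (q + 1) := by linear_combination -hc
  have hpq : 1 < p * q := by
    by_contra hle
    push Not at hle
    have : 0 < 2 * (p + 1) * (q + 1) := by positivity
    nlinarith [mul_nonneg hN.le (sub_nonneg.2 hle)]
  refine ⟨?_, ?_, hpq⟩ <;> simp only [wt, cα, Matrix.cons_val_zero, Matrix.cons_val_one] <;>
    rw [div_eq_div_iff (by linarith) (by linarith)] <;> linear_combination -h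

theorem orbit_det_eq (hT : T₁ ≤ T) :
    cα N q * U T * du N q U T - cα N p * V T * du N p V T
      = cα N q * (U T * du N q U T - Orbit.sig p q * (V T * du N p V T)) := by
  have : p + 1 ≠ 0 := by linarith [s.p_pos]
  have : q + 1 ≠ 0 := by linarith [s.q_pos]
  unfold cα Orbit.sig
  field_simp

/-- The ratio has negative derivative where the determinant is positive. -/
theorem hasDerivAt_ratio (hT : T₁ < T) : HasDerivAt (ratio p q U V)
    (-(U T * du N q U T - Orbit.sig p q * (V T * du N p V T)) / (U T ^ Orbit.sig p q * U T)) T := by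
  have h1 := s.U_pos hT.le
  refine ((s.orbit.deriv_v T hT).div ((s.orbit.deriv_u T hT).rpow_const (p := Orbit.sig p q)
    (Or.inl h1.ne')) (Real.rpow_pos_of_pos h1 _).ne').congr_deriv ?_
  rw [Real.rpow_sub_one h1.ne']
  have := (Real.rpow_pos_of_pos h1 (Orbit.sig p q)).ne'
  field_simp
  ring

/-- A time before `T₀` up to which the determinant stays positive. -/
theorem exists_det_pos : ∃ T', T₁ < T' ∧ T' < T₀ ∧ ∀ T, T' ≤ T →
    0 < U T * du N q U T - Orbit.sig p q * (V T * du N p V T) := by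
  set D : ℝ → ℝ := fun T => U T * du N q U T - Orbit.sig p q * (V T * du N p V T)
  have hc : Continuous D :=
    (s.orbit.cont_u.mul s.continuous_v₁).sub (continuous_const.mul (s.orbit.cont_v.mul s.continuous_u₁))
  have h0 : 0 < D T₀ := sub_pos.2 (s.orbit.det_pos T₀ le_rfl)
  obtain ⟨δ, hδ, hball⟩ := Metric.eventually_nhds_iff.1 (hc.continuousAt.eventually_const_lt h0)
  refine ⟨max ((T₁ + T₀) / 2) (T₀ - δ / 2), lt_max_of_lt_left (by linarith [s.orbit.T₁_lt]),
    max_lt (by linarith [s.orbit.T₁_lt]) (by linarith), fun T hT => ?_⟩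
  rcases le_total T₀ T with h | h
  · exact sub_pos.2 (s.orbit.det_pos T h)
  · refine hball ?_
    rw [Real.dist_eq, abs_lt]
    have := (le_max_right _ _).trans hT
    constructor <;> linarith

end Setting

open Classical in
/-- The left end of the interval of inversion. -/
def tEnd (N p q T₁ T₀ : ℝ) (U V : ℝ → ℝ) : ℝ :=
  if h : ∃ T', T₁ < T' ∧ T' < T₀ ∧ ∀ T, T' ≤ T →
      0 < U T * du N q U T - Orbit.sig p q * (V T * du N p V T) then h.choose else T₀

/-- The inverse of the ratio. -/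
def τ (N p q T₁ T₀ : ℝ) (U V : ℝ → ℝ) (r : ℝ) : ℝ :=
  Function.invFunOn (ratio p q U V) (Ici (tEnd N p q T₁ T₀ U V)) r

/-- The saturated inverse. -/
def tSat (N p q T₁ T₀ : ℝ) (U V : ℝ → ℝ) (r : ℝ) : ℝ :=
  τ N p q T₁ T₀ U V (sat ((rtop p q + ratio p q U V (tEnd N p q T₁ T₀ U V)) / 2)
    ((ratio p q U V (tEnd N p q T₁ T₀ U V) - rtop p q) / 2) r)

/-- The pull-back of a function of time, of degree `m`. -/
def pull (N p q T₁ T₀ : ℝ) (U V : ℝ → ℝ) (m : ℝ) (φ : ℝ → ℝ) (r : ℝ) : ℝ :=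
  φ (tSat N p q T₁ T₀ U V r) * U (tSat N p q T₁ T₀ U V r) ^ (-(m / cα N q))

namespace Setting

variable (s : Setting N p q T₁ T₀ U V)
include s

theorem tEnd_spec : T₁ < tEnd N p q T₁ T₀ U V ∧ tEnd N p q T₁ T₀ U V < T₀ ∧
    ∀ T, tEnd N p q T₁ T₀ U V ≤ T →
      0 < U T * du N q U T - Orbit.sig p q * (V T * du N p V T) := by
  rw [tEnd, dif_pos s.exists_det_pos]
  exact s.exists_det_pos.choose_spec

theorem ratio_anti : StrictAntiOn (ratio p q U V) (Ici (tEnd N p q T₁ T₀ U V)) := by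
  obtain ⟨h1, -, hd⟩ := s.tEnd_spec
  refine strictAntiOn_of_deriv_neg (convex_Ici _) (s.orbit.ratio_cont.mono fun x hx => ?_) fun x hx => ?_
  · exact h1.le.trans hx
  · rw [interior_Ici] at hx
    have hx' : tEnd N p q T₁ T₀ U V < x := hx
    rw [(s.hasDerivAt_ratio (h1.trans hx')).deriv, neg_div]
    have hU := s.U_pos (h1.trans hx').le
    exact neg_neg_of_pos (div_pos (hd x hx'.le) (mul_pos (Real.rpow_pos_of_pos hU _) hU))

theorem ratio_pos (hT : T₁ ≤ T) : 0 < ratio p q U V T :=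
  div_pos (s.V_pos hT) (Real.rpow_pos_of_pos (s.U_pos hT) _)

theorem top_lt : rtop p q < ratio p q U V (tEnd N p q T₁ T₀ U V) := by
  rw [← s.orbit.ratio_top]
  exact s.ratio_anti self_mem_Ici s.tEnd_spec.2.1.le s.tEnd_spec.2.1

theorem τ_spec {r : ℝ} (hr : r ∈ Ioo 0 (ratio p q U V (tEnd N p q T₁ T₀ U V))) :
    tEnd N p q T₁ T₀ U V < τ N p q T₁ T₀ U V r ∧ ratio p q U V (τ N p q T₁ T₀ U V r) = r := by
  obtain ⟨h1, -, -⟩ := s.tEnd_spec
  set a := tEnd N p q T₁ T₀ U V
  obtain ⟨b, hb⟩ := eventually_atTop.1 (s.orbit.ratio_zero.eventually (eventually_le_nhds hr.1))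
  have hex : ∃ T ∈ Ici a, ratio p q U V T = r := by
    obtain ⟨T, hT, e⟩ := intermediate_value_Icc' (le_max_left a b)
      (s.orbit.ratio_cont.mono fun x hx => h1.le.trans hx.1)
      ⟨hb _ (le_max_right a b), hr.2.le⟩
    exact ⟨T, hT.1, e⟩
  have e : ratio p q U V (τ N p q T₁ T₀ U V r) = r := Function.invFunOn_eq hex
  have hm : τ N p q T₁ T₀ U V r ∈ Ici a := Function.invFunOn_mem hex
  refine ⟨lt_of_le_of_ne hm fun h => ?_, e⟩
  rw [← h] at e
  exact hr.2.ne' e

theorem τ_eq {r : ℝ} (hT : tEnd N p q T₁ T₀ U V ≤ T) (h : ratio p q U V T = r) :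
    τ N p q T₁ T₀ U V r = T := by
  subst h
  exact s.ratio_anti.injOn.leftInvOn_invFunOn hT

theorem τ_mem {r : ℝ} (hr : r ∈ Ioc 0 (rtop p q)) : T₀ ≤ τ N p q T₁ T₀ U V r := by
  obtain ⟨T, hT, e⟩ := s.orbit.exists_of_mem hr
  rw [s.τ_eq (s.tEnd_spec.2.1.le.trans hT) e]
  exact hT

theorem τ_ratio (hT : T₀ ≤ T) : τ N p q T₁ T₀ U V (ratio p q U V T) = T :=
  s.τ_eq (s.tEnd_spec.2.1.le.trans hT) rfl

theorem ratio_mem (hT : T₀ ≤ T) : ratio p q U V T ∈ Ioc 0 (rtop p q) := by
  refine ⟨s.ratio_pos (s.orbit.T₁_lt.le.trans hT), ?_⟩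
  rw [← s.orbit.ratio_top]
  exact s.orbit.ratio_anti.antitoneOn self_mem_Ici hT hT

theorem continuousAt_τ {r : ℝ} (hr : r ∈ Ioo 0 (ratio p q U V (tEnd N p q T₁ T₀ U V))) :
    ContinuousAt (τ N p q T₁ T₀ U V) r := by
  obtain ⟨h1, -, -⟩ := s.tEnd_spec
  set a := tEnd N p q T₁ T₀ U V
  have hmono : StrictAntiOn (τ N p q T₁ T₀ U V) (Ioo 0 (ratio p q U V a)) := by
    intro x hx y hy hxy
    by_contra hle
    push Not at hle
    have := s.ratio_anti.antitoneOn (show a ≤ _ from (s.τ_spec hx).1.le)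
      (show a ≤ _ from (s.τ_spec hy).1.le) hle
    rw [(s.τ_spec hx).2, (s.τ_spec hy).2] at this
    exact not_le.2 hxy this
  have himg : τ N p q T₁ T₀ U V '' Ioo 0 (ratio p q U V a) ∈ 𝓝 (τ N p q T₁ T₀ U V r) := by
    refine mem_of_superset (Ioi_mem_nhds (s.τ_spec hr).1) fun x hx => ?_
    have hx' : a < x := hx
    exact ⟨ratio p q U V x, ⟨s.ratio_pos (h1.trans hx').le, s.ratio_anti self_mem_Ici hx'.le hx'⟩,
      s.τ_eq hx'.le rfl⟩
  exact (StrictMonoOn.continuousAt_of_image_mem_nhds (f := fun x => -τ N p q T₁ T₀ U V x)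
    (s := Ioo 0 (ratio p q U V a)) hmono.neg (Ioo_mem_nhds hr.1 hr.2) (by
      rw [show (fun x => -τ N p q T₁ T₀ U V x) '' Ioo 0 (ratio p q U V a)
        = Neg.neg '' (τ N p q T₁ T₀ U V '' Ioo 0 (ratio p q U V a)) from
        (image_image Neg.neg (τ N p q T₁ T₀ U V) _).symm]
      exact (Homeomorph.neg ℝ).isOpenMap.image_mem_nhds himg)).neg.congr
    (.of_forall fun x => neg_neg _)

theorem hasDerivAt_τ {r : ℝ} (hr : r ∈ Ioo 0 (ratio p q U V (tEnd N p q T₁ T₀ U V))) :
    HasDerivAt (τ N p q T₁ T₀ U V)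
      (-(U (τ N p q T₁ T₀ U V r) ^ Orbit.sig p q * U (τ N p q T₁ T₀ U V r)) /
        (U (τ N p q T₁ T₀ U V r) * du N q U (τ N p q T₁ T₀ U V r)
          - Orbit.sig p q * (V (τ N p q T₁ T₀ U V r) * du N p V (τ N p q T₁ T₀ U V r)))) r := by
  obtain ⟨h1, -, hd⟩ := s.tEnd_spec
  obtain ⟨hT, -⟩ := s.τ_spec hr
  have hU := s.U_pos (h1.trans hT).le
  have h := HasDerivAt.of_local_left_inverse (s.continuousAt_τ hr) (s.hasDerivAt_ratio (h1.trans hT))
    (div_ne_zero (neg_ne_zero.2 (hd _ hT.le).ne') (mul_pos (Real.rpow_pos_of_pos hU _) hU).ne') (by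
      filter_upwards [Ioo_mem_nhds hr.1 hr.2] with x hx using (s.τ_spec hx).2)
  refine h.congr_deriv ?_
  rw [inv_div, div_neg, neg_div]

theorem sat_params {r : ℝ} (hr : 0 < r) :
    sat ((rtop p q + ratio p q U V (tEnd N p q T₁ T₀ U V)) / 2)
      ((ratio p q U V (tEnd N p q T₁ T₀ U V) - rtop p q) / 2) r
        ∈ Ioo 0 (ratio p q U V (tEnd N p q T₁ T₀ U V)) := by
  have h := s.top_lt
  have := Orbit.rtop_pos s.p_pos s.q_pos
  have hm := sat_mem (R := (rtop p q + ratio p q U V (tEnd N p q T₁ T₀ U V)) / 2)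
    (c := (ratio p q U V (tEnd N p q T₁ T₀ U V) - rtop p q) / 2) (by linarith) (by linarith) hr
  exact ⟨hm.1, hm.2.trans_le (by linarith)⟩

theorem tEnd_lt_tSat {r : ℝ} (hr : 0 < r) :
    tEnd N p q T₁ T₀ U V < tSat N p q T₁ T₀ U V r :=
  (s.τ_spec (s.sat_params hr)).1

theorem tSat_eq {r : ℝ} (h : r ≤ rtop p q) :
    tSat N p q T₁ T₀ U V r = τ N p q T₁ T₀ U V r := by
  rw [tSat, sat_of_le (h.trans (by linarith [s.top_lt]))]

theorem hasDerivAt_tSat_top {r : ℝ} (hr : r ∈ Ioc 0 (rtop p q)) :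
    HasDerivAt (tSat N p q T₁ T₀ U V)
      (-(U (τ N p q T₁ T₀ U V r) ^ Orbit.sig p q * U (τ N p q T₁ T₀ U V r)) /
        (U (τ N p q T₁ T₀ U V r) * du N q U (τ N p q T₁ T₀ U V r)
          - Orbit.sig p q * (V (τ N p q T₁ T₀ U V r) * du N p V (τ N p q T₁ T₀ U V r)))) r := by
  refine (s.hasDerivAt_τ ⟨hr.1, hr.2.trans_lt s.top_lt⟩).congr_of_eventuallyEq ?_
  filter_upwards [Iio_mem_nhds (show r < (rtop p q + ratio p q U V (tEnd N p q T₁ T₀ U V)) / 2 by
    linarith [hr.2, s.top_lt])] with x hx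
  rw [tSat, sat_of_le (le_of_lt hx)]

theorem continuousOn_tSat : ContinuousOn (tSat N p q T₁ T₀ U V) (Ioi 0) := fun r hr =>
  ((s.continuousAt_τ (s.sat_params hr)).comp (hasDerivAt_sat (by linarith [s.top_lt]) r).continuousAt).continuousWithinAt

theorem contDiffOn_pull {m : ℝ} {φ φ' : ℝ → ℝ}
    (h : ∀ x, T₁ < x → HasDerivAt φ (φ' x) x) (hc : ContinuousOn φ' (Ioi T₁)) :
    ContDiffOn ℝ 1 (pull N p q T₁ T₀ U V m φ) (Ioi 0) := by
  obtain ⟨h1, -, hd⟩ := s.tEnd_spec
  set R := (rtop p q + ratio p q U V (tEnd N p q T₁ T₀ U V)) / 2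
  set c := (ratio p q U V (tEnd N p q T₁ T₀ U V) - rtop p q) / 2
  have hc0 : 0 < c := by simp only [c]; linarith [s.top_lt]
  set ρ := fun r => tSat N p q T₁ T₀ U V r
  set ρ' := fun r => -(U (ρ r) ^ Orbit.sig p q * U (ρ r)) /
      (U (ρ r) * du N q U (ρ r) - Orbit.sig p q * (V (ρ r) * du N p V (ρ r))) * satD R c r
  have hρT : ∀ r, 0 < r → T₁ < ρ r := fun r hr => h1.trans (s.tEnd_lt_tSat hr)
  have hρ : ∀ r, 0 < r → HasDerivAt ρ (ρ' r) r := fun r hr =>
    (s.hasDerivAt_τ (s.sat_params hr)).comp r (hasDerivAt_sat hc0 r)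
  have hder : ∀ r, 0 < r → HasDerivAt (pull N p q T₁ T₀ U V m φ)
      (φ' (ρ r) * ρ' r * U (ρ r) ^ (-(m / cα N q))
        + φ (ρ r) * (-du N p V (ρ r) * ρ' r * (-(m / cα N q))
          * U (ρ r) ^ (-(m / cα N q) - 1))) r := fun r hr => by
    have hU : HasDerivAt (fun x => U (ρ x)) (-du N p V (ρ r) * ρ' r) r :=
      (s.orbit.deriv_u _ (hρT r hr)).comp r (hρ r hr)
    exact ((h _ (hρT r hr)).comp r (hρ r hr)).mul
      (hU.rpow_const (p := -(m / cα N q)) (Or.inl (s.U_pos (hρT r hr).le).ne'))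
  rw [show (1 : WithTop ℕ∞) = 0 + 1 from rfl, contDiffOn_succ_iff_deriv_of_isOpen isOpen_Ioi]
  refine ⟨fun r hr => (hder r hr).differentiableAt.differentiableWithinAt, by simp, ?_⟩
  rw [contDiffOn_zero]
  refine ContinuousOn.congr ?_ fun r hr => (hder r hr).deriv
  have cρ := s.continuousOn_tSat
  have mρ : MapsTo ρ (Ioi 0) (Ioi T₁) := fun r hr => hρT r hr
  have cφ : ContinuousOn φ (Ioi T₁) := fun x hx => (h x hx).continuousAt.continuousWithinAt
  have cU := s.orbit.cont_u.comp_continuousOn cρ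
  have hUp : ∀ r ∈ Ioi (0 : ℝ), U (ρ r) ≠ 0 := fun r hr => (s.U_pos (hρT r hr).le).ne'
  have cp : ∀ k : ℝ, ContinuousOn (fun r => U (ρ r) ^ k) (Ioi 0) := fun k =>
    cU.rpow_const fun r hr => Or.inl (hUp r hr)
  have cρ' : ContinuousOn ρ' (Ioi 0) := by
    refine ContinuousOn.mul (ContinuousOn.div ((cp _).mul cU).neg ?_ fun r hr => ?_)
      (continuous_satD hc0).continuousOn
    · exact (cU.mul (s.continuous_v₁.comp_continuousOn cρ)).sub
        (continuousOn_const.mul ((s.orbit.cont_v.comp_continuousOn cρ).mul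
          (s.continuous_u₁.comp_continuousOn cρ)))
    · exact (hd _ (s.tEnd_lt_tSat hr).le).ne'
  exact (((hc.comp cρ mρ).mul cρ').mul (cp _)).add ((cφ.comp cρ mρ).mul
    ((((s.continuous_u₁.comp_continuousOn cρ).neg.mul cρ').mul continuousOn_const).mul (cp _)))

theorem pull_eq {r : ℝ} (hr : r ∈ Ioc 0 (rtop p q)) (m : ℝ) (φ : ℝ → ℝ) :
    pull N p q T₁ T₀ U V m φ r
      = φ (τ N p q T₁ T₀ U V r) * U (τ N p q T₁ T₀ U V r) ^ (-(m / cα N q)) := by
  rw [pull, s.tSat_eq hr.2]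

theorem homD_pull {r : ℝ} (hr : r ∈ Ioc 0 (rtop p q)) (m : ℝ) {φ : ℝ → ℝ} {f' : ℝ}
    (h : HasDerivAt φ f' (τ N p q T₁ T₀ U V r)) :
    homD p q m (pull N p q T₁ T₀ U V m φ) r 0
        = opu N p q U V (τ N p q T₁ T₀ U V r) m (φ (τ N p q T₁ T₀ U V r)) f'
          * U (τ N p q T₁ T₀ U V r) ^ (1 - m / cα N q)
      ∧ homD p q m (pull N p q T₁ T₀ U V m φ) r 1
        = opv N p q U V (τ N p q T₁ T₀ U V r) m (φ (τ N p q T₁ T₀ U V r)) f'
          * U (τ N p q T₁ T₀ U V r) ^ (Orbit.sig p q - m / cα N q) := by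
  have hT1 : T₁ < τ N p q T₁ T₀ U V r := s.orbit.T₁_lt.trans_le (s.τ_mem hr)
  have hU := s.U_pos hT1.le
  have hρ := s.hasDerivAt_tSat_top hr
  have he := s.tSat_eq hr.2
  have hd := s.tEnd_spec.2.2 _ (s.tEnd_spec.2.1.le.trans (s.τ_mem hr))
  have hratio : ratio p q U V (τ N p q T₁ T₀ U V r) = r :=
    (s.τ_spec ⟨hr.1, hr.2.trans_lt s.top_lt⟩).2
  have hdet := s.orbit_det_eq hT1.le
  rw [← he] at h hU hT1
  have hder := ((h.comp r hρ)).mul (((s.orbit.deriv_u _ hT1).comp r hρ).rpow_const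
    (p := -(m / cα N q)) (Or.inl hU.ne'))
  have hpd : deriv (pull N p q T₁ T₀ U V m φ) r = _ := hder.deriv
  rw [he] at hU hT1
  simp only [homD, Matrix.cons_val_zero, Matrix.cons_val_one, s.wt_eq.1, s.pull_eq hr, hpd,
    Function.comp_apply, he, opu, opv, hdet]
  generalize τ N p q T₁ T₀ U V r = T at hd hratio hU hT1 ⊢
  have hs : (q + 1) / (p + 1) = Orbit.sig p q := rfl
  have hσ : cα N p = cα N q * Orbit.sig p q := by
    have : p + 1 ≠ 0 := by linarith [s.p_pos]
    have : q + 1 ≠ 0 := by linarith [s.q_pos]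
    unfold cα Orbit.sig
    field_simp
  rw [hs, hσ, ← hratio, show ratio p q U V T = V T / U T ^ Orbit.sig p q from rfl,
    show 1 - m / cα N q = -(m / cα N q) + 1 by ring,
    show Orbit.sig p q - m / cα N q = -(m / cα N q) + Orbit.sig p q by ring,
    Real.rpow_add hU, Real.rpow_add hU, Real.rpow_one, Real.rpow_sub_one hU.ne']
  generalize hD : U T * du N q U T - Orbit.sig p q * (V T * du N p V T) = D at hd ⊢
  have := hd.ne'
  have := hU.ne'
  have := (Real.rpow_pos_of_pos hU (Orbit.sig p q)).ne'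
  have := s.α_pos.ne'
  constructor <;> field_simp <;> first | ring1 | linear_combination (-(m * φ T)) * hD | linear_combination (m * φ T) * hD

end Setting

end

end Vale.Agent.P100.OrbitCert
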