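import Mathlib
import Vale.Agent.P100.Blocks

/-!
# P100: the flux against a degenerate lower bound of the divergence

If the divergence dominates `W + a² + b² + (a g - b²) + |∇u - ∇v|²` and the completed square, and
`c + d` and the trace are of order `W`, then the flux is of order `W ^ (1/D - 1/2) P ^ (1 - 1/D)`.
-/

namespace Vale.Agent.P100.OrbitCert

open Finset Vale.Agent.P098.Cone

noncomputable section

variable {n : ℕ}

/-- The completed square of a traceless Hessian. -/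
def square (A k₁ k₂ : ℝ) (X Y : Fin n → ℝ) (h : Fin n → Fin n → ℝ) : ℝ :=
  ∑ i, ∑ j, (h i j + (k₁ * dev (sym X X) i j + k₂ * dev (sym X Y) i j) / (2 * A)) ^ 2

/-- The flux of a five-function field, from the traceless Hessian and the trace `-t`. -/
def fluxVec (A B C c d t : ℝ) (X Y : Fin n → ℝ) (h : Fin n → Fin n → ℝ) (i : Fin n) : ℝ :=
  A * (∑ j, (h i j - if i = j then t / n else 0) * X j)
    + (B * inner2 X X * X i + C * inner2 X X * Y i) + (c * X i + d * Y i)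

theorem square_nonneg (A k₁ k₂ : ℝ) (X Y : Fin n → ℝ) (h : Fin n → Fin n → ℝ) :
    0 ≤ square A k₁ k₂ X Y h := by
  unfold square; positivity

theorem abs_inner2_le {X Y : Fin n → ℝ} {a b : ℝ} (hX : ∀ i, |X i| ≤ a) (hY : ∀ i, |Y i| ≤ b)
    (ha : 0 ≤ a) : |inner2 X Y| ≤ n * (a * b) := by
  refine (abs_sum_le_sum_abs _ _).trans ((sum_le_card_nsmul _ _ (a * b) fun k _ => ?_).trans_eq
    (by simp))
  rw [abs_mul]
  exact mul_le_mul (hX k) (hY k) (abs_nonneg _) ha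

theorem abs_dev_sym_le {X Y : Fin n → ℝ} {s : ℝ} (h : ∀ i j, |X i * Y j| ≤ s) (hs : 0 ≤ s)
    (hn : 0 < n) (i j : Fin n) : |dev (sym X Y) i j| ≤ 2 * s := by
  have hn1 : (1 : ℝ) ≤ n := by exact_mod_cast hn
  have hi : |inner2 X Y| ≤ n * s := by
    refine (abs_sum_le_sum_abs _ _).trans ((sum_le_card_nsmul _ _ s fun k _ => h k k).trans_eq
      (by simp))
  rw [dev, trace_sym]
  refine (abs_sub _ _).trans ?_
  have h1 : |sym X Y i j| ≤ s := by
    rw [sym, abs_div, abs_two, div_le_iff₀ two_pos]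
    refine (abs_add_le _ _).trans ?_
    have := h i j
    have h' := h j i
    rw [mul_comm] at h'
    linarith
  have h2 : |if i = j then inner2 X Y / n else 0| ≤ s := by
    split_ifs
    · rw [abs_div, Nat.abs_cast, div_le_iff₀ (by linarith)]
      linarith
    · rw [abs_zero]; exact hs
  linarith

theorem abs_entry {A k₁ k₂ ε K x : ℝ} {X Y : Fin n → ℝ} {h : Fin n → Fin n → ℝ} (hn : 0 < n)
    (hε : 0 < ε) (hA : ε ≤ A) (h₁ : |k₁| ≤ K) (h₂ : |k₂| ≤ K)
    (hX : ∀ k, |X k| ≤ x) (hXY : ∀ k l, |X k * Y l| ≤ 2 * x ^ 2) (hx : 0 ≤ x)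
    (hS : square A k₁ k₂ X Y h ≤ (x ^ 2) ^ 2) (i j : Fin n) :
    |h i j| ≤ (1 + 6 * (K / ε)) * x ^ 2 := by
  have hK0 : 0 ≤ K := (abs_nonneg _).trans h₁
  have h1 : |h i j + (k₁ * dev (sym X X) i j + k₂ * dev (sym X Y) i j) / (2 * A)| ≤ x ^ 2 := by
    refine le_of_pow_le_pow_left₀ two_ne_zero (sq_nonneg x) ?_
    rw [sq_abs]
    exact ((single_le_sum (f := fun j => (h i j + (k₁ * dev (sym X X) i j
      + k₂ * dev (sym X Y) i j) / (2 * A)) ^ 2) (fun _ _ => sq_nonneg _) (Finset.mem_univ j)).trans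
      (single_le_sum (f := fun i => ∑ j, (h i j + (k₁ * dev (sym X X) i j
        + k₂ * dev (sym X Y) i j) / (2 * A)) ^ 2) (fun _ _ => by positivity) (Finset.mem_univ i))).trans hS
  have hXX : ∀ k l, |X k * X l| ≤ x ^ 2 := fun k l => by
    rw [abs_mul, pow_two]; exact mul_le_mul (hX k) (hX l) (abs_nonneg _) hx
  have d1 := abs_dev_sym_le hXX (sq_nonneg x) hn i j
  have d2 := abs_dev_sym_le hXY (by positivity) hn i j
  have h2 : |(k₁ * dev (sym X X) i j + k₂ * dev (sym X Y) i j) / (2 * A)| ≤ 6 * (K / ε) * x ^ 2 := by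
    rw [abs_div, abs_of_pos (show 0 < 2 * A by linarith), div_le_iff₀ (by linarith)]
    refine (abs_add_le _ _).trans ?_
    rw [abs_mul, abs_mul]
    refine (add_le_add (mul_le_mul h₁ d1 (abs_nonneg _) hK0)
      (mul_le_mul h₂ d2 (abs_nonneg _) hK0)).trans ?_
    calc K * (2 * x ^ 2) + K * (2 * (2 * x ^ 2)) = 6 * (K / ε) * x ^ 2 * ε := by field_simp; ring
      _ ≤ 6 * (K / ε) * x ^ 2 * (2 * A) := mul_le_mul_of_nonneg_left (by linarith) (by positivity)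
  have := abs_le.1 h1
  have := abs_le.1 h2
  rw [abs_le]
  constructor <;> linarith

/-- Flux bound by `√P + P^(3/4)`, with `x ^ 4 = P`. -/
theorem flux_le_quartic {A B C c d t k₁ k₂ ε K W x : ℝ} {X Y : Fin n → ℝ}
    {h : Fin n → Fin n → ℝ} (hn : 0 < n) (hε : 0 < ε) (hK : 1 ≤ K) (hA : ε ≤ A) (hAK : A ≤ K)
    (hB : |B| ≤ K) (hC : |C| ≤ K) (hd : |d| ≤ K) (h₁ : |k₁| ≤ K) (h₂ : |k₂| ≤ K)
    (hcd : |c + d| ≤ K * W) (ht : |t| ≤ K * W) (hW : 0 ≤ W) (hWK : W ≤ K) (hx : 0 ≤ x)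
    (hP : W + inner2 X X ^ 2 + inner2 X Y ^ 2 + (inner2 X X * inner2 Y Y - inner2 X Y ^ 2)
      + (inner2 X X - 2 * inner2 X Y + inner2 Y Y) + square A k₁ k₂ X Y h ≤ x ^ 4) (i : Fin n) :
    |fluxVec A B C c d t X Y h i| ≤ (n * K * (1 + 6 * (K / ε) + K ^ 2) + 6 * K ^ 2) * (x ^ 2 + x ^ 3) := by
  set a := inner2 X X
  set b := inner2 X Y
  set g := inner2 Y Y
  have sqn : ∀ Z : Fin n → ℝ, 0 ≤ inner2 Z Z := fun Z => sum_nonneg fun k _ => mul_self_nonneg _
  have comp : ∀ (Z : Fin n → ℝ) k, Z k ^ 2 ≤ inner2 Z Z := fun Z k => by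
    rw [pow_two]
    exact single_le_sum (f := fun j => Z j * Z j) (fun j _ => mul_self_nonneg (Z j)) (Finset.mem_univ k)
  have ha : 0 ≤ a := sqn X
  have hg : 0 ≤ g := sqn Y
  have hcs : 0 ≤ a * g - b ^ 2 := by
    have := sum_mul_sq_le_sq_mul_sq univ X Y
    simp only [a, b, g, inner2, ← pow_two]
    linarith
  have hth : 0 ≤ a - 2 * b + g := by
    have e : inner2 (fun k => Y k - X k) (fun k => Y k - X k) = a - 2 * b + g := by
      simp only [a, b, g, inner2, mul_sum, ← sum_sub_distrib, ← sum_add_distrib]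
      exact sum_congr rfl fun k _ => by ring
    exact e ▸ sqn _
  have hS := square_nonneg A k₁ k₂ X Y h
  have hA0 : 0 < A := hε.trans_le hA
  have hK0 : 0 ≤ K := zero_le_one.trans hK
  have p4 : (x ^ 2) ^ 2 = x ^ 4 := by ring
  have a2 : a ≤ x ^ 2 := le_of_pow_le_pow_left₀ two_ne_zero (sq_nonneg x) (by
    rw [p4]; linarith [sq_nonneg b])
  have hX : ∀ k, |X k| ≤ x := fun k => le_of_pow_le_pow_left₀ two_ne_zero hx (by
    rw [sq_abs]; exact (comp X k).trans a2)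
  have hD : ∀ k, |Y k - X k| ≤ x ^ 2 := fun k => le_of_pow_le_pow_left₀ two_ne_zero (sq_nonneg x) (by
    rw [sq_abs, p4]
    refine (comp (fun k => Y k - X k) k).trans ?_
    have e : inner2 (fun k => Y k - X k) (fun k => Y k - X k) = a - 2 * b + g := by
      simp only [a, b, g, inner2, mul_sum, ← sum_sub_distrib, ← sum_add_distrib]
      exact sum_congr rfl fun k _ => by ring
    linarith [sq_nonneg a, sq_nonneg b])
  have hXY : ∀ k l, |X k * Y l| ≤ 2 * x ^ 2 := fun k l => by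
    refine le_of_pow_le_pow_left₀ two_ne_zero (by positivity) ?_
    rw [sq_abs, mul_pow (2 : ℝ), p4, mul_pow]
    refine (mul_le_mul (comp X k) (comp Y l) (sq_nonneg _) ha).trans ?_
    show a * g ≤ _
    nlinarith [sq_nonneg a, sq_nonneg b, pow_nonneg hx 4]
  have haY : |a * Y i| ≤ 2 * x ^ 3 := by
    refine le_of_pow_le_pow_left₀ two_ne_zero (by positivity) ?_
    rw [sq_abs, mul_pow, mul_pow (2 : ℝ), ← pow_mul]
    calc a ^ 2 * Y i ^ 2 ≤ a ^ 2 * g := mul_le_mul_of_nonneg_left (comp Y i) (sq_nonneg a)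
      _ = a * (a * g) := by ring
      _ ≤ x ^ 2 * (2 ^ 2 * x ^ 4) := mul_le_mul a2 (by nlinarith [sq_nonneg a, sq_nonneg b, pow_nonneg hx 4])
          (mul_nonneg ha hg) (sq_nonneg x)
      _ = 2 ^ 2 * x ^ (3 * 2) := by ring
  have hWx : W * x ≤ K * (x ^ 2 + x ^ 3) := by
    have hW4 : W ≤ x ^ 4 := by linarith [sq_nonneg a, sq_nonneg b]
    have hW2 : W ≤ K * x ^ 2 := by
      refine le_of_pow_le_pow_left₀ two_ne_zero (by positivity) ?_
      calc W ^ 2 = W * W := pow_two W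
        _ ≤ K * x ^ 4 := mul_le_mul hWK hW4 hW hK0
        _ ≤ K * K * x ^ 4 := mul_le_mul_of_nonneg_right (le_mul_of_one_le_left hK0 hK) (by positivity)
        _ = _ := by ring
    have := mul_le_mul_of_nonneg_right hW2 hx
    have := mul_nonneg hK0 (sq_nonneg x)
    linarith
  -- the Hessian
  have hh : ∀ j, |h i j| ≤ (1 + 6 * (K / ε)) * x ^ 2 := abs_entry hn hε hA h₁ h₂ hX hXY hx
    (by rw [p4]; linarith [sq_nonneg a, sq_nonneg b]) i
  have hsum : |∑ j, (h i j - if i = j then t / n else 0) * X j|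
      ≤ n * (1 + 6 * (K / ε) + K ^ 2) * (x ^ 2 + x ^ 3) + 0 := by
    have hn1 : (1 : ℝ) ≤ n := by exact_mod_cast hn
    refine (abs_sum_le_sum_abs _ _).trans ((sum_le_card_nsmul _ _
      ((1 + 6 * (K / ε) + K ^ 2) * (x ^ 2 + x ^ 3)) fun j _ => ?_).trans_eq (by simp; ring))
    have ht' : |if i = j then t / n else 0| ≤ K * W := by
      split_ifs
      · rw [abs_div, Nat.abs_cast]
        exact (div_le_self (abs_nonneg _) hn1).trans ht
      · rw [abs_zero]; positivity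
    have e1 : |h i j * X j| ≤ (1 + 6 * (K / ε)) * x ^ 3 := by
      rw [abs_mul, pow_succ, ← mul_assoc]
      exact mul_le_mul (hh j) (hX j) (abs_nonneg _) (by positivity)
    have e2 : |(if i = j then t / n else 0) * X j| ≤ K * (K * (x ^ 2 + x ^ 3)) := by
      rw [abs_mul]
      refine (mul_le_mul ht' (hX j) (abs_nonneg _) (by positivity)).trans ?_
      rw [mul_assoc]
      exact mul_le_mul_of_nonneg_left hWx hK0
    rw [sub_mul]
    refine (abs_sub _ _).trans ((add_le_add e1 e2).trans ?_)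
    have : 0 ≤ (1 + 6 * (K / ε)) * x ^ 2 := by positivity
    linarith
  unfold fluxVec
  have t1 : |A * ∑ j, (h i j - if i = j then t / n else 0) * X j|
      ≤ K * (n * (1 + 6 * (K / ε) + K ^ 2) * (x ^ 2 + x ^ 3)) := by
    rw [abs_mul, abs_of_pos hA0]
    exact mul_le_mul hAK (by linarith) (abs_nonneg _) hK0
  have t2 : |B * a * X i| ≤ K * x ^ 3 := by
    rw [abs_mul, abs_mul, abs_of_nonneg ha, show K * x ^ 3 = K * x ^ 2 * x by ring]
    exact mul_le_mul (mul_le_mul hB a2 ha hK0) (hX i) (abs_nonneg _) (by positivity)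
  have t3 : |C * a * Y i| ≤ K * (2 * x ^ 3) := by
    rw [mul_assoc, abs_mul]
    exact mul_le_mul hC haY (abs_nonneg _) hK0
  have t4 : |c * X i + d * Y i| ≤ K * (K * (x ^ 2 + x ^ 3)) + K * x ^ 2 := by
    rw [show c * X i + d * Y i = (c + d) * X i + d * (Y i - X i) by ring]
    refine (abs_add_le _ _).trans (add_le_add ?_ ?_)
    · rw [abs_mul]
      refine (mul_le_mul hcd (hX i) (abs_nonneg _) (by positivity)).trans ?_
      rw [mul_assoc]
      exact mul_le_mul_of_nonneg_left hWx hK0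
    · rw [abs_mul]
      exact mul_le_mul hd (hD i) (abs_nonneg _) hK0
  refine (abs_add_le _ _).trans ((add_le_add ((abs_add_le _ _).trans (add_le_add t1
    ((abs_add_le _ _).trans (add_le_add t2 t3)))) t4).trans ?_)
  have hq : 0 ≤ x ^ 2 + x ^ 3 := by positivity
  have hKK : K ≤ K ^ 2 := by nlinarith
  nlinarith [mul_le_mul_of_nonneg_right hKK hq, mul_nonneg (sq_nonneg K) hq,
    mul_nonneg hK0 (pow_nonneg hx 2), mul_nonneg hK0 (pow_nonneg hx 3)]

/-- Both powers below the exponent `m`. -/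
theorem two_powers_le {W Q K m : ℝ} (hW : 0 < W) (hWQ : W ≤ Q) (hWK : W ≤ K) (hK : 1 ≤ K)
    (hm : 3 / 4 ≤ m) (hm1 : m ≤ 1) :
    Q ^ (1 / 2 : ℝ) + Q ^ (3 / 4 : ℝ) ≤ 3 * K * (W ^ (1 / 2 - m) * Q ^ m) := by
  have hQ : 0 < Q := hW.trans_le hWQ
  have h1 : Q ^ (1 / 2 : ℝ) ≤ W ^ (1 / 2 - m) * Q ^ m := by
    calc Q ^ (1 / 2 : ℝ) = Q ^ (1 / 2 - m) * Q ^ m := by rw [← Real.rpow_add hQ, sub_add_cancel]
      _ ≤ _ := mul_le_mul_of_nonneg_right (Real.rpow_le_rpow_of_nonpos hW hWQ (by linarith))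
          (Real.rpow_nonneg hQ.le _)
  have hpos : 0 ≤ W ^ (1 / 2 - m) * Q ^ m :=
    mul_nonneg (Real.rpow_nonneg hW.le _) (Real.rpow_nonneg hQ.le _)
  have h2 : Q ^ (3 / 4 : ℝ) ≤ Q ^ (1 / 2 : ℝ) + K * (W ^ (1 / 2 - m) * Q ^ m) := by
    rcases le_total Q 1 with h | h
    · have h3 : Q ^ (3 / 4 : ℝ) ≤ Q ^ (1 / 2 : ℝ) :=
        Real.rpow_le_rpow_of_exponent_ge hQ h (by norm_num)
      linarith [mul_nonneg (zero_le_one.trans hK) hpos]
    · have h3 : Q ^ (3 / 4 : ℝ) ≤ Q ^ m := Real.rpow_le_rpow_of_exponent_le h hm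
      have h4 : 1 ≤ K * W ^ (1 / 2 - m) := by
        have e : K⁻¹ ≤ W ^ (1 / 2 - m) := by
          calc K⁻¹ = K ^ (-1 : ℝ) := (Real.rpow_neg_one K).symm
            _ ≤ K ^ (1 / 2 - m) := Real.rpow_le_rpow_of_exponent_le hK (by linarith)
            _ ≤ _ := Real.rpow_le_rpow_of_nonpos hW hWK (by linarith)
        have := mul_le_mul_of_nonneg_left e (zero_le_one.trans hK)
        rwa [mul_inv_cancel₀ (by linarith : K ≠ 0)] at this
      have h5 := mul_le_mul_of_nonneg_right h4 (Real.rpow_nonneg hQ.le m)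
      linarith [Real.rpow_nonneg hQ.le (1 / 2 : ℝ)]
  nlinarith [mul_le_mul_of_nonneg_right hK hpos]

/-- The flux against the degenerate lower bound. -/
theorem flux_le {A B C c d t k₁ k₂ ε K W Q m : ℝ} {X Y : Fin n → ℝ}
    {h : Fin n → Fin n → ℝ} (hn : 0 < n) (hε : 0 < ε) (hK : 1 ≤ K) (hA : ε ≤ A) (hAK : A ≤ K)
    (hB : |B| ≤ K) (hC : |C| ≤ K) (hd : |d| ≤ K) (h₁ : |k₁| ≤ K) (h₂ : |k₂| ≤ K)
    (hcd : |c + d| ≤ K * W) (ht : |t| ≤ K * W) (hW : 0 < W) (hWK : W ≤ K)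
    (hm : 3 / 4 ≤ m) (hm1 : m ≤ 1)
    (hP : W + inner2 X X ^ 2 + inner2 X Y ^ 2 + (inner2 X X * inner2 Y Y - inner2 X Y ^ 2)
      + (inner2 X X - 2 * inner2 X Y + inner2 Y Y) + square A k₁ k₂ X Y h ≤ Q) (hWQ : W ≤ Q)
    (i : Fin n) :
    |fluxVec A B C c d t X Y h i|
      ≤ (n * K * (1 + 6 * (K / ε) + K ^ 2) + 6 * K ^ 2) * (3 * K) * (W ^ (1 / 2 - m) * Q ^ m) := by
  have hQ : 0 < Q := hW.trans_le hWQ
  have e : ∀ k : ℕ, (Q ^ (1 / 4 : ℝ)) ^ k = Q ^ ((k : ℝ) / 4) := fun k => by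
    rw [← Real.rpow_natCast, ← Real.rpow_mul hQ.le]; congr 1; ring
  have h4 : (Q ^ (1 / 4 : ℝ)) ^ 4 = Q := by rw [e]; norm_num
  have h := flux_le_quartic hn hε hK hA hAK hB hC hd h₁ h₂ hcd ht hW.le hWK
    (Real.rpow_nonneg hQ.le (1 / 4)) (by rw [h4]; exact hP) i
  rw [e, e, show ((2 : ℕ) : ℝ) / 4 = 1 / 2 by norm_num,
    show ((3 : ℕ) : ℝ) / 4 = 3 / 4 by norm_num] at h
  rw [mul_assoc _ (3 * K)]
  exact h.trans (mul_le_mul_of_nonneg_left (two_powers_le hW hWQ hWK hK hm hm1) (by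
    have := hε.trans_le hA; positivity))

end

end Vale.Agent.P100.OrbitCert
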