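import Vale.Agent.P100.OrbitCert.Bounds
import Vale.Agent.P100.OrbitCert.Flux

/-!
# P100: coercivity and coefficient bounds of the normalised field along the orbit
-/

namespace Vale.Agent.P100.OrbitCert

open Filter Set Topology Orbit

noncomputable section

variable {N p q T₁ T₀ T : ℝ} {U V : ℝ → ℝ}

/-- A point from `ξ, ζ, w₁` and the rule. -/
def rulePoint (N p q : ℝ) (R : Rule) (x : ℝ × ℝ × ℝ) : Point where
  α := cα N q
  β := cα N p
  d := R.d
  ξ := x.1
  ζ := x.2.1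
  w₁ := x.2.2
  w := R.w₀ + R.b₀ * (1 - x.1 / (N - 2))
  Dw := -(R.b₀ / (N - 2) * (2 + x.1 * (1 - N * x.2.2 / cα N q)))

theorem orbitPoint_eq (R : Rule) : orbitPoint N p q U V R T
    = rulePoint N p q R (qX N p U V T, oZ N p q U V T, oW N p q U V T) := rfl

/-- The size of the coefficients at a point. -/
def Point.size (P : Point) : ℝ :=
  |P.num.B| + |P.num.C| + |P.cc| + |P.M * P.G| + |P.cA| + |P.M| + |P.α|
    + |((P.dim + P.d - 4 - P.α - P.α) * P.cA * P.w₁ + P.α * P.ζ * P.dA)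
        / (P.α * (P.w₁ - P.ζ)) + 2 * P.cB|
    + |-(P.α * P.dA + (P.dim + P.d - 4 - P.α - P.α) * P.cA) * P.w₁
        / (P.α * (P.w₁ - P.ζ)) + 2 * P.cC|

theorem exists_size_bound (R : Rule) (hα : cα N q ≠ 0) {c K : ℝ} (hc : 0 < c) :
    ∃ M, ∀ x : ℝ × ℝ × ℝ, |x.1| ≤ K → 0 ≤ x.2.1 → x.2.2 ≤ K → c ≤ x.2.2 - x.2.1 →
      (rulePoint N p q R x).size ≤ M := by
  set B := (Icc (-K) K ×ˢ Icc 0 K ×ˢ Icc c K) ∩ {x : ℝ × ℝ × ℝ | c ≤ x.2.2 - x.2.1}
  have hB : IsCompact B := (isCompact_Icc.prod (isCompact_Icc.prod isCompact_Icc)).inter_right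
    (isClosed_le continuous_const (by fun_prop))
  obtain ⟨M, hM⟩ := hB.exists_bound_of_continuousOn (f := fun x => (rulePoint N p q R x).size) (by
    intro x hx
    have h1 : x.2.2 ≠ 0 := (hc.trans_le hx.1.2.2.1).ne'
    have h2 : x.2.2 - x.2.1 ≠ 0 := (hc.trans_le hx.2).ne'
    refine ContinuousAt.continuousWithinAt ?_
    simp only [Point.size, Point.num, Point.cA, Point.dA, Point.cB, Point.cC, Point.cc, Point.G,
      Point.pot, Point.srcP, Point.dim, Point.M, Point.e, rulePoint]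
    fun_prop (disch := simp [h1, h2, hα]))
  refine ⟨M, fun x h1 h2 h3 h4 => (le_abs_self _).trans (hM x ⟨⟨abs_le.1 h1, ⟨h2, by linarith⟩,
    ⟨by linarith, h3⟩⟩, h4⟩)⟩

theorem Point.size_bounds (P : Point) (h : P.Ok) {M : ℝ} (hM : P.size ≤ M) :
    |P.num.B| ≤ M ∧ |P.num.C| ≤ M ∧ |P.num.c| ≤ M ∧ |P.num.d| ≤ M ∧ P.num.A ≤ M
      ∧ |P.num.k₁| ≤ M ∧ |P.num.k₂| ≤ M ∧ P.M ≤ M ∧ P.α ≤ M := by
  rw [h.k₁_eq, h.k₂_eq]
  unfold Point.size at hM
  have n := fun x : ℝ => abs_nonneg x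
  simp only [Point.num] at hM ⊢
  refine ⟨?_, ?_, ?_, ?_, (le_abs_self _).trans ?_, ?_, ?_, (le_abs_self _).trans ?_,
    (le_abs_self _).trans ?_⟩ <;>
    linarith [n P.cB, n P.cC, n P.cc, n (P.M * P.G), n P.cA, n P.M, n P.α,
      n (((P.dim + P.d - 4 - P.α - P.α) * P.cA * P.w₁ + P.α * P.ζ * P.dA)
        / (P.α * (P.w₁ - P.ζ)) + 2 * P.cB),
      n (-(P.α * P.dA + (P.dim + P.d - 4 - P.α - P.α) * P.cA) * P.w₁
        / (P.α * (P.w₁ - P.ζ)) + 2 * P.cC)]

namespace Setting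

variable (s : Setting N p q T₁ T₀ U V)
include s

/-- The normalised estimates along the orbit. -/
structure Normal (s : Setting N p q T₁ T₀ U V) (R : Rule) (δ ε K : ℝ) : Prop where
  A_ge : ∀ T, T₀ ≤ T → ε ≤ (orbitPoint N p q U V R T).num.A
  A_le : ∀ T, T₀ ≤ T → (orbitPoint N p q U V R T).num.A ≤ K
  B_le : ∀ T, T₀ ≤ T → |(orbitPoint N p q U V R T).num.B| ≤ K
  C_le : ∀ T, T₀ ≤ T → |(orbitPoint N p q U V R T).num.C| ≤ K
  d_le : ∀ T, T₀ ≤ T → |(orbitPoint N p q U V R T).num.d| ≤ K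
  k₁_le : ∀ T, T₀ ≤ T → |(orbitPoint N p q U V R T).num.k₁| ≤ K
  k₂_le : ∀ T, T₀ ≤ T → |(orbitPoint N p q U V R T).num.k₂| ≤ K
  cd_le : ∀ T, T₀ ≤ T → |(orbitPoint N p q U V R T).num.c + (orbitPoint N p q U V R T).num.d|
    ≤ K * (orbitPoint N p q U V R T).W
  P_le : ∀ T, T₀ ≤ T → |(orbitPoint N p q U V R T).num.P| ≤ K * (orbitPoint N p q U V R T).W
  W_pos : ∀ T, T₀ ≤ T → 0 < (orbitPoint N p q U V R T).W
  W_le : ∀ T, T₀ ≤ T → (orbitPoint N p q U V R T).W ≤ K
  gap_ge : ∀ T, T₀ ≤ T → ε ≤ (orbitPoint N p q U V R T).num.gap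
  lg_ge : ∀ T, T₀ ≤ T → ε ≤ (orbitPoint N p q U V R T).num.dv
  form_ge : ∀ T, T₀ ≤ T → ∀ z : Fin 3 → ℝ,
    ε * ((orbitPoint N p q U V R T).W * z 0 ^ 2 + z 1 ^ 2 + z 2 ^ 2)
      ≤ (orbitPoint N p q U V R T).num.quad N (orbitPoint N p q U V R T).num.dv
          (-2 * (orbitPoint N p q U V R T).num.dv) z
        + δ * (orbitPoint N p q U V R T).num.lin z ^ 2 / (orbitPoint N p q U V R T).num.A

theorem exists_normal (R : Rule) {κ δ : ℝ} (hm : Margin N p q T₀ U V R κ) (hδ : 0 < δ) :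
    ∃ ε > 0, ∃ K ≥ 1, s.Normal R δ ε K := by
  obtain ⟨c, hc, K₀, hK₀, hc1, hcα, hαK, hb⟩ := s.exists_within R hm
  obtain ⟨M, hM⟩ := exists_size_bound (p := p) R s.α_pos.ne' (c := c) (K := K₀) hc
  have hsize : ∀ T, T₀ ≤ T → (orbitPoint N p q U V R T).size ≤ M := fun T hT => by
    obtain ⟨h1, h2, h3, h4, -⟩ := hb T hT
    rw [orbitPoint_eq]
    exact hM _ h1 h3.le h4 h2
  have hS : 0 < N - 2 := by linarith [s.two_lt]
  have hN := s.N_pos
  set K₁ := max (max K₀ M) (max (M * M) (max (cα N q / (N * c) * K₀) (cα N q * (1 + K₀))))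
  have l0 : K₀ ≤ K₁ := le_max_of_le_left (le_max_left _ _)
  have lM : M ≤ K₁ := le_max_of_le_left (le_max_right _ _)
  have lMM : M * M ≤ K₁ := le_max_of_le_right (le_max_left _ _)
  have ls : cα N q / (N * c) * K₀ ≤ K₁ := le_max_of_le_right (le_max_of_le_right (le_max_left _ _))
  have hK1 : 1 ≤ K₁ := hK₀.trans l0
  have hW : ∀ T, T₀ ≤ T → 0 < (orbitPoint N p q U V R T).W := fun T hT => by
    rw [Point.W, s.dim_eq R]
    exact div_pos (s.srcQ_pos R (s.orbit.T₁_lt.trans_le hT)) hN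
  have hin : ∀ T, T₀ ≤ T → (orbitPoint N p q U V R T).Within c K₁ := fun T hT => by
    obtain ⟨-, h2, h3, h4, h5, h6, h7, h8, h9, h10⟩ := hb T hT
    obtain ⟨-, -, -, -, hA, hk1, hk2, -, -⟩ :=
      (orbitPoint N p q U V R T).size_bounds (s.ok R hT) (hsize T hT)
    have hw : 0 < (orbitPoint N p q U V R T).w₁ := s.w₁_pos hT
    refine ⟨s.ok R hT, hc, by linarith, h2, ?_, h4.trans l0, ?_, hA.trans lM, hW T hT, h6.trans l0,
      h5, h7, h8, h10, ?_, ?_⟩
    · show c ≤ oW N p q U V T + oZ N p q U V T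
      linarith
    · exact (s.ζ_lt hT).le.trans (h4.trans l0)
    · rw [Point.shift_eq _ s.α_pos.ne' hw.ne' (by rw [s.dim_eq R]; exact hN.ne'), s.dim_eq R,
        abs_of_nonneg (mul_nonneg (div_pos (show 0 < (orbitPoint N p q U V R T).α from s.α_pos)
          (mul_pos hN hw)).le (s.srcP_pos R (s.orbit.T₁_lt.trans_le hT)).le)]
      have hcw : c ≤ (orbitPoint N p q U V R T).w₁ := by
        show c ≤ oW N p q U V T
        linarith
      refine le_trans (mul_le_mul (div_le_div_of_nonneg_left s.α_pos.le (mul_pos hN hc)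
        (mul_le_mul_of_nonneg_left hcw hN.le)) h9 (s.srcP_pos R (s.orbit.T₁_lt.trans_le hT)).le
        (div_pos s.α_pos (mul_pos hN hc)).le) ?_
      rw [← mul_assoc]
      exact mul_le_mul_of_nonneg_right ls (hW T hT).le
    · rw [abs_div, abs_two, div_le_iff₀ two_pos]
      refine (abs_add_le _ _).trans ?_
      rw [abs_mul, abs_mul, abs_of_pos hw, abs_of_pos (show 0 < (orbitPoint N p q U V R T).ζ from s.ζ_pos hT)]
      have hw1 : (orbitPoint N p q U V R T).w₁ ≤ 1 := by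
        refine (s.w₁_le hT).trans ((div_le_one hS).2 ?_)
        linarith [s.sum_eq, s.β_pos]
      have hz1 : (orbitPoint N p q U V R T).ζ ≤ 1 := (s.ζ_lt hT).le.trans hw1
      have := mul_le_mul hk1 hw1 hw.le ((abs_nonneg _).trans hk1)
      have := mul_le_mul hk2 hz1 (s.ζ_pos hT).le ((abs_nonneg _).trans hk2)
      have : oW N p q U V T = (orbitPoint N p q U V R T).w₁ := rfl
      linarith
  obtain ⟨ε₀, hε₀, hform⟩ := Point.exists_quad_ge (c := c) (K := K₁) hδ hS
  have hM1 : 1 ≤ N - 1 := by linarith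
  have hd : ∀ T, T₀ ≤ T → 0 < (orbitPoint N p q U V R T).w₁ - (orbitPoint N p q U V R T).ζ ∧
      (orbitPoint N p q U V R T).w₁ - (orbitPoint N p q U V R T).ζ ≤ K₁ := fun T hT =>
    ⟨sub_pos.2 (s.ζ_lt hT), by linarith [(hin T hT).w₁_le, (s.ok R hT).ζ_pos]⟩
  set e₁ := 1 / K₁ * (c / 2 * (c * c)) / K₁ ^ 2
  set e₂ := 1 * c * c / (K₁ * K₁)
  set ε := min (min ε₀ (cα N q)) (min e₁ e₂)
  have hε : 0 < ε := lt_min (lt_min hε₀ s.α_pos) (lt_min (by positivity) (by positivity))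
  set K := K₁ + (N - 1) * (K₁ + K₁ / c * K₁) + K₁ * K₁
  have hK : K₁ ≤ K := by
    have : 0 ≤ N - 1 := by linarith
    have : 0 ≤ (N - 1) * (K₁ + K₁ / c * K₁) + K₁ * K₁ := by positivity
    simp only [K]; linarith
  refine ⟨ε, hε, K, hK1.trans hK, ⟨fun T hT => ?_, fun T hT => ?_, fun T hT => ?_, fun T hT => ?_,
    fun T hT => ?_, fun T hT => ?_, fun T hT => ?_, fun T hT => ?_, fun T hT => ?_, hW,
    fun T hT => (hin T hT).W_le.trans hK, fun T hT => ?_, fun T hT => ?_, fun T hT z => ?_⟩⟩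
  all_goals obtain ⟨sB, sC, -, sd, sA, sk1, sk2, -, -⟩ :=
    (orbitPoint N p q U V R T).size_bounds (s.ok R hT) (hsize T hT)
  · refine ((min_le_left _ _).trans (min_le_right _ _)).trans ?_
    show cα N q ≤ cα N q * (oW N p q U V T + oZ N p q U V T) / oW N p q U V T
    rw [le_div_iff₀ (s.w₁_pos hT)]
    nlinarith [s.ζ_pos hT, s.α_pos]
  · exact (sA.trans lM).trans hK
  · exact (sB.trans lM).trans hK
  · exact (sC.trans lM).trans hK
  · exact (sd.trans lM).trans hK
  · exact (sk1.trans lM).trans hK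
  · exact (sk2.trans lM).trans hK
  · have hP := (hb T hT).2.2.2.2.2.2.2.2.1
    have hP0 := (s.srcP_pos R (s.orbit.T₁_lt.trans_le hT)).le
    have hQ0 := (s.srcQ_pos R (s.orbit.T₁_lt.trans_le hT)).le
    have e := (orbitPoint N p q U V R T).pot_eq (s.ok R hT) (by rw [s.dim_eq R]; exact hN.ne')
    have hw : 0 < (orbitPoint N p q U V R T).w₁ := s.w₁_pos hT
    have hz : 0 < (orbitPoint N p q U V R T).ζ := s.ζ_pos hT
    have h2 := (hin T hT).w₁_ge
    have hα' : (orbitPoint N p q U V R T).α ≤ K₁ := hαK.trans l0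
    have hα0 : 0 < (orbitPoint N p q U V R T).α := s.α_pos
    have hA0 : 0 ≤ (orbitPoint N p q U V R T).cA := ((s.ok R hT).cA_pos).le
    have hcd : (orbitPoint N p q U V R T).num.c + (orbitPoint N p q U V R T).num.d
        = -(N - 1) * (orbitPoint N p q U V R T).pot
          + (orbitPoint N p q U V R T).cA * (orbitPoint N p q U V R T).srcP := by
      simp only [Point.num, Point.cc, s.M_eq R]; ring
    have hWQ : (orbitPoint N p q U V R T).srcQ = N * (orbitPoint N p q U V R T).W := by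
      rw [Point.W, s.dim_eq R]; field_simp
    rw [s.dim_eq R] at e
    have hq : (orbitPoint N p q U V R T).α * (orbitPoint N p q U V R T).ζ
        / (orbitPoint N p q U V R T).w₁ ≤ K₁ / c * 1 := by
      rw [mul_one]
      refine le_trans ?_ (le_of_eq (mul_one (K₁ / c)))
      rw [div_mul_eq_mul_div, mul_one]
      refine div_le_div₀ (by linarith) ?_ hc h2
      exact (mul_le_of_le_one_right hα0.le ((s.ζ_lt hT).le.trans ((s.w₁_le hT).trans
        ((div_le_one hS).2 (by linarith [s.sum_eq, s.β_pos]))))).trans hα'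
    have hPK := hP.trans (mul_le_mul_of_nonneg_right l0 (hW T hT).le)
    have hpot0 : 0 ≤ (orbitPoint N p q U V R T).pot := by rw [e]; positivity
    have hpot : (orbitPoint N p q U V R T).pot
        ≤ (K₁ * (N * (orbitPoint N p q U V R T).W)
          + K₁ / c * (K₁ * (orbitPoint N p q U V R T).W)) / N := by
      rw [e, hWQ]
      refine div_le_div_of_nonneg_right (add_le_add (mul_le_mul_of_nonneg_right hα' (by
        have := hW T hT; positivity)) (mul_le_mul (by linarith) hPK hP0 (by positivity))) hN.le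
    rw [hcd]
    refine (abs_add_le _ _).trans ?_
    rw [abs_mul, abs_mul, abs_neg, abs_of_pos (show 0 < N - 1 by linarith), abs_of_nonneg hpot0,
      abs_of_nonneg hA0, abs_of_nonneg hP0]
    have t1 := mul_le_mul_of_nonneg_left hpot (show 0 ≤ N - 1 by linarith)
    have t2 := mul_le_mul (show (orbitPoint N p q U V R T).cA ≤ K₁ from sA.trans lM) hPK hP0 (by linarith)
    have hW0 := (hW T hT).le
    have t3 : (N - 1) * ((K₁ * (N * (orbitPoint N p q U V R T).W)
        + K₁ / c * (K₁ * (orbitPoint N p q U V R T).W)) / N)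
        ≤ (N - 1) * (K₁ + K₁ / c * K₁) * (orbitPoint N p q U V R T).W := by
      rw [mul_assoc (N - 1)]
      refine mul_le_mul_of_nonneg_left ?_ (by linarith)
      rw [div_le_iff₀ hN]
      have : 0 ≤ K₁ / c * (K₁ * (orbitPoint N p q U V R T).W) * (N - 1) := by
        have : 0 ≤ N - 1 := by linarith
        positivity
      linarith
    have : 0 ≤ K₁ * (orbitPoint N p q U V R T).W := by positivity
    have : (orbitPoint N p q U V R T).num.A = (orbitPoint N p q U V R T).cA := rfl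
    simp only [K]
    linarith
  · have hP := (hb T hT).2.2.2.2.2.2.2.2.1
    show |(orbitPoint N p q U V R T).srcP| ≤ _
    rw [abs_of_nonneg (s.srcP_pos R (s.orbit.T₁_lt.trans_le hT)).le]
    exact hP.trans (mul_le_mul_of_nonneg_right (l0.trans hK) (hW T hT).le)
  · refine ((min_le_right _ _).trans (min_le_left _ _)).trans (le_trans ?_ ((hin T hT).gap_ge hc1))
    rw [s.M_eq R]
    refine div_le_div₀ (by have := (s.ok R hT).α_pos; positivity) ?_ (pow_pos (hd T hT).1 2)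
      (pow_le_pow_left₀ (hd T hT).1.le (hd T hT).2 2)
    refine mul_le_mul_of_nonneg_right ?_ (by positivity)
    exact div_le_div₀ (by linarith) hM1 (s.ok R hT).α_pos (hαK.trans l0)
  · refine ((min_le_right _ _).trans (min_le_right _ _)).trans (le_trans ?_ (hin T hT).lg_ge)
    rw [s.M_eq R]
    refine div_le_div₀ (by positivity) ?_ (mul_pos (s.ok R hT).α_pos (hd T hT).1)
      (mul_le_mul (hαK.trans l0) (hd T hT).2 (hd T hT).1.le (by linarith))
    exact mul_le_mul_of_nonneg_right (mul_le_mul_of_nonneg_right hM1 hc.le) hc.le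
  · have h := hform _ (hin T hT) hc1 (by show cα N q + cα N p = N - 2; exact s.sum_eq) hcα
      (hαK.trans l0) z
    rw [s.dim_eq R] at h
    refine le_trans (mul_le_mul_of_nonneg_right ((min_le_left _ _).trans (min_le_left _ _)) ?_) h
    have := hW T hT
    positivity

end Setting

end

end Vale.Agent.P100.OrbitCert
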