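import Mathlib
import Vale.Agent.P100.Perturb

/-!
# P100: the numbers of a five-function field at one point, and their scaling

The remainder after completing the square depends on eighteen numbers. It is covariant under the
scalings of `u`, `v`, the length and the density.
-/

namespace Vale.Agent.P100

noncomputable section

/-- Values and derivatives of five coefficients, with `v ^ p`, `u ^ q` and `p v ^ (p - 1)`. -/
structure Num where
  A : ℝ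
  Au : ℝ
  Av : ℝ
  B : ℝ
  Bu : ℝ
  Bv : ℝ
  C : ℝ
  Cu : ℝ
  Cv : ℝ
  c : ℝ
  cu : ℝ
  cv : ℝ
  d : ℝ
  du : ℝ
  dv : ℝ
  P : ℝ
  Q : ℝ
  R : ℝ

namespace Num

/-- The coefficient of the traceless `∇u ∇u`. -/
def k₁ (J : Num) : ℝ := J.Au + 2 * J.B

/-- The coefficient of the traceless `∇u ∇v`. -/
def k₂ (J : Num) : ℝ := J.Av + 2 * J.C

/-- The trace form. -/
def lin (J : Num) (z : Fin 3 → ℝ) : ℝ := -J.P * J.A * z 0 + (J.k₁ * z 1 + J.k₂ * z 2) / 2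

/-- The coefficient of the Cauchy-Schwarz defect. -/
def gap (J : Num) : ℝ := J.Cv - J.k₂ ^ 2 / (8 * J.A)

/-- The form in `1, a, b`. -/
def quad (J : Num) (N θ₁ θ₂ : ℝ) (z : Fin 3 → ℝ) : ℝ :=
  (-J.c * J.P - J.d * J.Q) * z 0 ^ 2
    + (-J.B * J.P - J.C * J.Q + J.cu - θ₁) * (z 0 * z 1)
    + (-J.A * J.R + J.cv + J.du - θ₂) * (z 0 * z 2)
    + (J.Bu - J.k₁ ^ 2 / (4 * J.A)) * z 1 ^ 2
    + (J.Bv + J.Cu - J.k₁ * J.k₂ / (2 * J.A)) * (z 1 * z 2)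
    + (J.Cv - J.k₂ ^ 2 / (4 * J.A)) * z 2 ^ 2
    + J.lin z ^ 2 / (J.A * N)

/-- Scaling by `x` in `u`, `y` in `v`, `t` in the square of the length and `g` in the density. -/
def scale (J : Num) (x y t g : ℝ) : Num where
  A := J.A * (x ^ 2 * t ^ 2 / g)
  Au := J.Au * (x ^ 3 * t ^ 2 / g)
  Av := J.Av * (x ^ 2 * y * t ^ 2 / g)
  B := J.B * (x ^ 3 * t ^ 2 / g)
  Bu := J.Bu * (x ^ 4 * t ^ 2 / g)
  Bv := J.Bv * (x ^ 3 * y * t ^ 2 / g)
  C := J.C * (x ^ 2 * y * t ^ 2 / g)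
  Cu := J.Cu * (x ^ 3 * y * t ^ 2 / g)
  Cv := J.Cv * (x ^ 2 * y ^ 2 * t ^ 2 / g)
  c := J.c * (x * t / g)
  cu := J.cu * (x ^ 2 * t / g)
  cv := J.cv * (x * y * t / g)
  d := J.d * (y * t / g)
  du := J.du * (x * y * t / g)
  dv := J.dv * (y ^ 2 * t / g)
  P := J.P / (x * t)
  Q := J.Q / (y * t)
  R := J.R * y / (x * t)

variable {J : Num} {x y t g : ℝ}

theorem lin_scale (hx : x ≠ 0) (ht : t ≠ 0) (z : Fin 3 → ℝ) :
    (J.scale x y t g).lin z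
      = x * t / g * J.lin ![z 0, x ^ 2 * t * z 1, x * y * t * z 2] := by
  simp [lin, scale, k₁, k₂]
  field_simp

theorem gap_scale (hA : J.A ≠ 0) (hx : x ≠ 0) (ht : t ≠ 0) (hg : g ≠ 0) :
    (J.scale x y t g).gap = x ^ 2 * y ^ 2 * t ^ 2 / g * J.gap := by
  simp [gap, scale, k₂]
  field_simp

theorem quad_scale (hA : J.A ≠ 0) (hx : x ≠ 0) (hy : y ≠ 0) (ht : t ≠ 0) (hg : g ≠ 0) {N : ℝ}
    (hN : N ≠ 0) (θ₁ θ₂ : ℝ) (z : Fin 3 → ℝ) :
    (J.scale x y t g).quad N (θ₁ * (x ^ 2 * t / g)) (θ₂ * (x * y * t / g)) z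
      = J.quad N θ₁ θ₂ ![z 0, x ^ 2 * t * z 1, x * y * t * z 2] / g := by
  simp [quad, lin, scale, k₁, k₂]
  field_simp

end Num

variable {p q D : ℝ}

/-- The numbers of a field at `u = 1`, `v = r`. -/
def Five.num (p q D : ℝ) (F : Five) (r : ℝ) : Num where
  A := F.A r
  Au := homD p q (D - 4 - wt p q 0 - wt p q 0) F.A r 0
  Av := homD p q (D - 4 - wt p q 0 - wt p q 0) F.A r 1
  B := F.B r
  Bu := homD p q (D - 4 - wt p q 0 - wt p q 0 - wt p q 0) F.B r 0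
  Bv := homD p q (D - 4 - wt p q 0 - wt p q 0 - wt p q 0) F.B r 1
  C := F.C r
  Cu := homD p q (D - 4 - wt p q 0 - wt p q 0 - wt p q 1) F.C r 0
  Cv := homD p q (D - 4 - wt p q 0 - wt p q 0 - wt p q 1) F.C r 1
  c := F.c r
  cu := homD p q (D - 2 - wt p q 0) F.c r 0
  cv := homD p q (D - 2 - wt p q 0) F.c r 1
  d := F.d r
  du := homD p q (D - 2 - wt p q 1) F.d r 0
  dv := homD p q (D - 2 - wt p q 1) F.d r 1
  P := r ^ p
  Q := 1
  R := p * r ^ (p - 1)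

theorem Five.quad_num (F : Five) (N r θ₁ θ₂ : ℝ) (z : Fin 3 → ℝ) :
    F.quad N p q D r θ₁ θ₂ z = (F.num p q D r).quad N θ₁ θ₂ z := by
  simp [Five.quad, Five.lin, Num.quad, Num.lin, Num.k₁, Num.k₂, Five.num, Five.k₁, Five.k₂]

theorem Five.gap_num (F : Five) (r : ℝ) : F.gap p q D r = (F.num p q D r).gap := rfl

theorem Five.lg_num (F : Five) (r : ℝ) : F.lg p q D r = (F.num p q D r).dv := rfl

theorem Five.lin_num (F : Five) (r : ℝ) (z : Fin 3 → ℝ) :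
    F.lin p q D r z = (F.num p q D r).lin z := rfl

end

end Vale.Agent.P100
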