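import Mathlib
import Vale.Agent.P100.OrbitCert.Jet

/-!
# P100: the closed-form field at a point of the orbit

In the normalisation `U = -U_T = -V_T = 1` a point is given by `ξ = 2T`, `ζ`, `w₁`; then
`V = α ζ / (β w₁)`, and `(-U_T)_T`, `(-V_T)_T` are `a₁`, `b₁` below. The field depends on a degree
`N + d` and a number `w` with derivative `Dw`.
-/

namespace Vale.Agent.P100.OrbitCert

noncomputable section

/-- The parameters of a point. -/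
structure Point where
  α : ℝ
  β : ℝ
  d : ℝ
  ξ : ℝ
  ζ : ℝ
  w₁ : ℝ
  w : ℝ
  Dw : ℝ

namespace Point

variable (P : Point)

/-- The dimension. -/
def dim : ℝ := P.α + P.β + 2

/-- `N - 1`. -/
def M : ℝ := P.α + P.β + 1

/-- The value of `V`. -/
def val : ℝ := P.α * P.ζ / (P.β * P.w₁)

/-- `(-U_T)_T`. -/
def a₁ : ℝ := -P.dim * P.w₁ / P.α

/-- `(-V_T)_T`. -/
def b₁ : ℝ := -P.dim * (1 - P.ζ) / P.α

/-- `V ^ p`. -/
def srcP : ℝ := P.dim * (1 - P.ξ * P.w₁ / P.α)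

/-- `U ^ q`. -/
def srcQ : ℝ := P.dim * (1 - P.ξ * (1 - P.ζ) / P.α)

/-- `p V ^ (p - 1)`. -/
def srcR : ℝ := (P.dim / P.β - 1) * P.srcP / P.val

/-- The potential `U ^ (q + 1) / (q + 1) + V ^ (p + 1) / (p + 1)`. -/
def pot : ℝ := P.α + P.α * P.ζ / P.w₁ - P.ξ

/-- The Hessian coefficient. -/
def cA : ℝ := P.α * (P.w₁ + P.ζ) / P.w₁

/-- `e = w₁ + ζ - 1`. -/
def e : ℝ := P.w₁ + P.ζ - 1

/-- Its derivative in `T`. -/
def dA : ℝ := 2 * (1 + P.dim * P.e)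

/-- The coefficient `B`. -/
def cB : ℝ := -P.M * P.w

/-- Its derivative. -/
def dB : ℝ := -P.M * (P.Dw + P.w * P.b₁ - 2 * P.w * P.a₁)

/-- The coefficient `C`. -/
def cC : ℝ := -(1 - P.w) * P.M

/-- Its derivative. -/
def dC : ℝ := P.M * (P.Dw + (1 - P.w) * P.a₁)

/-- The coefficient of `∇v` divided by `N - 1`. -/
def G : ℝ := P.α - P.ξ * P.w

/-- Its derivative. -/
def dG : ℝ := -P.α - 2 * P.w - P.ξ * P.Dw - P.ξ * P.w * P.a₁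

/-- The coefficient of `∇u`. -/
def cc : ℝ := -P.M * (P.pot + P.G) + P.cA * P.srcP

/-- Its derivative. -/
def dc : ℝ :=
  -P.M * ((-P.srcQ - P.srcP + P.b₁ * P.G + P.dG) - (P.pot + P.G) * P.a₁) + P.dA * P.srcP
    - P.cA * P.srcR

/-- The derivative in `u` of a homogeneous function of degree `m`. -/
def pu (m f f' : ℝ) : ℝ := (m * f + P.β * P.val * f') / (P.α - P.β * P.val)

/-- The derivative in `v` of a homogeneous function of degree `m`. -/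
def pv (m f f' : ℝ) : ℝ := -(P.α * f' + m * f) / (P.α - P.β * P.val)

/-- The eighteen numbers. -/
def num : Num where
  A := P.cA
  Au := P.pu (P.dim + P.d - 4 - P.α - P.α) P.cA P.dA
  Av := P.pv (P.dim + P.d - 4 - P.α - P.α) P.cA P.dA
  B := P.cB
  Bu := P.pu (P.dim + P.d - 4 - P.α - P.α - P.α) P.cB P.dB
  Bv := P.pv (P.dim + P.d - 4 - P.α - P.α - P.α) P.cB P.dB
  C := P.cC
  Cu := P.pu (P.dim + P.d - 4 - P.α - P.α - P.β) P.cC P.dC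
  Cv := P.pv (P.dim + P.d - 4 - P.α - P.α - P.β) P.cC P.dC
  c := P.cc
  cu := P.pu (P.dim + P.d - 2 - P.α) P.cc P.dc
  cv := P.pv (P.dim + P.d - 2 - P.α) P.cc P.dc
  d := P.M * P.G
  du := P.pu (P.dim + P.d - 2 - P.β) (P.M * P.G) (P.M * P.dG)
  dv := P.pv (P.dim + P.d - 2 - P.β) (P.M * P.G) (P.M * P.dG)
  P := P.srcP
  Q := P.srcQ
  R := P.srcR

/-- `k = S ζ - β`. -/
def k : ℝ := (P.α + P.β) * P.ζ - P.β

/-- `v = w - w₁`. -/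
def v : ℝ := P.w - P.w₁

/-- The coupling before the correction by `Dw`. -/
def l : ℝ :=
  -P.k * (1 - 2 * P.ζ) + P.e * (P.α + P.β - P.d - 2 * (P.α + P.β - 1) * P.ζ) - 2 * P.e ^ 2
    - 2 * P.v * (P.k + P.e)

/-- The coupling. -/
def L : ℝ := P.l - P.α * (P.w₁ - P.ζ) * P.Dw / P.w₁

/-- `n = N e v`. -/
def n₀ : ℝ := P.dim * P.e * P.v

/-- The auxiliary `T` of the scaling direction. -/
def aux : ℝ :=
  (1 + P.e) * (P.β - P.α - 2 + P.d) - 2 * P.M * (P.ζ + P.w * (1 + P.e - 2 * P.ζ))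

/-- The diagonal entry of the scaling direction. -/
def π₀ : ℝ :=
  -(P.β - 2 * P.α - 2 + P.d) * P.w * P.w₁ - (-P.α - 2 + P.d) * P.ζ * (1 - P.w)
    - P.aux ^ 2 / (4 * P.dim * (1 + P.e))

/-- The third condition. -/
def iii : ℝ :=
  P.α * (2 * P.w - P.d) + P.ξ * (P.α * P.w - P.dim * P.w * P.w₁ + P.α * P.Dw + P.d * P.w)

/-- Admissible values. -/
structure Ok (P : Point) : Prop where
  α_pos : 0 < P.α
  β_pos : 0 < P.β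
  ζ_pos : 0 < P.ζ
  lt : P.ζ < P.w₁

variable {P}

theorem Ok.w₁_pos (h : P.Ok) : 0 < P.w₁ := h.ζ_pos.trans h.lt

theorem Ok.det_eq (h : P.Ok) : P.α - P.β * P.val = P.α * (P.w₁ - P.ζ) / P.w₁ := by
  have := h.w₁_pos.ne'; have := h.β_pos.ne'
  unfold Point.val
  field_simp

theorem Ok.pu_eq (h : P.Ok) (m f f' : ℝ) :
    P.pu m f f' = (m * f * P.w₁ + P.α * P.ζ * f') / (P.α * (P.w₁ - P.ζ)) := by
  have := h.w₁_pos.ne'; have := h.β_pos.ne'; have := h.α_pos.ne'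
  have := (sub_pos.2 h.lt).ne'
  unfold Point.pu
  rw [h.det_eq]
  unfold Point.val
  field_simp

theorem Ok.pv_eq (h : P.Ok) (m f f' : ℝ) :
    P.pv m f f' = -(P.α * f' + m * f) * P.w₁ / (P.α * (P.w₁ - P.ζ)) := by
  have := h.w₁_pos.ne'; have := h.α_pos.ne'
  have := (sub_pos.2 h.lt).ne'
  unfold Point.pv
  rw [h.det_eq]
  field_simp

theorem Ok.lg_eq (h : P.Ok) :
    P.num.dv = P.M * P.w₁ * P.iii / (P.α * (P.w₁ - P.ζ)) := by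
  have := h.w₁_pos.ne'; have := h.α_pos.ne'
  have := (sub_pos.2 h.lt).ne'
  simp only [num, h.pv_eq, G, dG, iii, a₁, dim]
  field_simp
  ring

theorem Ok.lin_eq (h : P.Ok) (z₀ s τ : ℝ) :
    P.num.lin ![z₀, P.ξ * z₀ + s + P.w₁ * τ, P.ξ * z₀ + s + P.ζ * τ]
      = -P.dim * (1 + P.e) * (P.α / P.w₁ * z₀ + s)
        + (P.num.k₁ * P.w₁ + P.num.k₂ * P.ζ) / 2 * τ := by
  have := h.w₁_pos.ne'; have := h.α_pos.ne'
  have := (sub_pos.2 h.lt).ne'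
  simp only [Num.lin, Num.k₁, Num.k₂, num, h.pu_eq, h.pv_eq, cA, dA, cB, cC, srcP, e, dim, M,
    Matrix.cons_val_zero, Matrix.cons_val_one, Matrix.cons_val]
  field_simp
  ring

/-- The six coefficients of the form. -/
def c₁₁ (P : Point) : ℝ :=
  P.num.Bu - P.num.k₁ ^ 2 / (4 * P.num.A) + P.num.k₁ ^ 2 / (4 * P.num.A * P.dim)

/-- The mixed coefficient. -/
def c₁₂ (P : Point) : ℝ :=
  P.num.Bv + P.num.Cu - P.num.k₁ * P.num.k₂ / (2 * P.num.A)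
    + P.num.k₁ * P.num.k₂ / (2 * P.num.A * P.dim)

/-- The last coefficient. -/
def c₂₂ (P : Point) : ℝ :=
  P.num.Cv - P.num.k₂ ^ 2 / (4 * P.num.A) + P.num.k₂ ^ 2 / (4 * P.num.A * P.dim)

/-- The first mixed coefficient with the constant. -/
def c₀₁ (P : Point) : ℝ :=
  -P.num.B * P.num.P - P.num.C * P.num.Q + P.num.cu - P.num.dv - P.num.P * P.num.k₁ / P.dim

/-- The second mixed coefficient with the constant. -/
def c₀₂ (P : Point) : ℝ :=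
  -P.num.A * P.num.R + P.num.cv + P.num.du + 2 * P.num.dv - P.num.P * P.num.k₂ / P.dim

/-- The constant coefficient. -/
def c₀₀ (P : Point) : ℝ :=
  -P.num.c * P.num.P - P.num.d * P.num.Q + P.num.P ^ 2 * P.num.A / P.dim

theorem Ok.cA_pos (h : P.Ok) : 0 < P.num.A := by
  have := h.w₁_pos; have := h.ζ_pos; have := h.α_pos
  show 0 < P.α * (P.w₁ + P.ζ) / P.w₁
  positivity

theorem Ok.k₁_eq (h : P.Ok) : P.num.k₁
    = ((P.dim + P.d - 4 - P.α - P.α) * P.cA * P.w₁ + P.α * P.ζ * P.dA)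
        / (P.α * (P.w₁ - P.ζ)) + 2 * P.cB := by
  simp only [Num.k₁, num, h.pu_eq]

theorem Ok.k₂_eq (h : P.Ok) : P.num.k₂
    = -(P.α * P.dA + (P.dim + P.d - 4 - P.α - P.α) * P.cA) * P.w₁
        / (P.α * (P.w₁ - P.ζ)) + 2 * P.cC := by
  simp only [Num.k₂, num, h.pv_eq]

theorem Ok.c₁₁_eq (h : P.Ok) (hN : P.dim ≠ 0) : P.c₁₁ = P.M / (P.α * (P.w₁ - P.ζ) ^ 2)
    * (P.n₀ * P.ζ ^ 2 + P.w₁ * P.L * P.ζ + P.w₁ * P.π₀) := by
  have hw := h.w₁_pos.ne'; have hα := h.α_pos.ne'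
  have := (sub_pos.2 h.lt).ne'
  have hs : P.w₁ + P.ζ ≠ 0 := (add_pos h.w₁_pos h.ζ_pos).ne'
  rw [c₁₁, h.k₁_eq]
  simp only [num, h.pu_eq, cA, dA, cB, dB, a₁, b₁, n₀, L, l, k, π₀, aux, v, e, dim, M] at hN ⊢
  rw [show (1 : ℝ) + (P.w₁ + P.ζ - 1) = P.w₁ + P.ζ by ring]
  field_simp
  ring

theorem Ok.c₁₂_eq (h : P.Ok) (hN : P.dim ≠ 0) : P.c₁₂ = P.M / (P.α * (P.w₁ - P.ζ) ^ 2)
    * (-2 * P.n₀ * P.ζ * P.w₁ - P.w₁ * P.L * (P.w₁ + P.ζ) - 2 * P.w₁ * P.π₀) := by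
  have hw := h.w₁_pos.ne'; have hα := h.α_pos.ne'
  have := (sub_pos.2 h.lt).ne'
  have hs : P.w₁ + P.ζ ≠ 0 := (add_pos h.w₁_pos h.ζ_pos).ne'
  rw [c₁₂, h.k₁_eq, h.k₂_eq]
  simp only [num, h.pu_eq, h.pv_eq, cA, dA, cB, dB, cC, dC, a₁, b₁, n₀, L, l, k, π₀, aux, v, e, dim,
    M] at hN ⊢
  rw [show (1 : ℝ) + (P.w₁ + P.ζ - 1) = P.w₁ + P.ζ by ring]
  field_simp
  ring

theorem Ok.c₂₂_eq (h : P.Ok) (hN : P.dim ≠ 0) : P.c₂₂ = P.M / (P.α * (P.w₁ - P.ζ) ^ 2)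
    * (P.n₀ * P.w₁ ^ 2 + P.w₁ ^ 2 * P.L + P.w₁ * P.π₀) := by
  have hw := h.w₁_pos.ne'; have hα := h.α_pos.ne'
  have := (sub_pos.2 h.lt).ne'
  have hs : P.w₁ + P.ζ ≠ 0 := (add_pos h.w₁_pos h.ζ_pos).ne'
  rw [c₂₂, h.k₂_eq]
  simp only [num, h.pv_eq, cA, dA, cC, dC, a₁, b₁, n₀, L, l, k, π₀, aux, v, e, dim, M] at hN ⊢
  rw [show (1 : ℝ) + (P.w₁ + P.ζ - 1) = P.w₁ + P.ζ by ring]
  field_simp
  ring

theorem Ok.c₀₁_eq (h : P.Ok) (hN : P.dim ≠ 0) :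
    P.c₀₁ = -(P.ξ * (2 * P.c₁₁ + P.c₁₂)) := by
  have hw := h.w₁_pos.ne'; have hα := h.α_pos.ne'; have hβ := h.β_pos.ne'; have hζ := h.ζ_pos.ne'
  have := (sub_pos.2 h.lt).ne'
  rw [h.c₁₁_eq hN, h.c₁₂_eq hN, c₀₁, h.k₁_eq, h.lg_eq]
  simp only [num, h.pu_eq, cA, dA, cB, cC, cc, dc, G, dG, pot, srcR, srcP, srcQ, val, a₁, b₁,
    iii, n₀, L, l, k, v, e, dim, M] at hN ⊢
  field_simp
  ring

theorem Ok.c₀₂_eq (h : P.Ok) (hN : P.dim ≠ 0) :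
    P.c₀₂ = -(P.ξ * (P.c₁₂ + 2 * P.c₂₂)) := by
  have hw := h.w₁_pos.ne'; have hα := h.α_pos.ne'; have hβ := h.β_pos.ne'; have hζ := h.ζ_pos.ne'
  have := (sub_pos.2 h.lt).ne'
  rw [h.c₁₂_eq hN, h.c₂₂_eq hN, c₀₂, h.k₂_eq, h.lg_eq]
  simp only [num, h.pu_eq, h.pv_eq, cA, dA, cC, cc, dc, G, dG, pot, srcR, srcP, srcQ, val, a₁, b₁,
    iii, n₀, L, l, k, v, e, dim, M] at hN ⊢
  field_simp
  ring

theorem Ok.c₀₀_eq (h : P.Ok) (hN : P.dim ≠ 0) :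
    2 * P.c₀₀ = -(P.ξ * (P.c₀₁ + P.c₀₂)) := by
  have hw := h.w₁_pos.ne'; have hα := h.α_pos.ne'
  have := (sub_pos.2 h.lt).ne'
  rw [h.c₀₁_eq hN, h.c₀₂_eq hN, h.c₁₁_eq hN, h.c₁₂_eq hN, h.c₂₂_eq hN, c₀₀]
  simp only [num, cA, cc, G, pot, srcP, srcQ, n₀, v, e, dim, M] at hN ⊢
  field_simp
  ring

theorem Ok.quad_eq (h : P.Ok) (hN : P.dim ≠ 0) (z₀ s τ : ℝ) :
    P.num.quad P.dim P.num.dv (-2 * P.num.dv)
        ![z₀, P.ξ * z₀ + s + P.w₁ * τ, P.ξ * z₀ + s + P.ζ * τ]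
      = P.M / P.α * (P.n₀ * s ^ 2 - P.w₁ * P.L * (s * τ) + P.w₁ * P.π₀ * τ ^ 2) := by
  have e0 : ∀ a b c : ℝ, P.num.quad P.dim P.num.dv (-2 * P.num.dv) ![a, b, c]
      = P.c₀₀ * a ^ 2 + P.c₀₁ * (a * b) + P.c₀₂ * (a * c) + P.c₁₁ * b ^ 2 + P.c₁₂ * (b * c)
        + P.c₂₂ * c ^ 2 := fun a b c => by
    have := h.cA_pos.ne'
    simp [Num.quad, Num.lin, c₀₀, c₀₁, c₀₂, c₁₁, c₁₂, c₂₂]
    field_simp
    ring
  have h00 : P.c₀₀ = -(P.ξ * (P.c₀₁ + P.c₀₂)) / 2 := by linarith [h.c₀₀_eq hN]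
  rw [e0, h00, h.c₀₁_eq hN, h.c₀₂_eq hN, h.c₁₁_eq hN, h.c₁₂_eq hN, h.c₂₂_eq hN]
  have hα := h.α_pos.ne'
  have := (sub_pos.2 h.lt).ne'
  field_simp
  ring

theorem Ok.gap_ge (h : P.Ok) (hN : 2 ≤ P.dim) : P.c₂₂ ≤ P.num.gap := by
  have hA := h.cA_pos
  have hN0 : 0 < P.dim := by linarith
  have : 0 ≤ P.num.k₂ ^ 2 * (P.dim - 2) / (8 * P.num.A * P.dim) :=
    div_nonneg (mul_nonneg (sq_nonneg _) (by linarith)) (by positivity)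
  have e : P.num.gap - P.c₂₂ = P.num.k₂ ^ 2 * (P.dim - 2) / (8 * P.num.A * P.dim) := by
    simp only [Num.gap, c₂₂]
    field_simp
    ring
  linarith

end Point

end

end Vale.Agent.P100.OrbitCert
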