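import Mathlib
import Vale.Agent.P100.OrbitCert.Point

/-!
# P100: coercivity of the closed-form field below its dimension

With `W = U ^ q / (N (-V_T))` the form in `1, a, b` of dimension `n < N` dominates `W + a ^ 2 + b ^ 2`,
uniformly up to the end of the orbit, where `W` tends to zero.
-/

namespace Vale.Agent.P100.OrbitCert

noncomputable section

namespace Point

variable {P : Point} {c K : ℝ}

/-- `W = U ^ q / (N (-V_T))`. -/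
def W (P : Point) : ℝ := P.srcQ / P.dim

/-- Bounds on a point that are uniform along the orbit. -/
structure Within (P : Point) (c K : ℝ) : Prop where
  ok : P.Ok
  c_pos : 0 < c
  K_pos : 0 < K
  sep : c ≤ P.w₁ - P.ζ
  sum : c ≤ P.w₁ + P.ζ
  w₁_le : P.w₁ ≤ K
  ζ_le : P.ζ ≤ K
  A_le : P.num.A ≤ K
  W_pos : 0 < P.W
  W_le : P.W ≤ K
  n₀_ge : c * P.W ≤ P.n₀
  π₀_ge : c ≤ P.π₀
  iii_ge : c ≤ P.iii
  coupling : P.w₁ * P.L ^ 2 ≤ (1 - c) * (4 * P.n₀ * P.π₀)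
  shift : |P.α / P.w₁ - P.ξ| ≤ K * P.W
  cross : |(P.num.k₁ * P.w₁ + P.num.k₂ * P.ζ) / 2| ≤ K

theorem Within.two_lt (h : P.Within c K) : 2 < P.dim := by
  have := h.ok.α_pos; have := h.ok.β_pos
  simp only [dim]; linarith

theorem Within.M_pos (h : P.Within c K) : 0 < P.M := by
  have := h.ok.α_pos; have := h.ok.β_pos
  simp only [M]; linarith

theorem Within.w₁_ge (h : P.Within c K) : c ≤ P.w₁ := by
  linarith [h.sep, h.ok.ζ_pos]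

theorem block_ge {n L π w c s τ : ℝ} (hn : 0 ≤ n) (hπ : 0 ≤ π) (hw : 0 ≤ w)
    (hL : w * L ^ 2 ≤ (1 - c) * (4 * n * π)) (hc : 0 ≤ c) (hc1 : c ≤ 2) :
    c / 2 * (n * s ^ 2 + w * π * τ ^ 2) ≤ n * s ^ 2 - w * L * (s * τ) + w * π * τ ^ 2 := by
  set a := n * s ^ 2 + w * π * τ ^ 2
  have ha : 0 ≤ a := by positivity
  have h1 : (w * L * (s * τ)) ^ 2 ≤ ((1 - c / 2) * a) ^ 2 := by
    have e1 := mul_le_mul_of_nonneg_right hL (by positivity : 0 ≤ w * (s * τ) ^ 2)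
    have hcr : 0 ≤ 4 * (n * s ^ 2) * (w * π * τ ^ 2) := by positivity
    have e2 : (1 - c) * (4 * (n * s ^ 2) * (w * π * τ ^ 2))
        ≤ (1 - c / 2) ^ 2 * (4 * (n * s ^ 2) * (w * π * τ ^ 2)) :=
      mul_le_mul_of_nonneg_right (by nlinarith [sq_nonneg c]) hcr
    have e3 : 4 * (n * s ^ 2) * (w * π * τ ^ 2) ≤ a ^ 2 := by
      nlinarith [sq_nonneg (n * s ^ 2 - w * π * τ ^ 2)]
    nlinarith [mul_le_mul_of_nonneg_left e3 (sq_nonneg (1 - c / 2))]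
  have h2 := abs_le_of_sq_le_sq h1 (mul_nonneg (by linarith) ha)
  linarith [le_abs_self (w * L * (s * τ))]

theorem sum_sq_le {x y a b : ℝ} (hx : x ^ 2 ≤ a) (hy : y ^ 2 ≤ b) :
    (x + y) ^ 2 ≤ 2 * a + 2 * b := by
  nlinarith [sq_nonneg (x - y)]

/-- The step from the three controlled quantities to the coordinates. -/
theorem core {c K W s τ p' x w₁ ζ r z₀ C₁ C₂ C₃ Φ : ℝ} (hK : 0 ≤ K) (hW : 0 ≤ W)
    (hWK : W ≤ K) (hx : |x| ≤ K * W) (hw : |w₁| ≤ K) (hζ : |ζ| ≤ K) (hr : |r| ≤ K / c)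
    (hz : z₀ = r * (p' - s)) (i1 : W * s ^ 2 ≤ C₁ * Φ) (i2 : τ ^ 2 ≤ C₂ * Φ)
    (i3 : p' ^ 2 ≤ C₃ * Φ) :
    W * z₀ ^ 2 + (p' - x * z₀ + w₁ * τ) ^ 2 + (p' - x * z₀ + ζ * τ) ^ 2
      ≤ (2 * (K / c) ^ 2 * (K * C₃ + C₁) + 4 * (2 * C₃ + 2 * K ^ 3 * (2 * (K / c) ^ 2 * (K * C₃ + C₁)))
          + 4 * K ^ 2 * C₂) * Φ := by
  have sq_le : ∀ {a b : ℝ}, |a| ≤ b → a ^ 2 ≤ b ^ 2 := fun {a b} h =>
    sq_le_sq' (abs_le.1 h).1 (abs_le.1 h).2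
  have h1 : W * (p' - s) ^ 2 ≤ 2 * (K * C₃ + C₁) * Φ := by
    have := mul_le_mul hWK i3 (sq_nonneg _) hK
    nlinarith [mul_nonneg hW (sq_nonneg (p' + s))]
  have i4 : W * z₀ ^ 2 ≤ 2 * (K / c) ^ 2 * (K * C₃ + C₁) * Φ := by
    calc W * z₀ ^ 2 = r ^ 2 * (W * (p' - s) ^ 2) := by rw [hz]; ring
      _ ≤ (K / c) ^ 2 * (2 * (K * C₃ + C₁) * Φ) :=
          mul_le_mul (sq_le hr) h1 (mul_nonneg hW (sq_nonneg _)) (sq_nonneg _)
      _ = _ := by ring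
  generalize 2 * (K / c) ^ 2 * (K * C₃ + C₁) = C₄ at i4 ⊢
  have i5 : (x * z₀) ^ 2 ≤ K ^ 3 * (C₄ * Φ) := by
    calc (x * z₀) ^ 2 ≤ (K * W) ^ 2 * z₀ ^ 2 := by
          rw [mul_pow]; exact mul_le_mul_of_nonneg_right (sq_le hx) (sq_nonneg _)
      _ = K ^ 2 * W * (W * z₀ ^ 2) := by ring
      _ ≤ K ^ 2 * K * (C₄ * Φ) := mul_le_mul (mul_le_mul_of_nonneg_left hWK (sq_nonneg _)) i4
          (mul_nonneg hW (sq_nonneg _)) (mul_nonneg (sq_nonneg _) hK)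
      _ = _ := by ring
  have i6 := sum_sq_le i3 (show (-(x * z₀)) ^ 2 ≤ K ^ 3 * (C₄ * Φ) by rwa [neg_sq])
  have i7 : ∀ a, |a| ≤ K → (a * τ) ^ 2 ≤ K ^ 2 * (C₂ * Φ) := fun a ha => by
    rw [mul_pow]; exact mul_le_mul (sq_le ha) i2 (sq_nonneg _) (sq_nonneg _)
  rw [show p' + -(x * z₀) = p' - x * z₀ by ring] at i6
  have j1 := sum_sq_le i6 (i7 _ hw)
  have j2 := sum_sq_le i6 (i7 _ hζ)
  linarith

theorem Within.i1 {δ : ℝ} {m Φ s τ : ℝ} (h : P.Within c K) (hm : 0 < m) (hc1 : c ≤ 1)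
    (hδ : m * (P.n₀ * s ^ 2 - P.w₁ * P.L * (s * τ) + P.w₁ * P.π₀ * τ ^ 2) + δ ≤ Φ) (h0 : 0 ≤ δ) :
    P.W * s ^ 2 ≤ 2 / (m * c * c) * Φ ∧ τ ^ 2 ≤ 2 / (m * c * c * c) * Φ ∧ δ ≤ Φ := by
  have hc := h.c_pos
  have hw := h.ok.w₁_pos
  have hπ : 0 ≤ P.π₀ := hc.le.trans h.π₀_ge
  have hn0 : 0 ≤ P.n₀ := (mul_nonneg hc.le h.W_pos.le).trans h.n₀_ge
  have hB := block_ge (s := s) (τ := τ) hn0 hπ hw.le h.coupling hc.le (by linarith)
  have h2 := (mul_le_mul_of_nonneg_left hB hm.le)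
  have a1 := mul_le_mul_of_nonneg_right h.n₀_ge (sq_nonneg s)
  have a2 := mul_le_mul_of_nonneg_right (mul_le_mul h.w₁_ge h.π₀_ge hc.le hw.le) (sq_nonneg τ)
  have b1 : 0 ≤ P.n₀ * s ^ 2 := by positivity
  have b2 : 0 ≤ P.w₁ * P.π₀ * τ ^ 2 := by positivity
  have hm2 : 0 ≤ m * (c / 2) := by positivity
  have c1 := mul_le_mul_of_nonneg_left a1 hm2
  have c2 := mul_le_mul_of_nonneg_left a2 hm2
  have d1 := mul_nonneg hm2 b1
  have d2 := mul_nonneg hm2 b2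
  refine ⟨?_, ?_, by linarith [mul_nonneg hm.le (add_nonneg b1 b2), mul_nonneg hm2 (add_nonneg b1 b2)]⟩
  · rw [div_mul_eq_mul_div, le_div_iff₀ (by positivity)]
    linarith
  · rw [div_mul_eq_mul_div, le_div_iff₀ (by positivity)]
    linarith

/-- A lower bound of the form in a dimension `n < N`. -/
theorem exists_quad_ge {c K δ S : ℝ} (hδ : 0 < δ) (hS : 0 < S) :
    ∃ ε > 0, ∀ P : Point, P.Within c K → c ≤ 1 → P.α + P.β = S → c ≤ P.α → P.α ≤ K → ∀ z,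
      ε * (P.W * z 0 ^ 2 + z 1 ^ 2 + z 2 ^ 2)
        ≤ P.num.quad P.dim P.num.dv (-2 * P.num.dv) z + δ * P.num.lin z ^ 2 / P.num.A := by
  by_cases hcK : 0 < c ∧ 0 < K
  swap
  · exact ⟨1, one_pos, fun P h => absurd ⟨h.c_pos, h.K_pos⟩ hcK⟩
  obtain ⟨hc, hK⟩ := hcK
  -- constants
  set m := (S + 1) / K with hm'
  set C₁ := 2 / (m * c * c) with hC1'
  set C₂ := 2 / (m * c * c * c) with hC2'
  set C₃ := (2 * (K / δ) + 2 * (K ^ 2 * C₂)) / ((S + 2) * c) ^ 2 with hC3'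
  set E := 2 * (K / c) ^ 2 * (K * C₃ + C₁)
      + 4 * (2 * C₃ + 2 * K ^ 3 * (2 * (K / c) ^ 2 * (K * C₃ + C₁))) + 4 * K ^ 2 * C₂
  have hm : 0 < m := by positivity
  have hE : 0 < E := by positivity
  refine ⟨E⁻¹, inv_pos.2 hE, fun P h hc1 hSe hαc hαK z => ?_⟩
  have hA := h.ok.cA_pos
  have hα := h.ok.α_pos
  have hsep : 0 < P.w₁ - P.ζ := hc.trans_le h.sep
  set τ := (z 1 - z 2) / (P.w₁ - P.ζ) with hτ
  set s := z 1 - P.ξ * z 0 - P.w₁ * τ with hs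
  have e1 : z 1 = P.ξ * z 0 + s + P.w₁ * τ := by rw [hs]; ring
  have e2 : z 2 = P.ξ * z 0 + s + P.ζ * τ := by
    have h1 : P.w₁ * τ - P.ζ * τ = z 1 - z 2 := by
      rw [hτ, ← sub_mul, mul_div_cancel₀ _ hsep.ne']
    linarith
  have ez : z = ![z 0, P.ξ * z 0 + s + P.w₁ * τ, P.ξ * z 0 + s + P.ζ * τ] := by
    funext i; fin_cases i <;> simp [← e1, ← e2]
  rw [inv_mul_le_iff₀ hE]
  have hq := h.ok.quad_eq (by linarith [h.two_lt]) (z 0) s τ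
  have hl := h.ok.lin_eq (z 0) s τ
  rw [← ez] at hq hl
  rw [hq]
  have hk := h.cross
  generalize (P.num.k₁ * P.w₁ + P.num.k₂ * P.ζ) / 2 = k at hl hk
  generalize P.num.lin z = lin at hl ⊢
  have hAK := h.A_le
  generalize P.num.A = A at hA hAK ⊢
  generalize hB' : P.n₀ * s ^ 2 - P.w₁ * P.L * (s * τ) + P.w₁ * P.π₀ * τ ^ 2 = B
  have hmα : m ≤ P.M / P.α := by
    rw [hm', show P.M = S + 1 by simp only [M]; linarith]
    exact div_le_div_of_nonneg_left (by linarith) hα hαK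
  have hB0 : 0 ≤ B := by
    rw [← hB']
    refine le_trans ?_ (block_ge ((mul_nonneg hc.le h.W_pos.le).trans h.n₀_ge) (hc.le.trans h.π₀_ge)
      h.ok.w₁_pos.le h.coupling hc.le (by linarith))
    have := hc.le.trans h.π₀_ge
    have := (mul_nonneg hc.le h.W_pos.le).trans h.n₀_ge
    have := h.ok.w₁_pos
    positivity
  generalize hΦ : P.M / P.α * B + δ * lin ^ 2 / A = Φ
  have hd0 : 0 ≤ δ * lin ^ 2 / A := by positivity
  have hmB := mul_le_mul_of_nonneg_right hmα hB0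
  obtain ⟨i1, i2, i0⟩ := h.i1 (s := s) (τ := τ) (δ := δ * lin ^ 2 / A) (Φ := Φ) hm hc1
    (by rw [hB']; linarith) hd0
  have hΦ0 : 0 ≤ Φ := hd0.trans i0
  have hlin : lin ^ 2 ≤ K / δ * Φ := by
    calc lin ^ 2 = δ * lin ^ 2 / A * (A / δ) := by field_simp
      _ ≤ Φ * (K / δ) := mul_le_mul i0 (div_le_div_of_nonneg_right hAK hδ.le) (by positivity) hΦ0
      _ = _ := by ring
  have i3 : (P.α / P.w₁ * z 0 + s) ^ 2 ≤ C₃ * Φ := by
    generalize P.α / P.w₁ * z 0 + s = p' at hl ⊢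
    have hb : (P.dim * (1 + P.e) * p') ^ 2 ≤ 2 * (K ^ 2 * (C₂ * Φ)) + 2 * (K / δ * Φ) := by
      rw [show P.dim * (1 + P.e) * p' = k * τ + -lin by rw [hl]; ring]
      refine sum_sq_le ?_ (by rwa [neg_sq])
      rw [mul_pow]
      exact mul_le_mul (sq_le_sq' (abs_le.1 hk).1 (abs_le.1 hk).2) i2 (sq_nonneg _) (sq_nonneg _)
    have hge : (S + 2) * c ≤ P.dim * (1 + P.e) := by
      rw [show P.dim = S + 2 by simp only [dim]; linarith]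
      refine mul_le_mul_of_nonneg_left ?_ (by linarith)
      simp only [e]; linarith [h.sum]
    have h1 : ((S + 2) * c) ^ 2 * p' ^ 2 ≤ (P.dim * (1 + P.e) * p') ^ 2 := by
      rw [mul_pow (P.dim * (1 + P.e))]
      exact mul_le_mul_of_nonneg_right (pow_le_pow_left₀ (by positivity) hge 2) (sq_nonneg _)
    rw [hC3', div_mul_eq_mul_div, le_div_iff₀ (by positivity)]
    linarith
  have hz : z 0 = P.w₁ / P.α * (P.α / P.w₁ * z 0 + s - s) := by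
    have := h.ok.w₁_pos.ne'
    field_simp
    ring
  have hw : |P.w₁| ≤ K := by rw [abs_of_pos h.ok.w₁_pos]; exact h.w₁_le
  have hζ : |P.ζ| ≤ K := by rw [abs_of_pos h.ok.ζ_pos]; exact h.ζ_le
  have hr : |P.w₁ / P.α| ≤ K / c := by
    rw [abs_of_pos (div_pos h.ok.w₁_pos hα)]
    exact div_le_div₀ hK.le h.w₁_le hc hαc
  have key := core (x := P.α / P.w₁ - P.ξ) hK.le h.W_pos.le h.W_le h.shift hw hζ hr hz i1 i2 i3
  rw [show P.α / P.w₁ * z 0 + s - (P.α / P.w₁ - P.ξ) * z 0 + P.w₁ * τ = z 1 by rw [e1]; ring,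
    show P.α / P.w₁ * z 0 + s - (P.α / P.w₁ - P.ξ) * z 0 + P.ζ * τ = z 2 by rw [e2]; ring] at key
  exact key

theorem Within.gap_ge (h : P.Within c K) (hc1 : c ≤ 1) :
    P.M / P.α * (c / 2 * (c * c)) / (P.w₁ - P.ζ) ^ 2 ≤ P.num.gap := by
  refine le_trans ?_ (h.ok.gap_ge h.two_lt.le)
  rw [h.ok.c₂₂_eq (by linarith [h.two_lt])]
  have hb := block_ge (s := P.w₁) (τ := -1) (n := P.n₀) (L := P.L) (π := P.π₀) (w := P.w₁) (c := c)
    ((mul_nonneg h.c_pos.le h.W_pos.le).trans h.n₀_ge) (h.c_pos.le.trans h.π₀_ge) h.ok.w₁_pos.le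
    h.coupling h.c_pos.le (by linarith)
  have h1 : c / 2 * (c * c) ≤ P.n₀ * P.w₁ ^ 2 + P.w₁ ^ 2 * P.L + P.w₁ * P.π₀ := by
    refine le_trans ?_ (hb.trans_eq (by ring))
    refine mul_le_mul_of_nonneg_left ?_ (by linarith [h.c_pos])
    have := mul_le_mul h.w₁_ge h.π₀_ge h.c_pos.le h.ok.w₁_pos.le
    have := mul_nonneg ((mul_nonneg h.c_pos.le h.W_pos.le).trans h.n₀_ge) (sq_nonneg P.w₁)
    linarith
  have : P.M / P.α * (c / 2 * (c * c)) / (P.w₁ - P.ζ) ^ 2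
      = P.M / (P.α * (P.w₁ - P.ζ) ^ 2) * (c / 2 * (c * c)) := by
    rw [div_mul_eq_mul_div, div_div]
    ring
  rw [this]
  exact mul_le_mul_of_nonneg_left h1
    (div_nonneg h.M_pos.le (mul_nonneg h.ok.α_pos.le (sq_nonneg _)))

theorem Within.lg_ge (h : P.Within c K) :
    P.M * c * c / (P.α * (P.w₁ - P.ζ)) ≤ P.num.dv := by
  rw [h.ok.lg_eq]
  refine div_le_div_of_nonneg_right ?_ (mul_pos h.ok.α_pos (sub_pos.2 h.ok.lt)).le
  exact mul_le_mul (mul_le_mul_of_nonneg_left h.w₁_ge h.M_pos.le) h.iii_ge h.c_pos.le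
    (mul_nonneg h.M_pos.le h.ok.w₁_pos.le)

end Point

end

end Vale.Agent.P100.OrbitCert
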