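import Vale.Agent.P100.Orbit.Center
import Vale.Agent.P100.OrbitCert.Coercive

/-!
# P100: the point of the closed-form field that belongs to a time on the critical orbit

`ξ`, `ζ` and `w₁` are written without division by `T`, so they are regular through the centre.
-/

namespace Vale.Agent.P100.OrbitCert

open Filter Set Topology Orbit

noncomputable section

/-- `N / (q + 1)`. -/
def cα (N q : ℝ) : ℝ := N / (q + 1)

/-- The constants of the rule `w = w₀ + b₀ (1 - ξ/S)` in degree `N + d`. -/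
structure Rule where
  d : ℝ
  w₀ : ℝ
  b₀ : ℝ

/-- `ζ`, regular at `T = 0`. -/
def oZ (N p q : ℝ) (U V : ℝ → ℝ) (T : ℝ) : ℝ :=
  -(cα N p * V T * deriv (du N p V) T) / (N * du N p V T * du N q U T)

/-- `w₁`, regular at `T = 0`. -/
def oW (N p q : ℝ) (U V : ℝ → ℝ) (T : ℝ) : ℝ :=
  -(cα N q * U T * deriv (du N p V) T) / (N * du N p V T ^ 2)

/-- `w` along the orbit. -/
def oR (N p : ℝ) (U V : ℝ → ℝ) (R : Rule) (T : ℝ) : ℝ :=
  R.w₀ + R.b₀ * (1 - qX N p U V T / (N - 2))

/-- The point at time `T`. -/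
def orbitPoint (N p q : ℝ) (U V : ℝ → ℝ) (R : Rule) (T : ℝ) : Point where
  α := cα N q
  β := cα N p
  d := R.d
  ξ := qX N p U V T
  ζ := oZ N p q U V T
  w₁ := oW N p q U V T
  w := oR N p U V R T
  Dw := -(R.b₀ / (N - 2) * (2 + qX N p U V T * (1 - N * oW N p q U V T / cα N q)))

variable {N p q T₁ T₀ T : ℝ} {U V : ℝ → ℝ}

/-- The standing assumptions. -/
structure Setting (N p q T₁ T₀ : ℝ) (U V : ℝ → ℝ) : Prop where
  two_lt : 2 < N
  p_pos : 0 < p
  q_pos : 0 < q
  lt : q < p
  critical : N / (p + 1) + N / (q + 1) = N - 2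
  orbit : CriticalOrbit N p q T₁ T₀ U V

namespace Setting

variable (s : Setting N p q T₁ T₀ U V)
include s

theorem α_pos : 0 < cα N q := div_pos (by linarith [s.two_lt]) (by linarith [s.q_pos])

theorem β_pos : 0 < cα N p := div_pos (by linarith [s.two_lt]) (by linarith [s.p_pos])

theorem sum_eq : cα N q + cα N p = N - 2 := by unfold cα; linarith [s.critical]

theorem N_pos : 0 < N := by linarith [s.two_lt]

theorem ground : Ground N p q (V 0) U V := s.orbit.toGround s.two_lt s.p_pos s.q_pos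

theorem U_pos (hT : T₁ ≤ T) : 0 < U T := s.orbit.pos_u T hT

theorem V_pos (hT : T₁ ≤ T) : 0 < V T := s.orbit.pos_v T hT

theorem u₁_pos (hT : T₁ ≤ T) : 0 < du N p V T := s.orbit.du_u_pos T hT

theorem v₁_pos (hT : T₁ ≤ T) : 0 < du N q U T := s.orbit.du_v_pos T hT

theorem lt_zero : T₁ < 0 := s.orbit.T₁_lt.trans s.orbit.T₀_neg

theorem deriv_u_eq (hT : T₁ < T) : deriv U T = -du N p V T := (s.orbit.deriv_u T hT).deriv

theorem deriv_deriv_u (hT : T₁ < T) : deriv (deriv U) T = -deriv (du N p V) T := by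
  have e : deriv U =ᶠ[𝓝 T] fun x => -du N p V x := by
    filter_upwards [Ioi_mem_nhds hT] with x hx using s.deriv_u_eq hx
  rw [e.deriv_eq, deriv.fun_neg]

theorem deriv_deriv_v (hT : T₁ < T) : deriv (deriv V) T = -deriv (du N q U) T := by
  have e : deriv V =ᶠ[𝓝 T] fun x => -du N q U x := by
    filter_upwards [Ioi_mem_nhds hT] with x hx using (s.orbit.deriv_v x hx).deriv
  rw [e.deriv_eq, deriv.fun_neg]

theorem ode_u (hT : T₁ < T) : V T ^ p = N * du N p V T + 2 * T * deriv (du N p V) T := by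
  have h := s.orbit.ode_u T hT
  rw [s.deriv_u_eq hT, s.deriv_deriv_u hT] at h
  linarith

theorem ode_v (hT : T₁ < T) : U T ^ q = N * du N q U T + 2 * T * deriv (du N q U) T := by
  have h := s.orbit.ode_v T hT
  rw [(s.orbit.deriv_v T hT).deriv, s.deriv_deriv_v hT] at h
  linarith

theorem continuousOn_deriv_du_u : ContinuousOn (deriv (du N p V)) (Ioi T₁) := by
  have h1 : ContDiffOn ℝ 1 (deriv U) (Ioi T₁) :=
    (s.orbit.smooth_u 2).deriv_of_isOpen isOpen_Ioi (by norm_num)
  exact (h1.continuousOn_deriv_of_isOpen isOpen_Ioi le_rfl).neg.congr fun x hx => by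
    simp [s.deriv_deriv_u hx]

theorem continuousOn_deriv_du_v : ContinuousOn (deriv (du N q U)) (Ioi T₁) := by
  have h1 : ContDiffOn ℝ 1 (deriv V) (Ioi T₁) :=
    (s.orbit.smooth_v 2).deriv_of_isOpen isOpen_Ioi (by norm_num)
  exact (h1.continuousOn_deriv_of_isOpen isOpen_Ioi le_rfl).neg.congr fun x hx => by
    simp [s.deriv_deriv_v hx]

theorem continuous_u₁ : Continuous (du N p V) := continuous_du s.two_lt s.p_pos s.orbit.cont_v

theorem continuous_v₁ : Continuous (du N q U) := continuous_du s.two_lt s.q_pos s.orbit.cont_u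

theorem continuousOn_xi : ContinuousOn (qX N p U V) (Ioi T₁) := fun x hx =>
  (((continuous_const.mul continuous_id).mul s.continuous_u₁).continuousAt.div
    s.orbit.cont_u.continuousAt (s.U_pos (le_of_lt hx)).ne').continuousWithinAt

theorem continuousOn_oZ : ContinuousOn (oZ N p q U V) (Ioi T₁) :=
  (((continuous_const.mul s.orbit.cont_v).continuousOn.mul s.continuousOn_deriv_du_u).neg).div
    ((continuous_const.mul s.continuous_u₁).mul s.continuous_v₁).continuousOn fun x hx =>
      (mul_pos (mul_pos s.N_pos (s.u₁_pos (le_of_lt hx))) (s.v₁_pos (le_of_lt hx))).ne'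

theorem continuousOn_oW : ContinuousOn (oW N p q U V) (Ioi T₁) :=
  (((continuous_const.mul s.orbit.cont_u).continuousOn.mul s.continuousOn_deriv_du_u).neg).div
    (continuous_const.mul (s.continuous_u₁.pow 2)).continuousOn fun x hx =>
      (mul_pos s.N_pos (pow_pos (s.u₁_pos (le_of_lt hx)) 2)).ne'

theorem oZ_eq_pZeta (hT : T₁ < T) (h0 : T ≠ 0) : oZ N p q U V T = pZeta N p q U V T := by
  have := (s.U_pos hT.le).ne'; have := (s.V_pos hT.le).ne'
  have := (s.u₁_pos hT.le).ne'; have := (s.v₁_pos hT.le).ne'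
  have := s.N_pos.ne'; have : p + 1 ≠ 0 := by linarith [s.p_pos]
  unfold oZ pZeta qZ qX cα
  rw [s.ode_u hT]
  field_simp
  ring

theorem oW_eq_pW (hT : T₁ < T) (h0 : T ≠ 0) : oW N p q U V T = pW N p q U V T := by
  have := (s.U_pos hT.le).ne'
  have := (s.u₁_pos hT.le).ne'
  have := s.N_pos.ne'; have : q + 1 ≠ 0 := by linarith [s.q_pos]
  unfold oW pW qZ qX cα
  rw [s.ode_u hT]
  field_simp
  ring

/-- A closed inequality extends through the centre. -/
theorem le_through_center {f g : ℝ → ℝ} (hf : ContinuousOn f (Ioi T₁)) (hg : ContinuousOn g (Ioi T₁))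
    (h : ∀ x, T₀ ≤ x → x ≠ 0 → f x ≤ g x) (hT : T₀ ≤ T) : f T ≤ g T := by
  rcases eq_or_ne T 0 with rfl | h0
  · have hm : Ioi T₁ ∈ 𝓝 (0 : ℝ) := Ioi_mem_nhds s.lt_zero
    refine le_of_tendsto_of_tendsto
      (((hf.continuousAt hm).tendsto).mono_left (nhdsWithin_le_nhds (s := Ioi 0)))
      (((hg.continuousAt hm).tendsto).mono_left nhdsWithin_le_nhds) ?_
    filter_upwards [self_mem_nhdsWithin] with x hx
    exact h x (s.orbit.T₀_neg.le.trans (le_of_lt hx)) (ne_of_gt hx)
  · exact h T hT h0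

theorem oW_eq_eta (hT : T₁ < T) : oW N p q U V T
    = U T * du N q U T / (Orbit.sig p q * (V T * du N p V T)) * oZ N p q U V T := by
  have := (s.V_pos hT.le).ne'
  have := (s.u₁_pos hT.le).ne'; have := (s.v₁_pos hT.le).ne'
  have := s.N_pos.ne'
  have : p + 1 ≠ 0 := by linarith [s.p_pos]
  have : q + 1 ≠ 0 := by linarith [s.q_pos]
  unfold oW oZ cα Orbit.sig
  field_simp

theorem ζ_lower (hT : T₀ ≤ T) : cα N p / (N - 2) ≤ oZ N p q U V T := by
  refine s.le_through_center continuousOn_const s.continuousOn_oZ (fun x hx h0 => ?_) hT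
  rw [s.oZ_eq_pZeta (s.orbit.T₁_lt.trans_le hx) h0]
  rcases h0.lt_or_gt with h | h
  · refine le_trans ?_ (s.orbit.zeta0_le s.two_lt s.p_pos s.q_pos hx h)
    have hh := Ground.half_lt_alpha s.two_lt s.q_pos s.lt s.critical s.p_pos
    rw [Ground.zeta0_eq s.two_lt s.p_pos s.q_pos s.lt s.critical,
      div_le_div_iff₀ (by linarith [s.two_lt]) (by linarith [s.two_lt])]
    have h1 := mul_pos s.N_pos (show 0 < N / (q + 1) - cα N p by
      have := s.sum_eq; unfold cα at this ⊢; linarith)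
    have hb : cα N p = N - 2 - N / (q + 1) := by have := s.sum_eq; unfold cα at this ⊢; linarith
    rw [hb] at h1 ⊢
    linarith
  · exact (s.ground.lt_pZeta s.two_lt s.p_pos s.q_pos s.lt s.critical h).le

theorem ζ_pos (hT : T₀ ≤ T) : 0 < oZ N p q U V T :=
  (div_pos s.β_pos (by linarith [s.two_lt])).trans_le (s.ζ_lower hT)

theorem ζ_lt (hT : T₀ ≤ T) : oZ N p q U V T < oW N p q U V T := by
  have h1 : T₁ < T := s.orbit.T₁_lt.trans_le hT
  rw [s.oW_eq_eta h1]
  refine lt_mul_of_one_lt_left (s.ζ_pos hT) ((one_lt_div ?_).2 (s.orbit.det_pos T hT))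
  exact mul_pos (Orbit.sig_pos s.p_pos s.q_pos) (mul_pos (s.V_pos h1.le) (s.u₁_pos h1.le))

theorem w₁_le (hT : T₀ ≤ T) : oW N p q U V T ≤ cα N q / (N - 2) := by
  refine s.le_through_center s.continuousOn_oW continuousOn_const (fun x hx h0 => ?_) hT
  rw [s.oW_eq_pW (s.orbit.T₁_lt.trans_le hx) h0]
  rcases h0.lt_or_gt with h | h
  · exact (s.orbit.back_w_lt s.two_lt s.p_pos s.q_pos s.lt s.critical hx h).le
  · exact (s.ground.pW_lt s.two_lt s.p_pos s.q_pos s.lt s.critical h).le

/-- The relation between the second derivatives. -/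
theorem second_relation (hT : T₁ < T) :
    cα N q * U T * deriv (du N q U) T + cα N p * V T * deriv (du N p V) T
      + N * du N p V T * du N q U T = 0 := by
  set H : ℝ → ℝ := fun x => cα N q * U x * deriv (du N q U) x + cα N p * V x * deriv (du N p V) x
      + N * du N p V x * du N q U x
  have key : ∀ x, T₁ < x → x ≠ 0 → H x = 0 := by
    intro x hx h0
    have h := s.orbit.identity s.two_lt s.p_pos s.q_pos hx.le
    have := (s.U_pos hx.le).ne'; have := (s.V_pos hx.le).ne'
    have := (s.u₁_pos hx.le).ne'; have := (s.v₁_pos hx.le).ne'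
    have : p + 1 ≠ 0 := by linarith [s.p_pos]
    have : q + 1 ≠ 0 := by linarith [s.q_pos]
    unfold qX qZ at h
    rw [s.ode_u hx, s.ode_v hx] at h
    field_simp at h
    have hc := s.critical
    field_simp at hc
    simp only [H, cα]
    field_simp
    refine mul_left_cancel₀ h0 ?_
    linear_combination (-(N / 2)) * h
  rcases eq_or_ne T 0 with rfl | h0
  · have hm : Ioi T₁ ∈ 𝓝 (0 : ℝ) := Ioi_mem_nhds hT
    have hc : ContinuousAt H 0 := by
      refine ContinuousAt.add (ContinuousAt.add ?_ ?_) ?_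
      · exact (continuous_const.mul s.orbit.cont_u).continuousAt.mul
          (s.continuousOn_deriv_du_v.continuousAt hm)
      · exact (continuous_const.mul s.orbit.cont_v).continuousAt.mul
          (s.continuousOn_deriv_du_u.continuousAt hm)
      · exact ((continuous_const.mul s.continuous_u₁).mul s.continuous_v₁).continuousAt
    refine tendsto_nhds_unique (hc.tendsto.mono_left (nhdsWithin_le_nhds (s := Ioi 0)))
      (tendsto_const_nhds.congr' ?_)
    filter_upwards [self_mem_nhdsWithin] with x hx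
    exact (key x (hT.trans hx) (ne_of_gt hx)).symm
  · exact key T hT h0

theorem w₁_pos (hT : T₀ ≤ T) : 0 < oW N p q U V T := (s.ζ_pos hT).trans (s.ζ_lt hT)

theorem ok (R : Rule) (hT : T₀ ≤ T) : (orbitPoint N p q U V R T).Ok :=
  ⟨s.α_pos, s.β_pos, s.ζ_pos hT, s.ζ_lt hT⟩

theorem xi_eq (hT : T₁ < T) : 2 * T = qX N p U V T * U T / du N p V T := by
  have := (s.U_pos hT.le).ne'; have := (s.u₁_pos hT.le).ne'
  unfold qX
  field_simp

theorem val_eq (R : Rule) (hT : T₀ ≤ T) :
    V T = (orbitPoint N p q U V R T).val * (U T * du N q U T / du N p V T) := by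
  have h1 : T₁ < T := s.orbit.T₁_lt.trans_le hT
  have hb := s.β_pos.ne'
  have := (s.U_pos h1.le).ne'; have := (s.V_pos h1.le).ne'
  have := (s.u₁_pos h1.le).ne'; have := (s.v₁_pos h1.le).ne'
  have hz := (s.ζ_pos hT).ne'
  simp only [Point.val, orbitPoint]
  rw [s.oW_eq_eta h1]
  have : p + 1 ≠ 0 := by linarith [s.p_pos]
  have : q + 1 ≠ 0 := by linarith [s.q_pos]
  have := s.N_pos.ne'
  unfold cα Orbit.sig
  field_simp

end Setting

end

end Vale.Agent.P100.OrbitCert
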