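import Vale.Agent.P100.OrbitCert.Coeff
import Vale.Agent.P100.Perturb

/-!
# P100: the five functions of `r` and their pointwise estimates

For every real dimension `M < N` the completed divergence is at least a multiple of
`U ^ (-d/α)`, and the flux is at most a multiple of `√r U ^ (-d (1-m)/α)` times its `m`-th power.
-/

namespace Vale.Agent.P100.OrbitCert

open Filter Set Topology Orbit Finset Vale.Agent.P098.Cone

noncomputable section

variable {N p q T₁ T₀ T : ℝ} {U V : ℝ → ℝ}

theorem _root_.Vale.Agent.P100.Num.scale_scale (J : Num) (x y t g x' y' t' g' : ℝ) :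
    (J.scale x y t g).scale x' y' t' g' = J.scale (x * x') (y * y') (t * t') (g * g') := by
  simp only [Num.scale, Num.mk.injEq]
  refine ⟨?_, ?_, ?_, ?_, ?_, ?_, ?_, ?_, ?_, ?_, ?_, ?_, ?_, ?_, ?_, ?_, ?_, ?_⟩ <;>
    simp only [div_eq_mul_inv, mul_inv, mul_pow] <;> ring

/-- The certificate. -/
def cert (N p q T₁ T₀ : ℝ) (U V : ℝ → ℝ) (R : Rule) : Five where
  A := pull N p q T₁ T₀ U V (N + R.d - 4 - cα N q - cα N q) (fA N p q U V)
  B := pull N p q T₁ T₀ U V (N + R.d - 4 - cα N q - cα N q - cα N q) (fB N p q U V R)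
  C := pull N p q T₁ T₀ U V (N + R.d - 4 - cα N q - cα N q - cα N p) (fC N p U V R)
  c := pull N p q T₁ T₀ U V (N + R.d - 2 - cα N q) (fc N p q U V R)
  d := pull N p q T₁ T₀ U V (N + R.d - 2 - cα N p) (fd N p q U V R)

/-- The length factor between `r` and the normalised point. -/
def unitT (N p q : ℝ) (U V : ℝ → ℝ) (T : ℝ) : ℝ := U T ^ (2 / cα N q) * (U T / du N p V T)

/-- The factor in `v`. -/
def unitY (N p q : ℝ) (U V : ℝ → ℝ) (T : ℝ) : ℝ :=
  U T ^ Orbit.sig p q * (du N p V T / (U T * du N q U T))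

/-- The factor of the density. -/
def unitG (N q : ℝ) (U : ℝ → ℝ) (R : Rule) (T : ℝ) : ℝ :=
  U T ^ ((N + R.d) / cα N q) * (1 / (U T * du N q U T))

theorem continuous_xi_rule (R : Rule) {c : ℝ} : Continuous fun x : ℝ => R.w₀ + R.b₀ * (1 - x / c) := by
  fun_prop

namespace Setting

variable (s : Setting N p q T₁ T₀ U V) (R : Rule)
include s

theorem cont_rpow {k : ℝ} : ContinuousOn (fun x => V x ^ k) (Ioi T₁) :=
  s.orbit.cont_v.continuousOn.rpow_const fun x hx => Or.inl (s.V_pos (le_of_lt hx)).ne'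

theorem continuousOn_oR : ContinuousOn (oR N p U V R) (Ioi T₁) :=
  (continuous_xi_rule R).comp_continuousOn s.continuousOn_xi

theorem differentiableAt_w (hT : T₁ < T) : DifferentiableAt ℝ (oR N p U V R) T :=
  (s.hasDerivAt_w R hT).differentiableAt

theorem cert_smooth : (cert N p q T₁ T₀ U V R).SmoothPos := by
  have h2u : ContDiffOn ℝ 1 (du N p V) (Ioi T₁) :=
    (((s.orbit.smooth_u 2).deriv_of_isOpen isOpen_Ioi (by norm_num)).neg).congr fun x hx => by
      simp [s.deriv_u_eq (show T₁ < x from hx)]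
  have h2v : ContDiffOn ℝ 1 (du N q U) (Ioi T₁) :=
    (((s.orbit.smooth_v 2).deriv_of_isOpen isOpen_Ioi (by norm_num)).neg).congr fun x hx => by
      simp [(s.orbit.deriv_v x (show T₁ < x from hx)).deriv]
  have hU : ContDiffOn ℝ 1 U (Ioi T₁) := s.orbit.smooth_u 1
  have hV : ContDiffOn ℝ 1 V (Ioi T₁) := s.orbit.smooth_v 1
  have hne : ∀ x ∈ Ioi T₁, du N p V x ≠ 0 := fun x hx => (s.u₁_pos (le_of_lt hx)).ne'
  have hUne : ∀ x ∈ Ioi T₁, U x ≠ 0 := fun x hx => (s.U_pos (le_of_lt hx)).ne'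
  have hX : ContDiffOn ℝ 1 (qX N p U V) (Ioi T₁) :=
    (((contDiff_const.mul contDiff_id).contDiffOn).mul h2u).div hU hUne
  have hR : ContDiffOn ℝ 1 (oR N p U V R) (Ioi T₁) :=
    contDiffOn_const.add (contDiffOn_const.mul (contDiffOn_const.sub (hX.div_const _)))
  have hVp : ContDiffOn ℝ 1 (fun x => V x ^ p) (Ioi T₁) :=
    hV.rpow_const_of_ne fun x hx => (s.V_pos (le_of_lt hx)).ne'
  have key : ∀ {f : ℝ → ℝ}, ContDiffOn ℝ 1 f (Ioi T₁) →
      ∀ m, ContDiffOn ℝ 1 (pull N p q T₁ T₀ U V m f) (Ioi 0) := fun {f} hf m =>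
    s.contDiffOn_pull (φ' := deriv f) (fun x hx =>
      ((hf.differentiableOn one_ne_zero).differentiableAt (Ioi_mem_nhds hx)).hasDerivAt)
      (hf.continuousOn_deriv_of_isOpen isOpen_Ioi le_rfl)
  have hG : ContDiffOn ℝ 1 (fG N p q U V R) (Ioi T₁) :=
    (contDiffOn_const.mul hU).sub ((((contDiff_const.mul contDiff_id).contDiffOn).mul hR).mul h2u)
  have hA : ContDiffOn ℝ 1 (fA N p q U V) (Ioi T₁) :=
    (((contDiffOn_const.mul hU).mul h2v).add ((contDiffOn_const.mul hV).mul h2u)).div (h2u.pow 2)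
      fun x hx => pow_ne_zero 2 (hne x hx)
  refine ⟨key hA _, key ?_ _, key ?_ _, key ?_ _, key (contDiffOn_const.mul hG) _⟩
  · exact (((contDiffOn_const.mul hR).mul h2v).neg).div (h2u.pow 2) fun x hx => pow_ne_zero 2 (hne x hx)
  · exact ((contDiffOn_const.mul (contDiffOn_const.sub hR)).neg).div h2u hne
  · exact (((contDiffOn_const.mul (((((contDiffOn_const.mul hU).mul h2v).add
      ((contDiffOn_const.mul hV).mul h2u)).sub
        ((((contDiff_const.mul contDiff_id).contDiffOn).mul h2u).mul h2v)).add (h2v.mul hG))).neg).div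
          h2u hne).add (hA.mul hVp)

theorem degree_eq : wt p q 0 = cα N q ∧ wt p q 1 = cα N p ∧
    Orbit.sig p q * p = 1 + 2 / cα N q ∧ q = Orbit.sig p q + 2 / cα N q := by
  have hp1 : p + 1 ≠ 0 := by linarith [s.p_pos]
  have hq1 : q + 1 ≠ 0 := by linarith [s.q_pos]
  have := s.N_pos.ne'
  have hc := s.critical
  refine ⟨s.wt_eq.1, s.wt_eq.2.1, ?_, ?_⟩ <;>
    · unfold Orbit.sig cα
      field_simp at hc ⊢
      first
        | linear_combination hc
        | linear_combination -hc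
        | linear_combination (q + 1) * hc
        | linear_combination -(q + 1) * hc

/-- The numbers of the certificate at `r` are those of the point, scaled. -/
theorem cert_num {r : ℝ} (hr : r ∈ Ioc 0 (rtop p q)) :
    (cert N p q T₁ T₀ U V R).num p q (N + R.d) r
      = (orbitPoint N p q U V R (τ N p q T₁ T₀ U V r)).num.scale 1
          (unitY N p q U V (τ N p q T₁ T₀ U V r)) (unitT N p q U V (τ N p q T₁ T₀ U V r))
          (unitG N q U R (τ N p q T₁ T₀ U V r)) := by
  obtain ⟨ha, hb, hsp, hq'⟩ := s.degree_eq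
  have hT := s.τ_mem hr
  have hratio : ratio p q U V (τ N p q T₁ T₀ U V r) = r :=
    (s.τ_spec ⟨hr.1, hr.2.trans_lt s.top_lt⟩).2
  set T := τ N p q T₁ T₀ U V r with hτ
  have h1 : T₁ < T := s.orbit.T₁_lt.trans_le hT
  have hU := s.U_pos h1.le
  have hu := (s.u₁_pos h1.le).ne'
  have hv := (s.v₁_pos h1.le).ne'
  have hV := s.V_pos h1.le
  have hα := s.α_pos.ne'
  have hN2 := s.sum_eq
  have eσ : cα N p = cα N q * Orbit.sig p q := by
    have : p + 1 ≠ 0 := by linarith [s.p_pos]
    have : q + 1 ≠ 0 := by linarith [s.q_pos]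
    unfold cα Orbit.sig; field_simp
  have hscale : (orbitPoint N p q U V R T).num.scale 1 (unitY N p q U V T) (unitT N p q U V T)
      (unitG N q U R T)
      = (orbitNum N p q U V R T).scale (U T) (U T ^ Orbit.sig p q) (U T ^ (2 / cα N q))
          (U T ^ ((N + R.d) / cα N q)) := by
    rw [orbitNum, Num.scale_scale]
    congr 1
    · field_simp
    · unfold unitY; ring
    · unfold unitT; ring
    · unfold unitG; ring
  rw [hscale]
  set J := orbitNum N p q U V R T
  have D0 := s.homD_pull hr (N + R.d - 4 - cα N q - cα N q) (s.hasDerivAt_fA R hT)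
  have D1 := s.homD_pull hr (N + R.d - 4 - cα N q - cα N q - cα N q) (s.hasDerivAt_fB R h1)
  have D2 := s.homD_pull hr (N + R.d - 4 - cα N q - cα N q - cα N p) (s.hasDerivAt_fC R h1)
  have D3 := s.homD_pull hr (N + R.d - 2 - cα N q) (s.hasDerivAt_fc R hT)
  have D4 := s.homD_pull hr (N + R.d - 2 - cα N p) (s.hasDerivAt_fd R h1)
  rw [← hτ] at D0 D1 D2 D3 D4
  -- powers of `U`
  have pw : ∀ {x : ℝ} (k : ℝ), x = k → U T ^ x = U T ^ k := fun k h => by rw [h]
  have e1 : U T ^ (1 : ℝ) = U T := Real.rpow_one _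
  have sq' : ∀ x : ℝ, (U T ^ x) ^ 2 = U T ^ (2 * x) := fun x => by
    rw [mul_comm, ← Real.rpow_natCast (U T ^ x) 2, ← Real.rpow_mul hU.le]; norm_num
  have sqU : U T ^ 2 = U T ^ (2 : ℝ) := (Real.rpow_natCast _ 2).symm.trans (by norm_num)
  have cuU : U T ^ 3 = U T ^ (3 : ℝ) := (Real.rpow_natCast _ 3).symm.trans (by norm_num)
  have quU : U T ^ 4 = U T ^ (4 : ℝ) := (Real.rpow_natCast _ 4).symm.trans (by norm_num)
  have g0 : ∀ (X x y : ℝ), x = y → X * U T ^ x = X * U T ^ y := fun X x y h => by rw [h]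
  have m1 : ∀ x : ℝ, U T * U T ^ x = U T ^ (1 + x) := fun x => by rw [Real.rpow_add hU, e1]
  -- the point
  have hpt : ∀ (m g φ φ' f f' : ℝ), f = g * φ → f' = g * (du N p V T / U T) * φ' →
      opu N p q U V T m f f' = g / U T * (orbitPoint N p q U V R T).pu m φ φ'
        ∧ opv N p q U V T m f f'
          = g * (du N p V T / (U T * du N q U T)) * (orbitPoint N p q U V R T).pv m φ φ' :=
    fun m g φ φ' f f' h h' => ⟨s.opu_eq R hT m g φ φ' f f' h h', s.opv_eq R hT m g φ φ' f f' h h'⟩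
  have hdim := s.dim_eq R (T := T)
  have dA := hpt (N + R.d - 4 - cα N q - cα N q) (U T * du N q U T / du N p V T ^ 2) (orbitPoint N p q U V R T).cA
    (orbitPoint N p q U V R T).dA (fA N p q U V T) _
    (by rw [s.fA_eq R hT]; simp only [orbitNum, Num.scale, Point.num]; field_simp)
    (show du N q U T / du N p V T * (orbitPoint N p q U V R T).dA = _ by field_simp)
  have dB := hpt (N + R.d - 4 - cα N q - cα N q - cα N q) (du N q U T / du N p V T ^ 2)
    (orbitPoint N p q U V R T).cB (orbitPoint N p q U V R T).dB (fB N p q U V R T) _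
    (by rw [s.fB_eq R h1]; simp only [orbitNum, Num.scale, Point.num]; field_simp)
    (show du N q U T / (du N p V T * U T) * (orbitPoint N p q U V R T).dB = _ by field_simp)
  have dC := hpt (N + R.d - 4 - cα N q - cα N q - cα N p) (1 / du N p V T)
    (orbitPoint N p q U V R T).cC (orbitPoint N p q U V R T).dC (fC N p U V R T) _
    (by rw [s.fC_eq R h1]; simp only [orbitNum, Num.scale, Point.num]; field_simp)
    (show 1 / U T * (orbitPoint N p q U V R T).dC = _ by field_simp)
  have dc := hpt (N + R.d - 2 - cα N q) (U T * du N q U T / du N p V T)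
    (orbitPoint N p q U V R T).cc (orbitPoint N p q U V R T).dc (fc N p q U V R T) _
    (by rw [s.fc_eq R hT]; simp only [orbitNum, Num.scale, Point.num]; field_simp)
    (show du N q U T * (orbitPoint N p q U V R T).dc = _ by field_simp)
  have dd := hpt (N + R.d - 2 - cα N p) (U T)
    ((orbitPoint N p q U V R T).M * (orbitPoint N p q U V R T).G)
    ((orbitPoint N p q U V R T).M * (orbitPoint N p q U V R T).dG) (fd N p q U V R T) _
    (by rw [s.fd_eq R h1]; simp only [orbitNum, Num.scale, Point.num]; field_simp)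
    (show du N p V T * ((orbitPoint N p q U V R T).M * (orbitPoint N p q U V R T).dG) = _ by field_simp)
  have jA : J.Au = opu N p q U V T (N + R.d - 4 - cα N q - cα N q) (fA N p q U V T)
        (du N q U T / du N p V T * (orbitPoint N p q U V R T).dA)
      ∧ J.Av = opv N p q U V T (N + R.d - 4 - cα N q - cα N q) (fA N p q U V T)
        (du N q U T / du N p V T * (orbitPoint N p q U V R T).dA) := by
    rw [dA.1, dA.2]
    simp only [J, orbitNum, Num.scale, Point.num, hdim]
    simp only [orbitPoint]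
    constructor <;> field_simp
  have jB : J.Bu = opu N p q U V T (N + R.d - 4 - cα N q - cα N q - cα N q) (fB N p q U V R T)
        (du N q U T / (du N p V T * U T) * (orbitPoint N p q U V R T).dB)
      ∧ J.Bv = opv N p q U V T (N + R.d - 4 - cα N q - cα N q - cα N q) (fB N p q U V R T)
        (du N q U T / (du N p V T * U T) * (orbitPoint N p q U V R T).dB) := by
    rw [dB.1, dB.2]
    simp only [J, orbitNum, Num.scale, Point.num, hdim]
    simp only [orbitPoint]
    constructor <;> field_simp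
  have jC : J.Cu = opu N p q U V T (N + R.d - 4 - cα N q - cα N q - cα N p) (fC N p U V R T)
        (1 / U T * (orbitPoint N p q U V R T).dC)
      ∧ J.Cv = opv N p q U V T (N + R.d - 4 - cα N q - cα N q - cα N p) (fC N p U V R T)
        (1 / U T * (orbitPoint N p q U V R T).dC) := by
    rw [dC.1, dC.2]
    simp only [J, orbitNum, Num.scale, Point.num, hdim]
    simp only [orbitPoint]
    constructor <;> field_simp
  have jc : J.cu = opu N p q U V T (N + R.d - 2 - cα N q) (fc N p q U V R T)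
        (du N q U T * (orbitPoint N p q U V R T).dc)
      ∧ J.cv = opv N p q U V T (N + R.d - 2 - cα N q) (fc N p q U V R T)
        (du N q U T * (orbitPoint N p q U V R T).dc) := by
    rw [dc.1, dc.2]
    simp only [J, orbitNum, Num.scale, Point.num, hdim]
    simp only [orbitPoint]
    constructor <;> field_simp
  have jd : J.du = opu N p q U V T (N + R.d - 2 - cα N p) (fd N p q U V R T)
        (du N p V T * ((orbitPoint N p q U V R T).M * (orbitPoint N p q U V R T).dG))
      ∧ J.dv = opv N p q U V T (N + R.d - 2 - cα N p) (fd N p q U V R T)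
        (du N p V T * ((orbitPoint N p q U V R T).M * (orbitPoint N p q U V R T).dG)) := by
    rw [dd.1, dd.2]
    simp only [J, orbitNum, Num.scale, Point.num, hdim]
    simp only [orbitPoint]
    constructor <;> field_simp
  have jP : J.P = V T ^ p ∧ J.Q = U T ^ q ∧ J.R = p * V T ^ (p - 1) := by
    rw [s.srcP_eq R h1, s.srcQ_eq R h1, s.srcR_eq R hT]
    simp only [J, orbitNum, Num.scale, Point.num]
    refine ⟨?_, ?_, ?_⟩ <;> field_simp
  have er : ∀ k : ℝ, r ^ k = V T ^ k / U T ^ (Orbit.sig p q * k) := fun k => by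
    rw [← hratio, ratio, Real.div_rpow hV.le (Real.rpow_nonneg hU.le _), ← Real.rpow_mul hU.le]
  simp only [Five.num, cert, ha, hb, s.pull_eq hr, ← hτ, D0.1, D0.2, D1.1, D1.2, D2.1, D2.2, D3.1,
    D3.2, D4.1, D4.2, Num.scale, Num.mk.injEq, ← jA.1, ← jA.2, ← jB.1, ← jB.2, ← jC.1, ← jC.2,
    ← jc.1, ← jc.2, ← jd.1, ← jd.2, jP.1, jP.2.1, jP.2.2, er,
    ← s.fA_eq R hT, ← s.fB_eq R h1, ← s.fC_eq R h1, ← s.fc_eq R hT, ← s.fd_eq R h1, J]
  simp only [sq', sqU, cuU, quU]
  refine ⟨?_, ?_, ?_, ?_, ?_, ?_, ?_, ?_, ?_, ?_, ?_, ?_, ?_, ?_, ?_, ?_, ?_, ?_⟩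
  case refine_16 =>
    rw [← Real.rpow_one_add' hU.le (by rw [← hsp]; exact (mul_pos (Orbit.sig_pos s.p_pos s.q_pos) s.p_pos).ne'),
      hsp]
  case refine_17 =>
    rw [← Real.rpow_add hU, ← hq', div_self (Real.rpow_pos_of_pos hU q).ne']
  case refine_18 =>
    rw [mul_sub, mul_one, hsp, Real.rpow_sub hU, Real.rpow_add hU, e1]
    field_simp
  all_goals
    simp only [m1, ← Real.rpow_add hU, ← Real.rpow_sub hU]
    refine g0 _ _ _ ?_
    try simp only [eσ]
    field_simp
    ring

theorem units_pos (hT : T₀ ≤ T) : 0 < unitT N p q U V T ∧ 0 < unitY N p q U V T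
    ∧ 0 < unitG N q U R T := by
  have h1 : T₁ < T := s.orbit.T₁_lt.trans_le hT
  have hU := s.U_pos h1.le; have hu := s.u₁_pos h1.le; have hv := s.v₁_pos h1.le
  exact ⟨by unfold unitT; positivity, by unfold unitY; positivity, by unfold unitG; positivity⟩

/-- The two ratios that control the flux. -/
theorem units_bound {r : ℝ} (hr : r ∈ Ioc 0 (rtop p q)) :
    let T := τ N p q T₁ T₀ U V r
    unitT N p q U V T / (orbitPoint N p q U V R T).W ≤ N * r
      ∧ (orbitPoint N p q U V R T).W / unitG N q U R T = U T ^ (-(R.d / cα N q)) / N := by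
  intro T
  obtain ⟨-, -, hsp, hq'⟩ := s.degree_eq
  have hT : T₀ ≤ T := s.τ_mem hr
  have h1 : T₁ < T := s.orbit.T₁_lt.trans_le hT
  have hratio : ratio p q U V T = r := (s.τ_spec ⟨hr.1, hr.2.trans_lt s.top_lt⟩).2
  have hU := s.U_pos h1.le; have hV := s.V_pos h1.le
  have hu := s.u₁_pos h1.le; have hv := s.v₁_pos h1.le
  have hN := s.N_pos; have hα := s.α_pos
  have hW : (orbitPoint N p q U V R T).W = U T ^ q / (N * du N q U T) := by
    rw [Point.W, s.dim_eq R, s.srcQ_eq R h1]
    field_simp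
  have hU2 := Real.rpow_pos_of_pos hU (2 / cα N q)
  have hUs := Real.rpow_pos_of_pos hU (Orbit.sig p q)
  have hUd := Real.rpow_pos_of_pos hU (R.d / cα N q)
  have eq' : U T ^ q = U T ^ Orbit.sig p q * U T ^ (2 / cα N q) := by
    rw [← Real.rpow_add hU, ← hq']
  refine ⟨?_, ?_⟩
  · rw [hW, unitT, eq', ← hratio, ratio,
      show U T ^ (2 / cα N q) * (U T / du N p V T)
        / (U T ^ Orbit.sig p q * U T ^ (2 / cα N q) / (N * du N q U T))
        = N * (U T * du N q U T / (U T ^ Orbit.sig p q * du N p V T)) by field_simp]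
    refine mul_le_mul_of_nonneg_left ?_ hN.le
    rw [div_le_div_iff₀ (by positivity) hUs]
    nlinarith [mul_le_mul_of_nonneg_left (s.uv_le hT) hUs.le]
  · have e : (N + R.d) / cα N q = q + 1 + R.d / cα N q := by
      rw [add_div]
      congr 1
      have : q + 1 ≠ 0 := by linarith [s.q_pos]
      unfold cα
      field_simp
    rw [hW, unitG, e, Real.rpow_add hU, Real.rpow_add hU, Real.rpow_one, Real.rpow_neg hU.le]
    have := Real.rpow_pos_of_pos hU q
    field_simp

/-- The divergence bound and the flux bound, in every dimension below `N`. -/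
theorem exists_pointwise {κ : ℝ} (hm : Margin N p q T₀ U V R κ) {M : ℝ} (hM : 0 < M) (hMN : M < N)
    {n : ℕ} (hn : 0 < n) :
    ∃ ε > 0, ∃ K, ∀ r ∈ Ioc 0 (rtop p q), 0 < (cert N p q T₁ T₀ U V R).A r ∧
      ∀ (X Y : Fin n → ℝ) (h : Fin n → Fin n → ℝ),
        let F := cert N p q T₁ T₀ U V R
        let P := F.A r * square (F.A r) (F.k₁ p q (N + R.d) r) (F.k₂ p q (N + R.d) r) X Y h
          + F.restAt M p q (N + R.d) r (inner2 X X) (inner2 X Y) (inner2 Y Y)
        let w := U (τ N p q T₁ T₀ U V r) ^ (-(R.d / cα N q))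
        ε * w ≤ P ∧ ∀ m : ℝ, 3 / 4 ≤ m → m ≤ 1 → ∀ i,
          |fluxVec (F.A r) (F.B r) (F.C r) (F.c r) (F.d r) (r ^ p) X Y h i|
            ≤ K * (√r * w ^ (1 - m)) * P ^ m := by
  have hN := s.N_pos
  have hδ : 0 < 1 / M - 1 / N := sub_pos.2 (one_div_lt_one_div_of_lt hM hMN)
  obtain ⟨ε, hε, K, hK, hn'⟩ := s.exists_normal R hm hδ
  set C := (n * K * (1 + 6 * (K / ε) + K ^ 2) + 6 * K ^ 2) * (3 * K)
  set E := max 1 ε⁻¹
  refine ⟨ε / N, div_pos hε hN, C * E * √N * max 1 N⁻¹, fun r hr => ?_⟩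
  set F := cert N p q T₁ T₀ U V R
  set T := τ N p q T₁ T₀ U V r
  have hT : T₀ ≤ T := s.τ_mem hr
  set O := orbitPoint N p q U V R T
  set y := unitY N p q U V T
  set t := unitT N p q U V T
  set g := unitG N q U R T
  obtain ⟨ht, hy, hg⟩ : 0 < t ∧ 0 < y ∧ 0 < g := s.units_pos R hT
  obtain ⟨hb1, hb2⟩ := s.units_bound R hr
  have hA0 := hε.trans_le (hn'.A_ge T hT)
  have hnum : F.num p q (N + R.d) r = O.num.scale 1 y t g := s.cert_num R hr
  have eA : F.A r = O.num.A * (t ^ 2 / g) := by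
    rw [show F.A r = (F.num p q (N + R.d) r).A from rfl, hnum]; simp [Num.scale]
  refine ⟨by rw [eA]; positivity, fun X Y h => ?_⟩
  intro F' P w
  have e1 : F.k₁ p q (N + R.d) r = O.num.k₁ * (t ^ 2 / g) := by
    rw [show F.k₁ p q (N + R.d) r = (F.num p q (N + R.d) r).k₁ from rfl, hnum]
    simp [Num.scale, Num.k₁]; ring
  have e2 : F.k₂ p q (N + R.d) r = O.num.k₂ * (y * t ^ 2 / g) := by
    rw [show F.k₂ p q (N + R.d) r = (F.num p q (N + R.d) r).k₂ from rfl, hnum]
    simp [Num.scale, Num.k₂]; ring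
  set X' : Fin n → ℝ := fun i => √t * X i
  set Y' : Fin n → ℝ := fun i => √t * y * Y i
  set h' : Fin n → Fin n → ℝ := fun i j => t * h i j
  have st : √t * √t = t := Real.mul_self_sqrt ht.le
  have iXX : inner2 X' X' = t * inner2 X X := by
    simp only [inner2, X', mul_sum]
    refine sum_congr rfl fun i _ => ?_
    linear_combination (X i * X i) * st
  have iXY : inner2 X' Y' = y * t * inner2 X Y := by
    simp only [inner2, X', Y', mul_sum]
    refine sum_congr rfl fun i _ => ?_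
    linear_combination (y * X i * Y i) * st
  have iYY : inner2 Y' Y' = y ^ 2 * t * inner2 Y Y := by
    simp only [inner2, Y', mul_sum]
    refine sum_congr rfl fun i _ => ?_
    linear_combination (y ^ 2 * Y i * Y i) * st
  have sXX : ∀ i j, dev (sym X' X') i j = t * dev (sym X X) i j := fun i j => by
    simp only [dev, trace_sym, iXX]
    simp only [sym, X']
    split_ifs <;> linear_combination (X i * X j) * st
  have sXY : ∀ i j, dev (sym X' Y') i j = y * t * dev (sym X Y) i j := fun i j => by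
    simp only [dev, trace_sym, iXY]
    simp only [sym, X', Y']
    split_ifs <;> linear_combination (y * (X i * Y j + Y i * X j) / 2) * st
  have hA' := hA0.ne'
  have eS : F.A r * square (F.A r) (F.k₁ p q (N + R.d) r) (F.k₂ p q (N + R.d) r) X Y h
      = O.num.A * square O.num.A O.num.k₁ O.num.k₂ X' Y' h' / g := by
    simp only [square, eA, e1, e2, sXX, sXY, h', mul_sum, sum_div]
    refine sum_congr rfl fun i _ => sum_congr rfl fun j _ => ?_
    field_simp
  -- the remainder
  set z : Fin 3 → ℝ := ![1, inner2 X' X', inner2 X' Y']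
  have eR : F.restAt M p q (N + R.d) r (inner2 X X) (inner2 X Y) (inner2 Y Y)
      = (O.num.quad M O.num.dv (-2 * O.num.dv) z
          + O.num.dv * (inner2 X' X' - 2 * inner2 X' Y' + inner2 Y' Y')
          + O.num.gap * (inner2 X' X' * inner2 Y' Y' - inner2 X' Y' ^ 2)) / g := by
    rw [F.restAt_eq M r (O.num.dv * (t / g)) (-2 * O.num.dv * (y * t / g)), F.quad_num, F.gap_num,
      F.lg_num, hnum, Num.gap_scale hA' one_ne_zero ht.ne' hg.ne']
    have hq := Num.quad_scale (J := O.num) hA' one_ne_zero hy.ne' ht.ne' hg.ne' hM.ne'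
      O.num.dv (-2 * O.num.dv) ![1, inner2 X X, inner2 X Y]
    simp only [one_pow, one_mul, Matrix.cons_val_zero, Matrix.cons_val_one, Matrix.cons_val] at hq
    rw [hq, show z = ![1, t * inner2 X X, y * t * inner2 X Y] by rw [← iXX, ← iXY]]
    simp only [Num.scale, iXX, iXY, iYY]
    field_simp
    ring
  have eflux : ∀ i, fluxVec (F.A r) (F.B r) (F.C r) (F.c r) (F.d r) (r ^ p) X Y h i
      = √t / g * fluxVec O.num.A O.num.B O.num.C O.num.c O.num.d O.num.P X' Y' h' i := fun i => by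
    have f2 : F.B r = (F.num p q (N + R.d) r).B := rfl
    have f3 : F.C r = (F.num p q (N + R.d) r).C := rfl
    have f4 : F.c r = (F.num p q (N + R.d) r).c := rfl
    have f5 : F.d r = (F.num p q (N + R.d) r).d := rfl
    have f6 : r ^ p = (F.num p q (N + R.d) r).P := rfl
    rw [eA, f2, f3, f4, f5, f6, hnum]
    simp only [fluxVec, Num.scale, iXX, X', Y', h', one_pow, one_mul, mul_add, mul_sum]
    congr 1
    · congr 1
      · refine sum_congr rfl fun j _ => ?_
        split_ifs <;> field_simp <;> simp only [Real.sq_sqrt ht.le] <;> ring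
      · field_simp
        linear_combination (-(O.num.B * inner2 X X * X i + O.num.C * y * inner2 X X * Y i)) * st
    · field_simp
      linear_combination (-(O.num.c * X i + O.num.d * y * Y i)) * st
  -- the bounds
  have hgap : 0 ≤ inner2 X' X' * inner2 Y' Y' - inner2 X' Y' ^ 2 := by
    have := sum_mul_sq_le_sq_mul_sq univ X' Y'
    simp only [inner2, ← pow_two]
    linarith
  have hlin : 0 ≤ inner2 X' X' - 2 * inner2 X' Y' + inner2 Y' Y' := by
    have e : inner2 X' X' - 2 * inner2 X' Y' + inner2 Y' Y' = ∑ k, (X' k - Y' k) ^ 2 := by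
      simp only [inner2, mul_sum, ← sum_sub_distrib, ← sum_add_distrib]
      exact sum_congr rfl fun k _ => by ring
    rw [e]; positivity
  have hquad : ε * (O.W + inner2 X' X' ^ 2 + inner2 X' Y' ^ 2)
      ≤ O.num.quad M O.num.dv (-2 * O.num.dv) z := by
    have h0 := hn'.form_ge T hT z
    have e : O.num.quad M O.num.dv (-2 * O.num.dv) z = O.num.quad N O.num.dv (-2 * O.num.dv) z
        + (1 / M - 1 / N) * O.num.lin z ^ 2 / O.num.A := by
      simp only [Num.quad]
      field_simp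
      ring
    rw [e]
    simpa [z] using h0
  have hSq := square_nonneg O.num.A O.num.k₁ O.num.k₂ X' Y' h'
  set G := O.W + inner2 X' X' ^ 2 + inner2 X' Y' ^ 2
    + (inner2 X' X' * inner2 Y' Y' - inner2 X' Y' ^ 2)
    + (inner2 X' X' - 2 * inner2 X' Y' + inner2 Y' Y')
    + square O.num.A O.num.k₁ O.num.k₂ X' Y' h'
  have hG : ε * G ≤ g * P := by
    have t1 := mul_le_mul_of_nonneg_right (hn'.gap_ge T hT) hgap
    have t2 := mul_le_mul_of_nonneg_right (hn'.lg_ge T hT) hlin
    have t3 := mul_le_mul_of_nonneg_right (hn'.A_ge T hT) hSq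
    simp only [P, F', eS, eR]
    rw [← add_div, mul_div_cancel₀ _ hg.ne']
    simp only [G]
    linarith
  have hW : 0 < O.W := hn'.W_pos T hT
  have hWG : O.W ≤ G := by
    have := sq_nonneg (inner2 X' X')
    have := sq_nonneg (inner2 X' Y')
    simp only [G]
    linarith
  have hWg : O.W / g = w / N := hb2
  have hPW : ε / N * w ≤ P := by
    calc ε / N * w = ε * O.W / g := by rw [mul_div_assoc, hWg]; ring
      _ ≤ ε * G / g := div_le_div_of_nonneg_right (mul_le_mul_of_nonneg_left hWG hε.le) hg.le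
      _ ≤ P := by rw [div_le_iff₀ hg]; linarith
  refine ⟨hPW, fun m hm hm1 i => ?_⟩
  have hG0 : 0 < G := hW.trans_le hWG
  have hw : 0 < w := Real.rpow_pos_of_pos (s.U_pos (s.orbit.T₁_lt.le.trans hT)) _
  have hP : 0 < P := (mul_pos (div_pos hε hN) hw).trans_le hPW
  have hGP : G ≤ E * (g * P) := by
    calc G ≤ ε⁻¹ * (g * P) := by rw [le_inv_mul_iff₀ hε]; exact hG
      _ ≤ E * (g * P) := mul_le_mul_of_nonneg_right (le_max_right _ _) (mul_pos hg hP).le
  have hf := flux_le hn hε hK (hn'.A_ge T hT) (hn'.A_le T hT) (hn'.B_le T hT) (hn'.C_le T hT)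
    (hn'.d_le T hT) (hn'.k₁_le T hT) (hn'.k₂_le T hT) (hn'.cd_le T hT) (hn'.P_le T hT) hW
    (hn'.W_le T hT) hm hm1 (h := h') (X := X') (Y := Y') hGP (hWG.trans hGP) i
  rw [eflux, abs_mul, abs_of_pos (div_pos (Real.sqrt_pos.2 ht) hg)]
  refine (mul_le_mul_of_nonneg_left hf (div_pos (Real.sqrt_pos.2 ht) hg).le).trans ?_
  have hE : (1 : ℝ) ≤ E := le_max_left _ _
  have hN1 : (1 : ℝ) ≤ max 1 N⁻¹ := le_max_left _ _
  have hC : 0 ≤ C := by
    have : 0 ≤ K := by linarith
    positivity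
  have key : √t / g * (O.W ^ (1 / 2 - m) * (g * P) ^ m) = √(t / O.W) * ((O.W / g) ^ (1 - m) * P ^ m) := by
    rw [Real.mul_rpow hg.le hP.le, Real.div_rpow hW.le hg.le, Real.sqrt_div ht.le,
      show (1 : ℝ) / 2 - m = (1 - m) - 1 / 2 by ring, Real.rpow_sub hW, ← Real.sqrt_eq_rpow,
      Real.rpow_sub hg 1 m, Real.rpow_one]
    have := (Real.rpow_pos_of_pos hg m).ne'
    have := (Real.sqrt_pos.2 hW).ne'
    field_simp
  have s1 : √(t / O.W) ≤ √N * √r := by
    rw [← Real.sqrt_mul hN.le]; exact Real.sqrt_le_sqrt hb1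
  have s2 : (O.W / g) ^ (1 - m) ≤ max 1 N⁻¹ * w ^ (1 - m) := by
    rw [hWg, div_eq_mul_inv, Real.mul_rpow hw.le (inv_nonneg.2 hN.le), mul_comm]
    refine mul_le_mul_of_nonneg_right ?_ (Real.rpow_nonneg hw.le _)
    calc N⁻¹ ^ (1 - m) ≤ max 1 N⁻¹ ^ (1 - m) :=
          Real.rpow_le_rpow (inv_nonneg.2 hN.le) (le_max_right _ _) (by linarith)
      _ ≤ max 1 N⁻¹ ^ (1 : ℝ) := Real.rpow_le_rpow_of_exponent_le hN1 (by linarith)
      _ = max 1 N⁻¹ := Real.rpow_one _
  have s3 : (E * (g * P)) ^ m ≤ E * (g * P) ^ m := by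
    rw [Real.mul_rpow (zero_le_one.trans hE) (mul_pos hg hP).le]
    refine mul_le_mul_of_nonneg_right ?_ (Real.rpow_nonneg (mul_pos hg hP).le _)
    exact (Real.rpow_le_rpow_of_exponent_le hE hm1).trans_eq (Real.rpow_one _)
  calc √t / g * (C * (O.W ^ (1 / 2 - m) * (E * (g * P)) ^ m))
      ≤ √t / g * (C * (O.W ^ (1 / 2 - m) * (E * (g * P) ^ m))) := by gcongr
    _ = C * E * (√t / g * (O.W ^ (1 / 2 - m) * (g * P) ^ m)) := by ring
    _ = C * E * (√(t / O.W) * ((O.W / g) ^ (1 - m) * P ^ m)) := by rw [key]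
    _ ≤ C * E * (√N * √r * (max 1 N⁻¹ * w ^ (1 - m) * P ^ m)) := by gcongr
    _ = _ := by ring

end Setting

end

end Vale.Agent.P100.OrbitCert
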