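import Vale.Agent.P100.OrbitCert.Data

/-!
# P100: the five coefficient functions along the orbit

Their values and derivatives are those of the normalised point, scaled.
-/

namespace Vale.Agent.P100.OrbitCert

open Filter Set Topology Orbit

noncomputable section

variable {N p q T₁ T₀ T : ℝ} {U V : ℝ → ℝ}

/-- `A`. -/
def fA (N p q : ℝ) (U V : ℝ → ℝ) (T : ℝ) : ℝ :=
  (cα N q * U T * du N q U T + cα N p * V T * du N p V T) / du N p V T ^ 2

/-- `B`. -/
def fB (N p q : ℝ) (U V : ℝ → ℝ) (R : Rule) (T : ℝ) : ℝ :=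
  -((N - 1) * oR N p U V R T * du N q U T) / du N p V T ^ 2

/-- `C`. -/
def fC (N p : ℝ) (U V : ℝ → ℝ) (R : Rule) (T : ℝ) : ℝ :=
  -((N - 1) * (1 - oR N p U V R T)) / du N p V T

/-- The coefficient of `∇v` over `N - 1`. -/
def fG (N p q : ℝ) (U V : ℝ → ℝ) (R : Rule) (T : ℝ) : ℝ :=
  cα N q * U T - 2 * T * oR N p U V R T * du N p V T

/-- The coefficient of `∇v`. -/
def fd (N p q : ℝ) (U V : ℝ → ℝ) (R : Rule) (T : ℝ) : ℝ := (N - 1) * fG N p q U V R T

/-- The coefficient of `∇u`. -/
def fc (N p q : ℝ) (U V : ℝ → ℝ) (R : Rule) (T : ℝ) : ℝ :=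
  -((N - 1) * (cα N q * U T * du N q U T + cα N p * V T * du N p V T
      - 2 * T * du N p V T * du N q U T + du N q U T * fG N p q U V R T)) / du N p V T
    + fA N p q U V T * V T ^ p

/-- The numbers at time `T`. -/
def orbitNum (N p q : ℝ) (U V : ℝ → ℝ) (R : Rule) (T : ℝ) : Num :=
  (orbitPoint N p q U V R T).num.scale (1 / U T) (du N p V T / (U T * du N q U T))
    (U T / du N p V T) (1 / (U T * du N q U T))

/-- The derivative in `u` at the orbit, from the derivative along it. -/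
def opu (N p q : ℝ) (U V : ℝ → ℝ) (T m f f' : ℝ) : ℝ :=
  (m * f * du N q U T + cα N p * V T * f')
    / (cα N q * U T * du N q U T - cα N p * V T * du N p V T)

/-- The derivative in `v` at the orbit, from the derivative along it. -/
def opv (N p q : ℝ) (U V : ℝ → ℝ) (T m f f' : ℝ) : ℝ :=
  -(cα N q * U T * f' + m * f * du N p V T)
    / (cα N q * U T * du N q U T - cα N p * V T * du N p V T)

namespace Setting

variable (s : Setting N p q T₁ T₀ U V) (R : Rule)
include s

theorem deriv_u₁ (hT : T₁ < T) : deriv (du N p V) T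
    = -(N * oW N p q U V T * du N p V T ^ 2) / (cα N q * U T) := by
  have := (s.U_pos hT.le).ne'; have := (s.u₁_pos hT.le).ne'
  have := s.N_pos.ne'; have := s.α_pos.ne'
  unfold oW
  field_simp

theorem deriv_v₁ (hT : T₁ < T) : deriv (du N q U) T
    = -(N * du N p V T * du N q U T * (1 - oZ N p q U V T)) / (cα N q * U T) := by
  have := (s.U_pos hT.le).ne'; have := (s.u₁_pos hT.le).ne'; have := (s.v₁_pos hT.le).ne'
  have := s.N_pos.ne'; have := s.α_pos.ne'
  have h := s.second_relation hT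
  unfold oZ
  field_simp
  linear_combination h

theorem dim_eq : (orbitPoint N p q U V R T).dim = N := by
  simp only [Point.dim, orbitPoint]; linarith [s.sum_eq]

theorem M_eq : (orbitPoint N p q U V R T).M = N - 1 := by
  simp only [Point.M, orbitPoint]; linarith [s.sum_eq]

theorem hasDerivAt_w (hT : T₁ < T) : HasDerivAt (oR N p U V R)
    ((orbitPoint N p q U V R T).Dw * (du N p V T / U T)) T := by
  have hU := (s.U_pos hT.le).ne'
  have hα := s.α_pos.ne'
  have hu := (s.orbit.deriv_du_u T hT).hasDerivAt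
  rw [s.deriv_u₁ hT] at hu
  have h := ((((((hasDerivAt_id T).const_mul 2).mul hu).div (s.orbit.deriv_u T hT) hU).div_const
    (N - 2)).const_sub 1 |>.const_mul R.b₀).const_add R.w₀
  refine h.congr_deriv ?_
  simp only [orbitPoint, id_eq, Pi.mul_apply, mul_one, qX]
  have : N - 2 ≠ 0 := by linarith [s.two_lt]
  field_simp
  ring

theorem fA_eq (hT : T₀ ≤ T) : fA N p q U V T = (orbitNum N p q U V R T).A := by
  have h1 : T₁ < T := s.orbit.T₁_lt.trans_le hT
  have := (s.U_pos h1.le).ne'; have := (s.u₁_pos h1.le).ne'; have := (s.v₁_pos h1.le).ne'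
  have hw := (s.w₁_pos hT).ne'; have := s.β_pos.ne'
  simp only [orbitNum, Num.scale, Point.num, fA, Point.cA, Point.val, s.val_eq R hT, orbitPoint] at *
  field_simp

theorem hasDerivAt_fA (hT : T₀ ≤ T) : HasDerivAt (fA N p q U V)
    (du N q U T / du N p V T * (orbitPoint N p q U V R T).dA) T := by
  have h1 : T₁ < T := s.orbit.T₁_lt.trans_le hT
  have := (s.U_pos h1.le).ne'; have := (s.u₁_pos h1.le).ne'; have := (s.v₁_pos h1.le).ne'
  have hw := (s.w₁_pos hT).ne'; have := s.α_pos.ne'; have := s.β_pos.ne'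
  have hu := (s.orbit.deriv_du_u T h1).hasDerivAt
  have hv := (s.orbit.deriv_du_v T h1).hasDerivAt
  have hV := s.val_eq R hT
  have hS := s.sum_eq
  rw [s.deriv_u₁ h1] at hu
  rw [s.deriv_v₁ h1] at hv
  refine ((((s.orbit.deriv_u T h1).const_mul (cα N q)).mul hv).add
    (((s.orbit.deriv_v T h1).const_mul (cα N p)).mul hu) |>.div (hu.fun_pow 2) (by positivity)).congr_deriv ?_
  simp only [Point.dA, Point.e, s.dim_eq R, Pi.add_apply, Pi.mul_apply]
  simp only [Point.val, orbitPoint] at hV ⊢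
  rw [hV]
  have hN : N = cα N q + cα N p + 2 := by linarith
  field_simp
  simp only [Nat.cast_ofNat, show (2 : ℕ) - 1 = 1 from rfl, pow_one]
  linear_combination (du N p V T) * hN

theorem fB_eq (hT : T₁ < T) : fB N p q U V R T = (orbitNum N p q U V R T).B := by
  have := (s.U_pos hT.le).ne'; have := (s.u₁_pos hT.le).ne'; have := (s.v₁_pos hT.le).ne'
  simp only [orbitNum, Num.scale, Point.num, fB, Point.cB, s.M_eq R]
  simp only [orbitPoint]
  field_simp

theorem hasDerivAt_fB (hT : T₁ < T) : HasDerivAt (fB N p q U V R)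
    (du N q U T / (du N p V T * U T) * (orbitPoint N p q U V R T).dB) T := by
  have := (s.U_pos hT.le).ne'; have := (s.u₁_pos hT.le).ne'; have := (s.v₁_pos hT.le).ne'
  have := s.α_pos.ne'
  have hu := (s.orbit.deriv_du_u T hT).hasDerivAt
  have hv := (s.orbit.deriv_du_v T hT).hasDerivAt
  rw [s.deriv_u₁ hT] at hu
  rw [s.deriv_v₁ hT] at hv
  refine (((s.hasDerivAt_w R hT).const_mul (N - 1)).mul hv |>.neg.div (hu.fun_pow 2)
    (by positivity)).congr_deriv ?_
  simp only [Point.dB, Point.a₁, Point.b₁, s.dim_eq R, s.M_eq R, Pi.neg_apply, Pi.mul_apply]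
  simp only [orbitPoint]
  field_simp
  simp only [Nat.cast_ofNat, show (2 : ℕ) - 1 = 1 from rfl, pow_one]
  ring

theorem fC_eq (hT : T₁ < T) : fC N p U V R T = (orbitNum N p q U V R T).C := by
  have := (s.U_pos hT.le).ne'; have := (s.u₁_pos hT.le).ne'; have := (s.v₁_pos hT.le).ne'
  simp only [orbitNum, Num.scale, Point.num, fC, Point.cC, s.M_eq R]
  simp only [orbitPoint]
  field_simp

theorem hasDerivAt_fC (hT : T₁ < T) : HasDerivAt (fC N p U V R)
    (1 / U T * (orbitPoint N p q U V R T).dC) T := by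
  have := (s.U_pos hT.le).ne'; have := (s.u₁_pos hT.le).ne'
  have := s.α_pos.ne'
  have hu := (s.orbit.deriv_du_u T hT).hasDerivAt
  rw [s.deriv_u₁ hT] at hu
  refine (((s.hasDerivAt_w R hT).const_sub 1).const_mul (N - 1) |>.neg.div hu (by positivity)).congr_deriv ?_
  simp only [Point.dC, Point.a₁, s.dim_eq R, s.M_eq R, Pi.neg_apply]
  simp only [orbitPoint]
  field_simp
  ring

theorem hasDerivAt_fG (hT : T₁ < T) : HasDerivAt (fG N p q U V R)
    (du N p V T * (orbitPoint N p q U V R T).dG) T := by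
  have := (s.U_pos hT.le).ne'
  have := s.α_pos.ne'
  have hu := (s.orbit.deriv_du_u T hT).hasDerivAt
  rw [s.deriv_u₁ hT] at hu
  refine (((s.orbit.deriv_u T hT).const_mul (cα N q)).sub
    ((((hasDerivAt_id T).const_mul 2).mul (s.hasDerivAt_w R hT)).mul hu)).congr_deriv ?_
  simp only [Point.dG, Point.a₁, s.dim_eq R, Pi.mul_apply]
  simp only [orbitPoint, qX, id_eq]
  field_simp
  ring

theorem fd_eq (hT : T₁ < T) : fd N p q U V R T = (orbitNum N p q U V R T).d := by
  have := (s.U_pos hT.le).ne'; have := (s.u₁_pos hT.le).ne'; have := (s.v₁_pos hT.le).ne'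
  simp only [orbitNum, Num.scale, Point.num, fd, fG, Point.G, s.M_eq R]
  simp only [orbitPoint, qX]
  field_simp

theorem hasDerivAt_fd (hT : T₁ < T) : HasDerivAt (fd N p q U V R)
    (du N p V T * ((orbitPoint N p q U V R T).M * (orbitPoint N p q U V R T).dG)) T := by
  refine ((s.hasDerivAt_fG R hT).const_mul (N - 1)).congr_deriv ?_
  rw [s.M_eq R]
  ring

theorem srcP_eq (hT : T₁ < T) : V T ^ p = du N p V T * (orbitPoint N p q U V R T).srcP := by
  have := (s.U_pos hT.le).ne'; have := s.α_pos.ne'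
  rw [s.ode_u hT, s.deriv_u₁ hT]
  simp only [Point.srcP, s.dim_eq R]
  simp only [orbitPoint, qX]
  field_simp
  ring

theorem srcQ_eq (hT : T₁ < T) : U T ^ q = du N q U T * (orbitPoint N p q U V R T).srcQ := by
  have := (s.U_pos hT.le).ne'; have := s.α_pos.ne'
  rw [s.ode_v hT, s.deriv_v₁ hT]
  simp only [Point.srcQ, s.dim_eq R]
  simp only [orbitPoint, qX]
  field_simp
  ring

theorem srcR_eq (hT : T₀ ≤ T) : p * V T ^ (p - 1)
    = du N p V T ^ 2 / (U T * du N q U T) * (orbitPoint N p q U V R T).srcR := by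
  have h1 : T₁ < T := s.orbit.T₁_lt.trans_le hT
  have := (s.U_pos h1.le).ne'; have hv := (s.V_pos h1.le).ne'
  have := (s.u₁_pos h1.le).ne'; have := (s.v₁_pos h1.le).ne'
  have hp : (orbitPoint N p q U V R T).dim / (orbitPoint N p q U V R T).β - 1 = p := by
    rw [s.dim_eq R]
    simp only [orbitPoint, cα]
    have := s.N_pos.ne'; have : p + 1 ≠ 0 := by linarith [s.p_pos]
    field_simp
    ring
  rw [Real.rpow_sub_one hv, s.srcP_eq R h1, Point.srcR, hp, s.val_eq R hT]
  field_simp

theorem fc_eq (hT : T₀ ≤ T) : fc N p q U V R T = (orbitNum N p q U V R T).c := by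
  have h1 : T₁ < T := s.orbit.T₁_lt.trans_le hT
  have := (s.U_pos h1.le).ne'; have := (s.u₁_pos h1.le).ne'; have := (s.v₁_pos h1.le).ne'
  have hw := (s.w₁_pos hT).ne'; have := s.β_pos.ne'
  have hV := s.val_eq R hT
  rw [fc, s.srcP_eq R h1, s.fA_eq R hT]
  simp only [orbitNum, Num.scale, Point.num, Point.cc, Point.pot, Point.G, fG, s.M_eq R]
  simp only [Point.cA, Point.val, orbitPoint, qX] at hV ⊢
  rw [hV]
  field_simp

theorem hasDerivAt_fc (hT : T₀ ≤ T) : HasDerivAt (fc N p q U V R)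
    (du N q U T * (orbitPoint N p q U V R T).dc) T := by
  have h1 : T₁ < T := s.orbit.T₁_lt.trans_le hT
  have := (s.U_pos h1.le).ne'; have hu0 := (s.u₁_pos h1.le).ne'; have := (s.v₁_pos h1.le).ne'
  have := s.α_pos.ne'; have := s.β_pos.ne'; have hw := (s.w₁_pos hT).ne'
  have hu := (s.orbit.deriv_du_u T h1).hasDerivAt
  have hv := (s.orbit.deriv_du_v T h1).hasDerivAt
  rw [s.deriv_u₁ h1] at hu
  rw [s.deriv_v₁ h1] at hv
  have hin := (((((s.orbit.deriv_u T h1).const_mul (cα N q)).mul hv).add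
    (((s.orbit.deriv_v T h1).const_mul (cα N p)).mul hu)).sub
    ((((hasDerivAt_id T).const_mul 2).mul hu).mul hv)).add (hv.mul (s.hasDerivAt_fG R h1))
  have hP := (s.orbit.deriv_v T h1).rpow_const (p := p) (Or.inl (s.V_pos h1.le).ne')
  refine ((hin.const_mul (N - 1)).neg.div hu hu0 |>.add ((s.hasDerivAt_fA R hT).mul hP)).congr_deriv ?_
  have hA : fA N p q U V T
      = U T * du N q U T / du N p V T ^ 2 * (orbitPoint N p q U V R T).cA := by
    rw [s.fA_eq R hT]
    simp only [orbitNum, Num.scale, Point.num]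
    field_simp
  have hR : -du N q U T * p * V T ^ (p - 1)
      = -du N q U T * (du N p V T ^ 2 / (U T * du N q U T) * (orbitPoint N p q U V R T).srcR) := by
    rw [mul_assoc, s.srcR_eq R hT]
  simp only [Pi.add_apply, Pi.mul_apply, Pi.sub_apply, Pi.neg_apply, id_eq]
  rw [hA, hR, s.srcP_eq R h1]
  have hV := s.val_eq R hT
  have hX := s.xi_eq h1
  simp only [Point.dc, Point.pot, Point.G, Point.dG, Point.a₁, Point.b₁, Point.srcQ, Point.srcP,
    s.M_eq R, s.dim_eq R]
  simp only [fG, Point.val, orbitPoint] at hV hX ⊢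
  rw [hV]
  generalize hr : (orbitPoint N p q U V R T).srcR = r
  generalize hA' : (orbitPoint N p q U V R T).dA = a
  generalize hc : (orbitPoint N p q U V R T).cA = c
  simp only [orbitPoint] at hr hA' hc
  rw [hr, hA', hc]
  have hb : cα N p = N - 2 - cα N q := by linarith [s.sum_eq]
  have hb0 : N - 2 - cα N q ≠ 0 := hb ▸ s.β_pos.ne'
  rw [hb]
  rw [hX]
  field_simp
  ring

theorem opu_eq (hT : T₀ ≤ T) (m g φ φ' f f' : ℝ) (hf : f = g * φ)
    (hf' : f' = g * (du N p V T / U T) * φ') :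
    opu N p q U V T m f f' = g / U T * (orbitPoint N p q U V R T).pu m φ φ' := by
  have h1 : T₁ < T := s.orbit.T₁_lt.trans_le hT
  have := (s.U_pos h1.le).ne'; have := (s.u₁_pos h1.le).ne'; have := (s.v₁_pos h1.le).ne'
  have := (s.w₁_pos hT).ne'; have := s.α_pos.ne'; have := s.β_pos.ne'
  have := (sub_pos.2 (s.ζ_lt hT)).ne'
  rw [(s.ok R hT).pu_eq, opu, hf, hf', s.val_eq R hT]
  simp only [Point.val, orbitPoint]
  field_simp

theorem opv_eq (hT : T₀ ≤ T) (m g φ φ' f f' : ℝ) (hf : f = g * φ)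
    (hf' : f' = g * (du N p V T / U T) * φ') :
    opv N p q U V T m f f'
      = g * (du N p V T / (U T * du N q U T)) * (orbitPoint N p q U V R T).pv m φ φ' := by
  have h1 : T₁ < T := s.orbit.T₁_lt.trans_le hT
  have := (s.U_pos h1.le).ne'; have := (s.u₁_pos h1.le).ne'; have := (s.v₁_pos h1.le).ne'
  have := (s.w₁_pos hT).ne'; have := s.α_pos.ne'; have := s.β_pos.ne'
  have := (sub_pos.2 (s.ζ_lt hT)).ne'
  rw [(s.ok R hT).pv_eq, opv, hf, hf', s.val_eq R hT]
  simp only [Point.val, orbitPoint]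
  field_simp

end Setting

end

end Vale.Agent.P100.OrbitCert
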