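import Vale.Agent.P100.OrbitCert.Export
import Vale.Agent.P100.Patch

/-!
# P100: the bounds on jets of the closed-form field
-/

namespace Vale.Agent.P100.OrbitCert

open Filter Set Topology Finset Orbit Vale.Agent.P098.Cone

noncomputable section

variable {N p q T₁ T₀ : ℝ} {U V : ℝ → ℝ} {n : ℕ}

/-- The coefficients of a five-function field. -/
def coef (p q D : ℝ) (F : Five) : Coef := family p q D F.fA F.fB F.fC

theorem coef_smooth {D : ℝ} {F : Five} (hF : F.SmoothPos) : (coef p q D F).Smooth := by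
  refine family_smooth_pos (fun w z => ?_) (fun a b c => ?_) (fun c => ?_)
  · fin_cases w <;> fin_cases z
    exacts [hF.A, contDiffOn_const, contDiffOn_const, contDiffOn_const]
  · fin_cases a <;> fin_cases b <;> fin_cases c
    exacts [hF.B, hF.C, contDiffOn_const, contDiffOn_const, contDiffOn_const, contDiffOn_const,
      contDiffOn_const, contDiffOn_const]
  · fin_cases c
    exacts [hF.c, hF.d]

theorem divergence_coef {D : ℝ} {F : Five} (hF : F.SmoothPos) (J : Vale.Agent.P100.Jet n) (hn : n ≠ 0)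
    (hJ : J.Admissible p q) (h1 : J.y 0 = 1) (hA : F.A (J.y 1) ≠ 0) :
    divergence p q (coef p q D F) J
      = F.A (J.y 1) * square (F.A (J.y 1)) (F.k₁ p q D (J.y 1)) (F.k₂ p q D (J.y 1)) (J.G 0) (J.G 1)
          (dev (J.H 0))
        + F.restAt n p q D (J.y 1) (inner2 (J.G 0) (J.G 0)) (inner2 (J.G 0) (J.G 1))
          (inner2 (J.G 1) (J.G 1)) := by
  have hfA : ∀ w z, ContDiffOn ℝ 1 (F.fA w z) (Set.Ioi 0) := fun w z => by
    fin_cases w <;> fin_cases z
    exacts [hF.A, contDiffOn_const, contDiffOn_const, contDiffOn_const]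
  have hfB : ∀ a b c, ContDiffOn ℝ 1 (F.fB a b c) (Set.Ioi 0) := fun a b c => by
    fin_cases a <;> fin_cases b <;> fin_cases c
    exacts [hF.B, hF.C, contDiffOn_const, contDiffOn_const, contDiffOn_const, contDiffOn_const,
      contDiffOn_const, contDiffOn_const]
  have hfC : ∀ c, ContDiffOn ℝ 1 (F.fC c) (Set.Ioi 0) := fun c => by
    fin_cases c
    exacts [hF.c, hF.d]
  rw [coef, divergence_eq J hn hJ (F.square p q D (J.y 1)) 0, vals_family_pos hfA hfB hfC hJ.pos h1]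
  have e5 := fun i j => F.form5_eq (p := p) (q := q) (D := D) hA (J.devH i j) (J.devG i j)
  have e4 := F.form4_eq (n := n) (p := p) (q := q) (D := D) hA hn J.dots
  simp only [Five.vals] at e5 e4
  simp only [e5, e4, zero_mul, add_zero, F.rest_eq hA hn]
  simp only [square, Jet.devH, Jet.devG, Jet.dots, pfst, psnd, mul_sum, Matrix.cons_val_zero,
    Matrix.cons_val_one, Matrix.cons_val]

theorem flux_coef {D : ℝ} (F : Five) (J : Vale.Agent.P100.Jet n) (hJ : J.Admissible p q)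
    (h1 : J.y 0 = 1) (i : Fin n) :
    flux (coef p q D F) J i = fluxVec (F.A (J.y 1)) (F.B (J.y 1)) (F.C (J.y 1)) (F.c (J.y 1))
      (F.d (J.y 1)) (J.y 1 ^ p) (J.G 0) (J.G 1) (dev (J.H 0)) i := by
  have et : ∀ j, dev (J.H 0) i j - (if i = j then J.y 1 ^ p / n else 0) = J.H 0 i j := fun j => by
    simp only [dev, hJ.trace 0, src, Matrix.cons_val_zero]
    split_ifs <;> ring
  simp only [flux, coef, family, homFun_one _ _ h1, Fin.sum_univ_two, fluxVec, et]
  simp [Five.fA, Five.fB, Five.fC]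

namespace Setting

variable (s : Setting N p q T₁ T₀ U V) (R : Rule)
include s

theorem pq_gt : 1 < p * q := s.wt_eq.2.2

/-- The bounds at every jet. -/
theorem exists_jet_bound {κ : ℝ} (hm : Margin N p q T₀ U V R κ) (hn : 0 < n) (hnN : (n : ℝ) < N) :
    ∃ ε > 0, ∃ K ≥ 0, ∀ J : Vale.Agent.P100.Jet n, J.Admissible p q →
      let r := J.y 1 / J.y 0 ^ Orbit.sig p q
      let w := U (τ N p q T₁ T₀ U V r) ^ (-(R.d / cα N q))
      r ∈ Ioc 0 (rtop p q)
        ∧ ε * (w * J.y 0 ^ ((N + R.d) / cα N q))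
          ≤ divergence p q (coef p q (N + R.d) (cert N p q T₁ T₀ U V R)) J
        ∧ ∀ m : ℝ, 3 / 4 ≤ m → m ≤ 1 → ∀ i,
          |flux (coef p q (N + R.d) (cert N p q T₁ T₀ U V R)) J i|
            ≤ K * (√r * w ^ (1 - m)) * J.y 0 ^ (((N + R.d) * (1 - m) - 1) / cα N q)
              * divergence p q (coef p q (N + R.d) (cert N p q T₁ T₀ U V R)) J ^ m := by
  obtain ⟨ε, hε, K, hK⟩ := s.exists_pointwise R hm (Nat.cast_pos.2 hn) hnN hn
  refine ⟨ε, hε, max K 0, le_max_right _ _, fun J hJ => ?_⟩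
  intro r w
  set F := cert N p q T₁ T₀ U V R
  set D := N + R.d with hD
  obtain ⟨hw0, -, hpq⟩ := s.wt_eq
  have hα := s.α_pos
  have hp := s.p_pos
  have hy0 := hJ.pos 0
  set l := J.y 0 ^ (cα N q)⁻¹ with hl'
  have hl : 0 < l := Real.rpow_pos_of_pos hy0 _
  have hl0 : l ^ cα N q = J.y 0 := Real.rpow_inv_rpow hy0.le hα.ne'
  have hlp : ∀ e : ℝ, l ^ e = J.y 0 ^ (e / cα N q) := fun e => by
    rw [hl', ← Real.rpow_mul hy0.le]; congr 1; ring
  set J1 := J.scale p q l⁻¹ with hJ1'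
  have hJ1 : J1.Admissible p q := hJ.scale hp hpq.ne' (inv_pos.2 hl)
  have hy1 : J1.y 0 = 1 := by
    show l⁻¹ ^ wt p q 0 * J.y 0 = 1
    rw [hw0, Real.inv_rpow hl.le, hl0, inv_mul_cancel₀ hy0.ne']
  have hr1 : J1.y 1 = r := by
    show l⁻¹ ^ wt p q 1 * J.y 1 = J.y 1 / J.y 0 ^ Orbit.sig p q
    have e : wt p q 1 = cα N q * Orbit.sig p q := by
      rw [wt_one hp, hw0]; rfl
    rw [e, Real.inv_rpow hl.le, Real.rpow_mul hl.le, hl0]
    ring
  have hr : r ∈ Ioc 0 (rtop p q) := by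
    refine ⟨div_pos (hJ.pos 1) (Real.rpow_pos_of_pos hy0 _), ?_⟩
    rw [div_le_iff₀ (Real.rpow_pos_of_pos hy0 _)]
    exact hJ.le
  obtain ⟨hA, hb⟩ := hK r hr
  obtain ⟨hlow, hflux⟩ := hb (J1.G 0) (J1.G 1) (dev (J1.H 0))
  have hKs := coef_smooth (p := p) (q := q) (D := D) (s.cert_smooth R)
  have hom : (coef p q D F).Homogeneous p q D := family_homogeneous hp hpq.ne' D _ _ _
  have e1 := divergence_coef (D := D) (s.cert_smooth R) J1 hn.ne' hJ1 hy1 (by rw [hr1]; exact hA.ne')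
  rw [hr1] at e1
  set P1 := divergence p q (coef p q D F) J1 with hP1
  rw [← e1] at hlow
  have hflux' : ∀ m : ℝ, 3 / 4 ≤ m → m ≤ 1 → ∀ i,
      |fluxVec (F.A r) (F.B r) (F.C r) (F.c r) (F.d r) (r ^ p) (J1.G 0) (J1.G 1) (dev (J1.H 0)) i|
        ≤ K * (√r * w ^ (1 - m)) * P1 ^ m := by
    rw [e1]; exact hflux
  have hdiv : divergence p q (coef p q D F) J = l ^ D * P1 := by
    rw [hP1, hJ1', divergence_scale hKs hom hpq.ne' (inv_pos.2 hl) hJ.pos, ← mul_assoc,
      Real.inv_rpow hl.le, mul_inv_cancel₀ (Real.rpow_pos_of_pos hl _).ne', one_mul]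
  refine ⟨hr, ?_, fun m h34 hm1 i => ?_⟩
  · rw [hdiv, hlp D, ← mul_assoc, mul_comm (J.y 0 ^ _)]
    exact mul_le_mul_of_nonneg_right hlow (Real.rpow_nonneg hy0.le _)
  · have hP0 : 0 ≤ P1 := by
      refine le_trans ?_ hlow
      exact mul_nonneg hε.le (Real.rpow_nonneg (s.U_pos (s.orbit.T₁_lt.le.trans (s.τ_mem hr))).le _)
    have h1 := hflux' m h34 hm1 i
    rw [← hr1] at h1
    rw [← flux_coef (D := D) F J1 hJ1 hy1 i, hr1] at h1
    have hfl : |flux (coef p q D F) J1 i| = l ^ (-(D - 1)) * |flux (coef p q D F) J i| := by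
      rw [hJ1', flux_scale hom (inv_pos.2 hl) hJ.pos, abs_mul,
        abs_of_pos (Real.rpow_pos_of_pos (inv_pos.2 hl) _), Real.inv_rpow hl.le,
        ← Real.rpow_neg hl.le]
    rw [hfl, Real.rpow_neg hl.le, inv_mul_le_iff₀ (Real.rpow_pos_of_pos hl _)] at h1
    refine h1.trans ?_
    have hK' : K * (√r * w ^ (1 - m)) * P1 ^ m ≤ max K 0 * (√r * w ^ (1 - m)) * P1 ^ m := by
      refine mul_le_mul_of_nonneg_right (mul_le_mul_of_nonneg_right (le_max_left _ _) ?_)
        (Real.rpow_nonneg hP0 _)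
      exact mul_nonneg (Real.sqrt_nonneg _) (Real.rpow_nonneg (Real.rpow_nonneg
        (s.U_pos (s.orbit.T₁_lt.le.trans (s.τ_mem hr))).le _) _)
    refine (mul_le_mul_of_nonneg_left hK' (Real.rpow_nonneg hl.le _)).trans (le_of_eq ?_)
    rw [hdiv, Real.mul_rpow (Real.rpow_nonneg hl.le _) hP0, ← Real.rpow_mul hl.le,
      ← hlp (D * (1 - m) - 1), show D - 1 = D * (1 - m) - 1 + D * m by ring, Real.rpow_add hl]
    ring

end Setting

end

end Vale.Agent.P100.OrbitCert
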