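import Vale.Agent.P100.OrbitCert.Glue
import Vale.Agent.P100.OrbitCert.Decay
import Vale.Agent.P100.Local.Cut
import Vale.Agent.P100.Local.Below
import Vale.Agent.P100.Local.Rescale

/-!
# P100: no solution below the critical dimension, from the three sign conditions on the orbit
-/

namespace Vale.Agent.P100.OrbitCert

open MeasureTheory Filter Set Topology Finset Orbit Vale.Agent.P098.Cone

noncomputable section

variable {N p q T₁ T₀ : ℝ} {U V : ℝ → ℝ} {n : ℕ}

namespace Setting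

variable (s : Setting N p q T₁ T₀ U V) (R : Rule)
include s

theorem U_bound : ∃ M > 0, ∀ T, T₀ ≤ T → U T ≤ M := by
  obtain ⟨M, hM⟩ := exists_bound_ray (f := U) (b := 0) (C := 1) (a := T₀)
    s.orbit.cont_u.continuousOn fun T hT => by
      have := s.ground.antitone_u s.two_lt s.p_pos le_rfl hT
      rwa [s.orbit.u_zero] at this
  exact ⟨M, (s.U_pos s.orbit.T₁_lt.le).trans_le (hM T₀ le_rfl), hM⟩

/-- The factor of the flux is bounded where `u ≤ C` and `u ≤ K v`. -/
theorem exists_factor_bound (hd0 : 0 < R.d) (hd : R.d * (N - 2) < cα N p * N) {C K : ℝ}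
    (hC : 0 < C) (hK : 0 < K) :
    ∃ Γ, 0 ≤ Γ ∧ ∀ u v : ℝ, 0 < u → 0 < v → u ≤ C → u ≤ K * v → ∀ T, T₀ ≤ T →
      v / u ^ Orbit.sig p q = ratio p q U V T →
      √(ratio p q U V T) * U T ^ (-(R.d / (cα N q * N))) * u ^ (R.d / (cα N q * N)) ≤ Γ := by
  have hα := s.α_pos
  have hN := s.N_pos
  set e := R.d / (cα N q * N) with he
  have he0 : 0 < e := by positivity
  rcases s.exists_weight_bound R hd0 hd with ⟨B, hB⟩ | ⟨B, hB⟩
  · have hσ : Orbit.sig p q < 1 := Orbit.sig_lt_one s.p_pos s.lt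
    refine ⟨√(rtop p q) * ((K * max B 1) ^ (1 / (1 - Orbit.sig p q))) ^ e, by positivity,
      fun u v hu hv _ huv T hT hr => ?_⟩
    have hU := s.U_pos (s.orbit.T₁_lt.le.trans hT)
    have hV := s.V_pos (s.orbit.T₁_lt.le.trans hT)
    set σ := Orbit.sig p q
    have hus := Real.rpow_pos_of_pos hu σ
    have hUs := Real.rpow_pos_of_pos hU σ
    have h1 : (u / U T) ^ (1 - σ) ≤ K * max B 1 := by
      have hv' : v = u ^ σ * (V T / U T ^ σ) := by
        rw [ratio] at hr
        rw [← hr, mul_div_cancel₀ _ hus.ne']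
      have h2 : V T ≤ max B 1 * U T :=
        (hB T hT).trans (mul_le_mul_of_nonneg_right (le_max_left _ _) hU.le)
      rw [Real.div_rpow hu.le hU.le, Real.rpow_sub hu, Real.rpow_sub hU, Real.rpow_one, Real.rpow_one,
        div_div_div_eq, div_le_iff₀ (by positivity)]
      rw [hv'] at huv
      have h3 : u * U T ^ σ ≤ K * u ^ σ * V T := by
        calc u * U T ^ σ ≤ K * (u ^ σ * (V T / U T ^ σ)) * U T ^ σ :=
              mul_le_mul_of_nonneg_right huv hUs.le
          _ = _ := by field_simp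
      refine h3.trans ((mul_le_mul_of_nonneg_left h2 (by positivity)).trans (le_of_eq ?_))
      ring
    have h4 : u / U T ≤ (K * max B 1) ^ (1 / (1 - σ)) := by
      refine le_trans (le_of_eq ?_) (Real.rpow_le_rpow (by positivity) h1
        (div_nonneg zero_le_one (by linarith)))
      rw [← Real.rpow_mul (by positivity), mul_one_div_cancel (by linarith), Real.rpow_one]
    rw [Real.rpow_neg hU.le, mul_assoc, ← div_eq_inv_mul, ← Real.div_rpow hu.le hU.le]
    exact mul_le_mul (Real.sqrt_le_sqrt (s.ratio_mem hT).2) (Real.rpow_le_rpow (by positivity) h4 he0.le)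
      (by positivity) (Real.sqrt_nonneg _)
  · refine ⟨√(max B 0) * C ^ e, by positivity, fun u v hu hv huC _ T hT _ => ?_⟩
    have hU := s.U_pos (s.orbit.T₁_lt.le.trans hT)
    have h1 : √(ratio p q U V T) * U T ^ (-e)
        = √(ratio p q U V T * U T ^ (-(2 * R.d / (cα N q * N)))) := by
      rw [Real.sqrt_mul (s.ratio_pos (s.orbit.T₁_lt.le.trans hT)).le]
      congr 1
      rw [Real.sqrt_eq_rpow, ← Real.rpow_mul hU.le]
      congr 1
      rw [he]; ring
    rw [h1]
    exact mul_le_mul (Real.sqrt_le_sqrt ((hB T hT).trans (le_max_left _ _)))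
      (Real.rpow_le_rpow hu.le huC he0.le) (Real.rpow_nonneg hu.le _) (Real.sqrt_nonneg _)

end Setting

/-- No positive solution in a dimension `n < N`, from the sign conditions along the critical orbit. -/
theorem false_of_margin {u v : (Fin n → ℝ) → ℝ} (h : Sol p q u v) (hn : 5 ≤ n) (hnN : (n : ℝ) < N)
    (s : Setting N p q T₁ T₀ U V) (R : Rule) (hd0 : 0 < R.d) (hd : R.d * (N - 2) < cα N p * N)
    {κ : ℝ} (hm : Margin N p q T₀ U V R κ) : False := by
  obtain ⟨hw0, hw1, hpq⟩ := s.wt_eq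
  have hp := s.p_pos; have hq := s.q_pos; have hqp := s.lt.le
  have hα := s.α_pos; have hβ := s.β_pos
  have hn5 : (5 : ℝ) ≤ n := by exact_mod_cast hn
  have hN : 0 < N := s.N_pos
  have hn3 : 3 ≤ n := by omega
  obtain ⟨ε, hε, K₀, hK₀, hjet⟩ := s.exists_jet_bound R hm (by omega : 0 < n) hnN
  set F := cert N p q T₁ T₀ U V R
  set Kc := coef p q (N + R.d) F
  have hKs : Kc.Smooth := coef_smooth (s.cert_smooth R)
  -- constants of the rescaled solutions
  set c := (1 + ell p q ^ (wt p q 1)⁻¹) ^ (-wt p q 0)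
  have hc : 0 < c := Real.rpow_pos_of_pos (by have := ell_pos hp hq; positivity) _
  set C := max ((2 : ℝ) ^ wt p q 0) ((2 : ℝ) ^ wt p q 1) with hCdef
  have hC : 0 < C := lt_max_of_lt_left (Real.rpow_pos_of_pos two_pos _)
  obtain ⟨Kv, hKv, hbelow⟩ := Local.exists_below (n := n) hn3 hq hqp hc hC
  obtain ⟨Γ, hΓ0, hΓ⟩ := s.exists_factor_bound R hd0 hd hC hKv
  obtain ⟨Mu, hMu, hUle⟩ := s.U_bound
  obtain ⟨A, hA0, hcut⟩ := Local.exists_local_estimate (n := n) hn hnN.le
  set w₀ := Mu ^ (-(R.d / cα N q))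
  have hw₀ : 0 < w₀ := Real.rpow_pos_of_pos hMu _
  obtain ⟨J₀, hJ₀, htest⟩ := Local.exists_test (n := n) (q := q) hp hn3 hc hC
    (show 0 < (N + R.d) / cα N q by positivity) (mul_pos hε hw₀)
  -- the radius
  set E := A * (K₀ * Γ) ^ N
  obtain ⟨ρ, hρE, hρ1⟩ : ∃ ρ : ℝ, E * ρ ^ ((n : ℝ) - N) < J₀ ∧ 1 ≤ ρ := by
    have ht : Tendsto (fun ρ : ℝ => E * ρ ^ ((n : ℝ) - N)) atTop (𝓝 0) := by
      have := (tendsto_rpow_neg_atTop (show 0 < N - n by linarith)).const_mul E
      rw [mul_zero, show -(N - (n : ℝ)) = n - N by ring] at this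
      exact this
    exact ((ht.eventually_lt_const hJ₀).and (eventually_ge_atTop 1)).exists
  obtain ⟨L₀, hL₀, hbel⟩ := hbelow (2 * ρ) (by linarith)
  set L := max L₀ (2 * ρ)
  have hL1 : 1 ≤ L := le_trans (by linarith) (le_max_right _ _)
  obtain ⟨u', v', b, h', hub, hball⟩ := Local.exists_doubled h hn3 hq hqp hpq L
  have hu : ∀ x, sqr (x - b) ≤ L ^ 2 → u' x ≤ C := fun x hx => (hball x hx).1.trans (le_max_left _ _)
  have hv : ∀ x, sqr (x - b) ≤ L ^ 2 → v' x ≤ C := fun x hx => (hball x hx).2.trans (le_max_right _ _)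
  have h1L : ∀ x, sqr (x - b) ≤ 1 → sqr (x - b) ≤ L ^ 2 := fun x hx => hx.trans (one_le_pow₀ hL1)
  have huv := hbel u' v' b L h' (le_max_left _ _) hub hu hv
  obtain ⟨g, hg, hgs, hgle, hgJ⟩ := htest u' v' b h' hub (fun x hx => hu x (h1L x hx))
    (fun x hx => hv x (h1L x hx))
  have hle := fun x => h'.compare hn3 hq hqp x
  have hadm : ∀ x, x ≠ 0 → (jetAt u' v' x).Admissible p q := fun x hx => admissible_jetAt h' hle hx
  set P := fun x => divergence p q Kc (jetAt u' v' x)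
  set X := fun i x => flux Kc (jetAt u' v' x) i
  have hrmem : ∀ x, v' x / u' x ^ Orbit.sig p q ∈ Ioc 0 (rtop p q) := fun x =>
    ⟨div_pos (h'.pos_v x) (Real.rpow_pos_of_pos (h'.pos_u x) _), by
      rw [div_le_iff₀ (Real.rpow_pos_of_pos (h'.pos_u x) _)]
      exact hle x⟩
  set ω := fun x => U (τ N p q T₁ T₀ U V (v' x / u' x ^ Orbit.sig p q))
  have hω : ∀ x, 0 < ω x := fun x =>
    s.U_pos (s.orbit.T₁_lt.le.trans (s.τ_mem (hrmem x)))
  have hlow : ∀ x, x ≠ 0 → ε * w₀ * u' x ^ ((N + R.d) / cα N q) ≤ P x := fun x hx => by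
    obtain ⟨-, h2, -⟩ := hjet _ (hadm x hx)
    refine le_trans ?_ h2
    rw [mul_assoc]
    refine mul_le_mul_of_nonneg_left ?_ hε.le
    refine mul_le_mul_of_nonneg_right ?_ (Real.rpow_nonneg (h'.pos_u x).le _)
    exact Real.rpow_le_rpow_of_nonpos (hω x) (hUle _ (s.τ_mem (hrmem x)))
      (neg_nonpos.2 (div_nonneg hd0.le hα.le))
  have hP : ∀ x, x ≠ 0 → 0 < P x := fun x hx =>
    (mul_pos (mul_pos hε hw₀) (Real.rpow_pos_of_pos (h'.pos_u x) _)).trans_le (hlow x hx)
  have hflux : ∀ x, x ≠ 0 → ∀ m : ℝ, 3 / 4 ≤ m → m ≤ 1 → ∀ i,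
      |X i x| ≤ K₀ * (√(v' x / u' x ^ Orbit.sig p q) * ω x ^ (-(R.d / cα N q) * (1 - m))
        * u' x ^ (((N + R.d) * (1 - m) - 1) / cα N q)) * P x ^ m := fun x hx m h1 h2 i => by
    obtain ⟨-, -, h3⟩ := hjet _ (hadm x hx)
    refine (h3 m h1 h2 i).trans (le_of_eq ?_)
    show K₀ * (√(v' x / u' x ^ Orbit.sig p q) * (ω x ^ (-(R.d / cα N q))) ^ (1 - m))
        * u' x ^ (((N + R.d) * (1 - m) - 1) / cα N q) * P x ^ m = _
    rw [← Real.rpow_mul (hω x).le]
    ring
  have hfar : ∀ x, x ≠ 0 → sqr (x - b) ≤ 2 * ρ ^ 2 → ∀ i,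
      |X i x| ≤ K₀ * Γ * P x ^ (1 - 1 / N) := fun x hx hxb i => by
    have hm34 : 3 / 4 ≤ 1 - 1 / N := by
      have : 1 / N ≤ 1 / 4 := one_div_le_one_div_of_le (by norm_num) (by linarith)
      linarith
    refine (hflux x hx _ hm34 (sub_le_self _ (by positivity)) i).trans ?_
    refine mul_le_mul_of_nonneg_right (mul_le_mul_of_nonneg_left ?_ hK₀)
      (Real.rpow_nonneg (hP x hx).le _)
    have hxρ : sqr (x - b) ≤ (2 * ρ) ^ 2 := hxb.trans (by nlinarith)
    have hxL : sqr (x - b) ≤ L ^ 2 :=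
      hxρ.trans (pow_le_pow_left₀ (by linarith) (le_max_right _ _) 2)
    have hτ := (s.τ_spec ⟨(hrmem x).1, (hrmem x).2.trans_lt s.top_lt⟩).2
    have h4 := hΓ (u' x) (v' x) (h'.pos_u x) (h'.pos_v x) (hu x hxL) (huv x hxρ) _
      (s.τ_mem (hrmem x)) hτ.symm
    rw [hτ] at h4
    refine le_trans (le_of_eq ?_) h4
    show √(v' x / u' x ^ Orbit.sig p q) * ω x ^ (-(R.d / cα N q) * (1 - (1 - 1 / N)))
        * u' x ^ (((N + R.d) * (1 - (1 - 1 / N)) - 1) / cα N q) = _
    congr 2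
    · congr 1
      field_simp
      ring
    · field_simp
      ring
  have hnear : ∃ C', ∀ x, x ≠ 0 → sqr x ≤ 4 → ∀ i, |X i x| ≤ C' * P x ^ (1 - 1 / (4 : ℝ)) := by
    set Φ := fun x => √(v' x / u' x ^ Orbit.sig p q) * ω x ^ (-(R.d / cα N q) * (1 - 3 / 4))
        * u' x ^ (((N + R.d) * (1 - 3 / 4) - 1) / cα N q)
    have hrc : Continuous fun x => v' x / u' x ^ Orbit.sig p q :=
      h'.cont_v.div (h'.cont_u.rpow_const fun x => Or.inl (h'.pos_u x).ne')
        fun x => (Real.rpow_pos_of_pos (h'.pos_u x) _).ne'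
    have hωc : Continuous ω := by
      refine s.orbit.cont_u.comp (continuous_iff_continuousAt.2 fun x => ?_)
      exact (s.continuousAt_τ ⟨(hrmem x).1, (hrmem x).2.trans_lt s.top_lt⟩).comp
        (f := fun x => v' x / u' x ^ Orbit.sig p q) hrc.continuousAt
    have hΦ : Continuous Φ := ((Real.continuous_sqrt.comp hrc).mul
      (hωc.rpow_const fun x => Or.inl (hω x).ne')).mul
        (h'.cont_u.rpow_const fun x => Or.inl (h'.pos_u x).ne')
    obtain ⟨B, hB⟩ := (isCompact_Icc (a := fun _ : Fin n => -(2 : ℝ)) (b := fun _ => 2)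
      ).exists_bound_of_continuousOn hΦ.continuousOn
    refine ⟨K₀ * B, fun x hx hx4 i => ?_⟩
    refine (hflux x hx (1 - 1 / (4 : ℝ)) (by norm_num) (by norm_num) i).trans ?_
    refine mul_le_mul_of_nonneg_right (mul_le_mul_of_nonneg_left ?_ hK₀)
      (Real.rpow_nonneg (hP x hx).le _)
    have h5 := (le_abs_self _).trans (hB x (by
      have := mem_box (x := x) (a := 0) (R := 2) (by norm_num) (by rw [sub_zero]; linarith)
      simpa using this))
    refine le_trans (le_of_eq ?_) h5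
    simp only [Φ]
    norm_num
  have hgP : ∀ x, x ≠ 0 → g x ≤ P x := fun x hx => by
    rcases lt_or_ge (sqr (x - b)) 1 with hb | hb
    · exact (hgle x hb).trans (hlow x hx)
    · rw [hgs x hb]; exact (hP x hx).le
  have := hcut X P b ρ (K₀ * Γ) hρ1 (mul_nonneg hK₀ hΓ0) (fun i => continuousOn_flux h' hKs i)
    (continuousOn_divergence h' hKs) hP (fun φ hφ hc hs => h'.identity hKs hφ hc hs) hfar hnear g hg
    hgs hgP
  linarith [hgJ]

end

end Vale.Agent.P100.OrbitCert
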