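import Vale.Agent.P100.OrbitCert.MarginOf
import Vale.Agent.P100.Ineq.Normal
import Vale.Agent.P100.Weighted.Main

/-!
# P100: the orbit margins above dimension five from the three pointwise signs
-/

namespace Vale.Agent.P100.OrbitCert

open Set Orbit

noncomputable section

/-- The two normal forms of the determinant agree. -/
theorem nE_eq_cE (S f x z w : ℝ) : nE S f x z w = Ineq.cE S f x z w := by
  simp only [nE, nPP, nLam, Ineq.cE, Ineq.cPP, Ineq.cLam, Ineq.cQ, Ineq.cV, Ineq.cH, Ineq.cEps]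

/-- The margins on every critical orbit of dimension above five. -/
theorem margins_of_signs
    (hneg : ∀ N p q T₁ T₀ U V, 5 < N → Setting N p q T₁ T₀ U V → ∀ T ∈ Icc T₀ 0,
      (orbitPoint N p q U V (finalRule N q) T).Good)
    (hR4 : ∀ S f x z w : ℝ, 3 < S → 3 / 5 ≤ f → InRegion S f x z w →
      0 < (S + 2) * z - f * S → ((S + 2) * z - f * S) ^ 2 = 6 * (1 - x + (1 - f) ^ 3) →
      2 * ((S + 2) * z - f * S) * (S + 2) * (rP S f z - x * rPm S f z w)
        + 6 * x * (2 * (1 - x) + x * (S + 2) * (f - w) / f) < 0)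
    (hE : ∀ S f x z w : ℝ, 3 < S → InRegion S f x z w →
      (3 / 5 ≤ f → (S + 2) * z - f * S ≤ 0 ∨
        ((S + 2) * z - f * S) ^ 2 ≤ 6 * (1 - x + (1 - f) ^ 3)) →
      0 < Ineq.cE S f x z w) :
    Weighted.Margins 5 := by
  intro p q _ _ _ h5 T₁ T₀ U V s
  set N := critDim p q
  obtain ⟨hf, hf1⟩ := s.fα_mem
  obtain ⟨κ, hm⟩ := s.exists_margin_of_good h5.le fun T hT => by
    rcases le_or_gt T 0 with h | h
    · exact hneg _ _ _ _ _ _ _ h5 s T ⟨hT, h⟩
    · exact s.good_of_region hR4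
        (fun S f x z w a b c => (nE_eq_cE S f x z w).symm ▸ hE S f x z w a b c) h5 h
  have hg : 0 < 1 - fα N q := by linarith
  refine ⟨_, κ, ?_, ?_, hm⟩
  · simp only [finalRule]
    have : 0 < fα N q := by linarith
    positivity
  have e : cα N p = (1 - fα N q) * (N - 2) := by
    rw [fα, sub_mul, div_mul_cancel₀ _ (by linarith : N - 2 ≠ 0), one_mul]
    linarith [s.sum_eq]
  rw [e]
  simp only [finalRule]
  calc 4 * fα N q * (1 - fα N q) * (N - 2) = 4 * fα N q * ((1 - fα N q) * (N - 2)) := by ring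
    _ < _ := mul_lt_mul_of_pos_right (by linarith) (mul_pos hg (by linarith))

end

end Vale.Agent.P100.OrbitCert
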